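import Vale.Agent.P145.FA.Rp

/-!
P145, block F-A: the law of the absolute heights: change of the base face, height property,
invariance under the even translations and the reflections.
-/

namespace Vale.Agent.P145.FA

open Finset Filter Topology MeasureTheory
open Vale.Agent.P152

/-! ### parity -/

theorem anti_parity (g : ℤ → ℤ) (hg : ∀ n, (2 : ℤ) ∣ g n - 1) (n : ℤ) : (2 : ℤ) ∣ anti g n - n := by
  induction n using Int.induction_on with
  | zero => rw [anti_zero]; norm_num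
  | succ i ih =>
    have h1 := anti_step g (i + 1)
    rw [add_sub_cancel_right] at h1
    have h2 := hg (i + 1)
    omega
  | pred i ih =>
    have h1 := anti_step g (-i)
    have h2 := hg (-i)
    omega

theorem sgb_parity (x : Bool) : (2 : ℤ) ∣ sgb x - 1 := by cases x <;> decide

theorem pth_parity (ω : Ori (ℤ × ℤ)) (q : ℤ × ℤ) : (2 : ℤ) ∣ pth ω q - (q.1 + q.2) := by
  have h1 := anti_parity (fun j => sgb (ω (Sum.inl (0, j)))) (fun n => sgb_parity _) q.2
  have h2 := anti_parity (fun i => sgb (ω (Sum.inr (i, q.2)))) (fun n => sgb_parity _) q.1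
  unfold pth
  omega

/-! ### sums over the constants -/

theorem sum_shift {Ω : Type*} [MeasurableSpace Ω] (P : Measure Ω) {Φ : Ω → Hgt}
    (hΦ : Measurable Φ) {j : Ω → ℤ} (hj : Measurable j) :
    Measure.sum (fun k : ℤ => P.map (fun ω q => Φ ω q + 2 * (k + j ω))) =
      Measure.sum (fun k : ℤ => P.map (fun ω q => Φ ω q + 2 * k)) := by
  have hq : ∀ q, Measurable fun ω => Φ ω q := fun q => (measurable_pi_apply q).comp hΦ
  have m1 : ∀ k : ℤ, Measurable (fun ω => (fun q => Φ ω q + 2 * (k + j ω) : Hgt)) := fun k =>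
    measurable_pi_lambda _ fun q => (hq q).add ((hj.const_add k).const_mul 2)
  have m2 : ∀ k : ℤ, Measurable (fun ω => (fun q => Φ ω q + 2 * k : Hgt)) := fun k =>
    measurable_pi_lambda _ fun q => (hq q).add_const _
  refine Measure.ext_of_lintegral _ fun f hf => ?_
  rw [lintegral_sum_measure, lintegral_sum_measure]
  have e1 : ∀ k : ℤ, ∫⁻ h, f h ∂(P.map (fun ω q => Φ ω q + 2 * (k + j ω))) =
      ∫⁻ ω, f (fun q => Φ ω q + 2 * (k + j ω)) ∂P := fun k => lintegral_map hf (m1 k)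
  have e2 : ∀ k : ℤ, ∫⁻ h, f h ∂(P.map (fun ω q => Φ ω q + 2 * k)) =
      ∫⁻ ω, f (fun q => Φ ω q + 2 * k) ∂P := fun k => lintegral_map hf (m2 k)
  have n1 : ∀ k : ℤ, AEMeasurable (fun ω => f (fun q => Φ ω q + 2 * (k + j ω))) P := fun k =>
    (hf.comp (m1 k)).aemeasurable
  have n2 : ∀ k : ℤ, AEMeasurable (fun ω => f (fun q => Φ ω q + 2 * k)) P := fun k =>
    (hf.comp (m2 k)).aemeasurable
  rw [tsum_congr e1, tsum_congr e2, ← lintegral_tsum n1, ← lintegral_tsum n2]
  refine lintegral_congr fun ω => ?_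
  exact (Equiv.addRight (j ω)).tsum_eq (fun k => f (fun q => Φ ω q + 2 * k))

theorem measurable_pthf : Measurable (fun ω : Ori (ℤ × ℤ) => (pth ω : Hgt)) :=
  measurable_pi_lambda _ fun q => measurable_pth q

/-- M1 -/
theorem s_base : S_base := by
  intro c P _ b R _ _ F hF
  set j : Ori (ℤ × ℤ) → ℤ := fun ω => (b.1 + b.2 - pth ω b) / 2 with hj
  have hjm : Measurable j := (measurable_from_top (f := fun z : ℤ => z / 2)).comp
    ((measurable_pth b).const_sub _)
  have e1 : ∀ (k : ℤ) (ω : Ori (ℤ × ℤ)) (q : ℤ × ℤ),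
      pth ω q - pth ω b + (2 * k + b.1 + b.2) = pth ω q + 2 * (k + j ω) := by
    intro k ω q
    have h1 := pth_parity ω b
    simp only [hj]
    omega
  have e2 : mu0 P = Measure.sum (fun k : ℤ => P.map (fun ω q => pth ω q + 2 * (k + j ω))) :=
    (sum_shift P measurable_pthf hjm).symm
  rw [e2] at hF ⊢
  have h1 := hasSum_integral_measure hF
  have m1 : ∀ k : ℤ, Measurable (fun ω => (fun q => pth ω q + 2 * (k + j ω) : Hgt)) := fun k =>
    measurable_pi_lambda _ fun q => (measurable_pth q).add ((hjm.const_add k).const_mul 2)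
  have e3 : ∀ k : ℤ, ∫ h, F h ∂(P.map (fun ω q => pth ω q + 2 * (k + j ω))) =
      ∫ ω, F (fun q => pth ω q - pth ω b + (2 * k + b.1 + b.2)) ∂P := by
    intro k
    rw [integral_map (m1 k).aemeasurable (hF.1.mono_measure (Measure.le_sum _ k))]
    simp only [e1]
  simpa only [e3] using h1

/-- M2 -/
theorem s_lip : S_lip := by
  intro c P hP
  unfold mu0
  rw [Measure.ae_sum_iff]
  intro k
  have hs : MeasurableSet {h : Hgt | ∀ q : ℤ × ℤ,
      (2 : ℤ) ∣ h q - (q.1 + q.2) ∧ |h (q + (1, 0)) - h q| = 1 ∧ |h (q + (0, 1)) - h q| = 1} := by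
    rw [Set.ofPred_forall]
    refine MeasurableSet.iInter fun q => ?_
    have h1 : Measurable fun h : Hgt => (h q, h (q + (1, 0)), h (q + (0, 1))) :=
      (measurable_pi_apply q).prodMk ((measurable_pi_apply _).prodMk (measurable_pi_apply _))
    exact h1 (MeasurableSet.of_discrete (s := {z : ℤ × ℤ × ℤ |
      (2 : ℤ) ∣ z.1 - (q.1 + q.2) ∧ |z.2.1 - z.1| = 1 ∧ |z.2.2 - z.1| = 1}))
  rw [ae_map_iff (measurable_hgt k).aemeasurable hs]
  filter_upwards [hP.ice] with ω hω q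
  have hh := isHeight_iff.1 (pth_isHeight hω)
  obtain ⟨x, y⟩ := q
  have hsg : ∀ z : Bool, sgb z = 1 ∨ sgb z = -1 := by intro z; cases z <;> decide
  refine ⟨?_, ?_, ?_⟩
  · have := pth_parity ω (x, y)
    omega
  · have h1 := (hh (x + 1) y).2
    rw [add_sub_cancel_right] at h1
    have e1 : ((x, y) + (1, 0) : ℤ × ℤ) = (x + 1, y) := by ext <;> simp
    rw [e1]
    rcases hsg (ω (Sum.inr (x + 1, y))) with h2 | h2 <;> rw [h2] at h1
    · rw [show pth ω (x + 1, y) + 2 * k - (pth ω (x, y) + 2 * k) = -1 by omega]; norm_num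
    · rw [show pth ω (x + 1, y) + 2 * k - (pth ω (x, y) + 2 * k) = 1 by omega]; norm_num
  · have h1 := (hh x (y + 1)).1
    rw [add_sub_cancel_right] at h1
    have e1 : ((x, y) + (0, 1) : ℤ × ℤ) = (x, y + 1) := by ext <;> simp
    rw [e1]
    rcases hsg (ω (Sum.inl (x, y + 1))) with h2 | h2 <;> rw [h2] at h1
    · rw [show pth ω (x, y + 1) + 2 * k - (pth ω (x, y) + 2 * k) = 1 by omega]; norm_num
    · rw [show pth ω (x, y + 1) + 2 * k - (pth ω (x, y) + 2 * k) = -1 by omega]; norm_num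

/-! ### invariance -/

theorem inv_of {P : Measure (Ori (ℤ × ℤ))} {R : Ori (ℤ × ℤ) → Ori (ℤ × ℤ)} (hR : Measurable R)
    (hPR : P.map R = P) (hice : ∀ᵐ ω ∂P, ∀ x y, Ice ω x y) {g : ℤ × ℤ → ℤ × ℤ}
    (hg : (2 : ℤ) ∣ (g 0).1 + (g 0).2)
    (h : ∀ ω h, IsHeight ω h → IsHeight (R ω) (fun q => h (g q))) :
    (mu0 P).map (pb g) = mu0 P := by
  set j : Ori (ℤ × ℤ) → ℤ := fun ω => pth ω (g 0) / 2 with hj
  have hjm : Measurable j := (measurable_from_top (f := fun z : ℤ => z / 2)).comp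
    (measurable_pth (g 0))
  have e1 : (mu0 P).map (pb g) = Measure.sum (fun k : ℤ =>
      P.map (fun ω q => pth (R ω) q + 2 * (k + j ω))) := by
    unfold mu0
    rw [Measure.map_sum (measurable_pb g).aemeasurable]
    congr 1
    funext k
    rw [Measure.map_map (measurable_pb g) (measurable_hgt k)]
    refine Measure.map_congr ?_
    filter_upwards [hice] with ω hω
    funext q
    show pth ω (g q) + 2 * k = pth (R ω) q + 2 * (k + j ω)
    rw [← height_eq_pth (h ω _ (pth_isHeight hω)) q]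
    have h2 := pth_parity ω (g 0)
    simp only [hj]
    omega
  have m1 : Measurable fun ω => (pth (R ω) : Hgt) := measurable_pthf.comp hR
  rw [e1, sum_shift P m1 hjm]
  unfold mu0
  congr 1
  funext k
  conv_rhs => rw [← hPR]
  rw [Measure.map_map (measurable_hgt k) hR]
  rfl

theorem map_comp {P : Measure (Ori (ℤ × ℤ))} {R S : Ori (ℤ × ℤ) → Ori (ℤ × ℤ)}
    (hR : Measurable R) (hS : Measurable S) (h1 : P.map R = P) (h2 : P.map S = P) :
    P.map (fun ω => R (S ω)) = P := by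
  have := Measure.map_map (μ := P) hR hS
  rw [h2, h1] at this
  exact this.symm

/-- shifts of the arrows -/
def shA (a : ℤ × ℤ) (ω : Ori (ℤ × ℤ)) : Ori (ℤ × ℤ) := fun e => ω (Sum.map (· + a) (· + a) e)

/-- transposition of the arrows -/
def trA (ω : Ori (ℤ × ℤ)) : Ori (ℤ × ℤ) :=
  Sum.elim (fun v => ω (Sum.inr v.swap)) (fun v => ω (Sum.inl v.swap))

/-- reversal of the arrows -/
def revA (ω : Ori (ℤ × ℤ)) : Ori (ℤ × ℤ) := fun e => !(ω e)

/-- reflection of the arrows -/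
def refA (ω : Ori (ℤ × ℤ)) : Ori (ℤ × ℤ) :=
  Sum.elim (fun v => ω (Sum.inl (-v.1 - 1, v.2))) (fun v => !(ω (Sum.inr (-v.1, v.2))))

theorem measurable_not' {e : Edge (ℤ × ℤ)} : Measurable fun ω : Ori (ℤ × ℤ) => !(ω e) :=
  (measurable_from_top (f := fun z : Bool => !z)).comp (measurable_pi_apply e)

theorem meas_shA (a : ℤ × ℤ) : Measurable (shA a) :=
  measurable_pi_lambda _ fun _ => measurable_pi_apply _

theorem meas_trA : Measurable trA := by
  refine measurable_pi_lambda _ fun e => ?_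
  rcases e with v | v
  · exact measurable_pi_apply _
  · exact measurable_pi_apply _

theorem meas_revA : Measurable revA := measurable_pi_lambda _ fun _ => measurable_not'

theorem meas_refA : Measurable refA := by
  refine measurable_pi_lambda _ fun e => ?_
  rcases e with v | v
  · exact measurable_pi_apply _
  · exact measurable_not'

theorem measA_RX (m : ℤ) : Measurable (RX m : Ori (ℤ × ℤ) → Ori (ℤ × ℤ)) := by
  refine measurable_pi_lambda _ fun e => ?_
  rcases e with v | v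
  · exact measurable_pi_apply _
  · exact measurable_not'

theorem RX_eq (m : ℤ) (ω : Ori (ℤ × ℤ)) : RX m ω = refA (shA (2 * m + 1, 0) ω) := by
  funext e
  rcases e with ⟨x, y⟩ | ⟨x, y⟩
  · show ω (Sum.inl (2 * m - x, y)) = ω (Sum.inl ((-x - 1, y) + (2 * m + 1, 0)))
    congr 2
    ext <;> simp; ring
  · show (!(ω (Sum.inr (2 * m - x + 1, y)))) = !(ω (Sum.inr ((-x, y) + (2 * m + 1, 0))))
    congr 3
    ext <;> simp; ring

theorem RY_eq (m : ℤ) (ω : Ori (ℤ × ℤ)) : RY m ω = trA (RX m (trA ω)) := by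
  funext e
  rcases e with ⟨x, y⟩ | ⟨x, y⟩ <;> rfl

theorem RD_eq (m : ℤ) (ω : Ori (ℤ × ℤ)) : RD m ω = revA (trA (shA (m, -m) ω)) := by
  funext e
  rcases e with ⟨x, y⟩ | ⟨x, y⟩
  · show (!(ω (Sum.inr (y + m, x - m)))) = !(ω (Sum.inr ((y, x) + (m, -m))))
    congr 3
  · show (!(ω (Sum.inl (y + m, x - m)))) = !(ω (Sum.inl ((y, x) + (m, -m))))
    congr 3

theorem RA_eq (m : ℤ) (ω : Ori (ℤ × ℤ)) :
    RA m ω = revA (RX 0 (trA (RX 0 (shA (m, m) ω)))) := by
  funext e
  rcases e with ⟨x, y⟩ | ⟨x, y⟩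
  · show ω (Sum.inr (m - y + 1, m - x)) = !!(ω (Sum.inr ((2 * 0 - y + 1, 2 * 0 - x) + (m, m))))
    rw [Bool.not_not]
    congr 2
    ext <;> simp <;> ring
  · show ω (Sum.inl (m - y, m - x + 1)) = !!(ω (Sum.inl ((2 * 0 - y, 2 * 0 - x + 1) + (m, m))))
    rw [Bool.not_not]
    congr 2
    ext <;> simp <;> ring

theorem isHeight_shA {ω : Ori (ℤ × ℤ)} {h : Hgt} (a : ℤ × ℤ) (hh : IsHeight ω h) :
    IsHeight (shA a ω) (fun q => h (q + a)) := by
  rw [isHeight_iff] at hh ⊢
  intro x y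
  refine ⟨?_, ?_⟩
  · show h ((x, y) + a) - h ((x, y - 1) + a) = sgb (ω (Sum.inl ((x, y) + a)))
    have h1 := (hh (x + a.1) (y + a.2)).1
    have e1 : ((x, y) + a : ℤ × ℤ) = (x + a.1, y + a.2) := rfl
    have e2 : ((x, y - 1) + a : ℤ × ℤ) = (x + a.1, y + a.2 - 1) := by
      ext <;> simp; ring
    rw [e1, e2, h1]
  · show h ((x - 1, y) + a) - h ((x, y) + a) = sgb (ω (Sum.inr ((x, y) + a)))
    have h1 := (hh (x + a.1) (y + a.2)).2
    have e1 : ((x, y) + a : ℤ × ℤ) = (x + a.1, y + a.2) := rfl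
    have e2 : ((x - 1, y) + a : ℤ × ℤ) = (x + a.1 - 1, y + a.2) := by
      ext <;> simp; ring
    rw [e1, e2, h1]

/-- M3 -/
theorem s_inv : S_inv := by
  intro c P hP
  have hsh : ∀ a, P.map (shA a) = P := fun a => hP.shift a
  have htr : P.map trA = P := hP.tr
  have hrev : P.map revA = P := hP.rev
  have href : P.map refA = P := hP.refl
  have hX : ∀ m : ℤ, P.map (RX m) = P := fun m => by
    rw [show (RX m : Ori (ℤ × ℤ) → Ori (ℤ × ℤ)) = fun ω => refA (shA (2 * m + 1, 0) ω) from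
      funext (RX_eq m)]
    exact map_comp meas_refA (meas_shA _) href (hsh _)
  have hYm : ∀ m : ℤ, Measurable (RY m : Ori (ℤ × ℤ) → Ori (ℤ × ℤ)) := fun m => by
    rw [show (RY m : Ori (ℤ × ℤ) → Ori (ℤ × ℤ)) = fun ω => trA (RX m (trA ω)) from
      funext (RY_eq m)]
    exact meas_trA.comp ((measA_RX m).comp meas_trA)
  have hY : ∀ m : ℤ, P.map (RY m) = P := fun m => by
    rw [show (RY m : Ori (ℤ × ℤ) → Ori (ℤ × ℤ)) = fun ω => trA (RX m (trA ω)) from
      funext (RY_eq m)]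
    exact map_comp meas_trA ((measA_RX m).comp meas_trA) htr
      (map_comp (measA_RX m) meas_trA (hX m) htr)
  have hDm : ∀ m : ℤ, Measurable (RD m : Ori (ℤ × ℤ) → Ori (ℤ × ℤ)) := fun m => by
    rw [show (RD m : Ori (ℤ × ℤ) → Ori (ℤ × ℤ)) = fun ω => revA (trA (shA (m, -m) ω)) from
      funext (RD_eq m)]
    exact meas_revA.comp (meas_trA.comp (meas_shA _))
  have hD : ∀ m : ℤ, P.map (RD m) = P := fun m => by
    rw [show (RD m : Ori (ℤ × ℤ) → Ori (ℤ × ℤ)) = fun ω => revA (trA (shA (m, -m) ω)) from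
      funext (RD_eq m)]
    exact map_comp meas_revA (meas_trA.comp (meas_shA _)) hrev
      (map_comp meas_trA (meas_shA _) htr (hsh _))
  have hAm : ∀ m : ℤ, Measurable (RA m : Ori (ℤ × ℤ) → Ori (ℤ × ℤ)) := fun m => by
    rw [show (RA m : Ori (ℤ × ℤ) → Ori (ℤ × ℤ)) =
      fun ω => revA (RX 0 (trA (RX 0 (shA (m, m) ω)))) from funext (RA_eq m)]
    exact meas_revA.comp ((measA_RX 0).comp (meas_trA.comp ((measA_RX 0).comp (meas_shA _))))
  have hA : ∀ m : ℤ, P.map (RA m) = P := fun m => by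
    rw [show (RA m : Ori (ℤ × ℤ) → Ori (ℤ × ℤ)) =
      fun ω => revA (RX 0 (trA (RX 0 (shA (m, m) ω)))) from funext (RA_eq m)]
    exact map_comp meas_revA ((measA_RX 0).comp (meas_trA.comp ((measA_RX 0).comp (meas_shA _))))
      hrev (map_comp (measA_RX 0) (meas_trA.comp ((measA_RX 0).comp (meas_shA _))) (hX 0)
      (map_comp meas_trA ((measA_RX 0).comp (meas_shA _)) htr
      (map_comp (measA_RX 0) (meas_shA _) (hX 0) (hsh _))))
  have hshift : ∀ a : ℤ × ℤ, (2 : ℤ) ∣ a.1 + a.2 → (mu0 P).map (pb (fun q => q + a)) = mu0 P := by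
    intro a ha
    refine inv_of (meas_shA a) (hsh a) hP.ice (by simpa using ha) fun ω h hh => isHeight_shA a hh
  refine ⟨hshift, ⟨fun m => ?_, hshift _ ?_⟩, ⟨fun m => ?_, hshift _ ?_⟩, ⟨fun m => ?_, hshift _ ?_⟩,
    ⟨fun m => ?_, hshift _ ?_⟩⟩
  · refine inv_of (measA_RX m) (hX m) hP.ice ?_ (liftX m).hR
    simp [dX]
  · simp [dX]
  · refine inv_of (hYm m) (hY m) hP.ice ?_ (liftY m).hR
    simp [dY]
  · simp [dY]
  · refine inv_of (hDm m) (hD m) hP.ice ?_ (liftD m).hR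
    simp [dD]
  · simp [dD]
  · refine inv_of (hAm m) (hA m) hP.ice ?_ (liftA m).hR
    simp only [dA, Prod.fst_zero, Prod.snd_zero]
    omega
  · simp [dA]

/-- R4 -/
theorem s_rp : S_rp := s_rp_of s_base

end Vale.Agent.P145.FA
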