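import Vale.Agent.P145.FA.RpG

/-!
P145: convergence of the boxes with free arrows for `c ^ 2 ≤ 2`.
-/

namespace Vale.Agent.P145.FA

open Finset Filter Topology MeasureTheory
open Vale.Agent.P152 Vale.Agent.P152.GFF.B3 Vale.Agent.P152.GFF.E2

theorem boxLim_of_sq {c : ℝ} (hc : 0 < c) (hc2 : c ^ 2 ≤ 2) : BoxLim c := by
  intro m r hm hr Ψ _ ε hε
  obtain ⟨q0, hq0⟩ := m_muI (wc c) (wc_good hc hc2) m r hm hr Ψ ε hε
  exact ⟨q0, fun q hq => hq0 (q + m + q) (q + r + q) q q (by omega) (by omega) hq hq (by omega)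
    (by omega)⟩

end Vale.Agent.P145.FA
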