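import Vale.Agent.P152.GFF.S.Defs

/-!
P145, block F-A (product Schwinger-Dyson identity for the six-vertex heights): definitions.

`mu0 P` is the law of the absolute heights: `P` times counting measure on the even constants.
A direction `D : Dir` consists of a linear form `D.l`, the reflections `D.θ m` in the lines
`D.l = m` and the translation `D.s = D.θ 1 ∘ D.θ 0`; `D.l D.s = 2`.
-/

namespace Vale.Agent.P145.FA

open Finset Filter Topology MeasureTheory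
open Vale.Agent.P152

/-- Absolute heights. -/
abbrev Hgt : Type := ℤ × ℤ → ℤ

/-- `P` times counting measure on the even constants. -/
noncomputable def mu0 (P : Measure (Ori (ℤ × ℤ))) : Measure Hgt :=
  Measure.sum fun k : ℤ => P.map (fun ω q => pth ω q + 2 * k)

/-- Pull-back of a height function along a map of the faces. -/
def pb (g : ℤ × ℤ → ℤ × ℤ) (h : Hgt) : Hgt := fun q => h (g q)

/-- Directions. -/
structure Dir where
  l : ℤ × ℤ → ℤ
  θ : ℤ → ℤ × ℤ → ℤ × ℤ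
  s : ℤ × ℤ

/-- Columns. -/
def dX : Dir := ⟨fun q => q.1, fun m q => (2 * m - q.1, q.2), (2, 0)⟩

/-- Rows. -/
def dY : Dir := ⟨fun q => q.2, fun m q => (q.1, 2 * m - q.2), (0, 2)⟩

/-- Diagonals. -/
def dD : Dir := ⟨fun q => q.1 - q.2, fun m q => (q.2 + m, q.1 - m), (1, -1)⟩

/-- Antidiagonals. -/
def dA : Dir := ⟨fun q => q.1 + q.2, fun m q => (m - q.2, m - q.1), (1, 1)⟩

/-- Opposite direction. -/
def Dir.neg (D : Dir) : Dir := ⟨fun q => - D.l q, fun m q => D.θ (-m) q, - D.s⟩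

/-- The functional `F` depends only on the heights of finitely many faces of `A`. -/
def Loc {R : Type} (A : Set (ℤ × ℤ)) (F : Hgt → R) : Prop :=
  ∃ Λ : Finset (ℤ × ℤ), (∀ q ∈ Λ, q ∈ A) ∧ ∀ h h' : Hgt, (∀ q ∈ Λ, h q = h' q) → F h = F h'

/-- Admissible functionals: local in `A`, bounded, integrable. -/
structure Adm {R : Type} [NormedAddCommGroup R] (P : Measure (Ori (ℤ × ℤ))) (A : Set (ℤ × ℤ))
    (F : Hgt → R) : Prop where
  loc : Loc A F
  bdd : ∃ C : ℝ, ∀ h, ‖F h‖ ≤ C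
  int : Integrable F (mu0 P)

/-- Translate of a functional by `n • D.s`. -/
def tr {R : Type} (D : Dir) (n : ℕ) (F : Hgt → R) : Hgt → R :=
  fun h => F (pb (fun q => q + n • D.s) h)

/-- The height law is invariant under the reflections and the translation of `D`. -/
def Inv (P : Measure (Ori (ℤ × ℤ))) (D : Dir) : Prop :=
  (∀ m, (mu0 P).map (pb (D.θ m)) = mu0 P) ∧ (mu0 P).map (pb (fun q => q + D.s)) = mu0 P

/-- Reflection positivity. -/
def RP (P : Measure (Ori (ℤ × ℤ))) (D : Dir) : Prop :=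
  ∀ (m : ℤ) (F : Hgt → ℝ), Adm P {q | m ≤ D.l q} F → 0 ≤ ∫ h, F h * F (pb (D.θ m) h) ∂(mu0 P)

/-- The leg inequality for real functionals. -/
def LegIneq (P : Measure (Ori (ℤ × ℤ))) (D : Dir) : Prop :=
  ∀ (m : ℤ) (F G : Hgt → ℝ), Adm P {q | m ≤ D.l q} F → Adm P {q | D.l q ≤ m} G →
    ∀ (p : Polynomial ℝ) (c : ℝ), (∀ x ∈ Set.Icc (0 : ℝ) 1, |p.eval x| ≤ c) →
    |∑ i ∈ p.support, p.coeff i * ∫ h, G h * tr D i F h ∂(mu0 P)| ≤
      c * √(∫ h, F h ^ 2 ∂(mu0 P)) * √(∫ h, G h ^ 2 ∂(mu0 P))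

/-- Extrapolation along a direction, for complex functionals: if the two groups `G n`, `F n` are
separated by a strip of width `2 N n` and the integral tends to zero when `F n` is translated by
`k * N n` steps for every large integer `k`, it tends to zero for `k = 0`. -/
def LegLim (P : Measure (Ori (ℤ × ℤ))) (D : Dir) : Prop :=
  ∀ (N : ℕ → ℕ) (m : ℕ → ℤ) (F G : ℕ → Hgt → ℂ) (C : ℝ),
    (∀ n, Adm P {q | m n + 2 * N n ≤ D.l q} (F n)) → (∀ n, Adm P {q | D.l q ≤ m n} (G n)) →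
    (∀ n, ∫ h, ‖F n h‖ ^ 2 ∂(mu0 P) ≤ C) → (∀ n, ∫ h, ‖G n h‖ ^ 2 ∂(mu0 P) ≤ C) →
    (∃ k0 : ℕ, ∀ k, k0 ≤ k →
      Tendsto (fun n => ∫ h, G n h * tr D (k * N n) (F n) h ∂(mu0 P)) atTop (𝓝 0)) →
    (∀ n, 1 ≤ N n) →
    Tendsto (fun n => ∫ h, G n h * F n h ∂(mu0 P)) atTop (𝓝 0)

/-! ### Reflection positivity of the gradients -/

/-- Arrows between faces of the half plane `m ≤ D.l`. -/
def Half (D : Dir) (m : ℤ) : Set (Edge (ℤ × ℤ)) :=
  {e | Sum.elim (fun v : ℤ × ℤ => m ≤ D.l v ∧ m ≤ D.l (v.1, v.2 - 1))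
    (fun v : ℤ × ℤ => m ≤ D.l v ∧ m ≤ D.l (v.1 - 1, v.2)) e}

/-- Reflection of the arrows in the face column `m`. -/
def RX {A : Type} [Ring A] (m : A) (ω : Ori (A × A)) : Ori (A × A) := fun e =>
  match e with
  | Sum.inl v => ω (Sum.inl (2 * m - v.1, v.2))
  | Sum.inr v => !(ω (Sum.inr (2 * m - v.1 + 1, v.2)))

/-- Reflection of the arrows in the face row `m`. -/
def RY {A : Type} [Ring A] (m : A) (ω : Ori (A × A)) : Ori (A × A) := fun e =>
  match e with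
  | Sum.inl v => !(ω (Sum.inl (v.1, 2 * m - v.2 + 1)))
  | Sum.inr v => ω (Sum.inr (v.1, 2 * m - v.2))

/-- Reflection of the arrows in the diagonal `q.1 - q.2 = m`. -/
def RD {A : Type} [Ring A] (m : A) (ω : Ori (A × A)) : Ori (A × A) := fun e =>
  match e with
  | Sum.inl v => !(ω (Sum.inr (v.2 + m, v.1 - m)))
  | Sum.inr v => !(ω (Sum.inl (v.2 + m, v.1 - m)))

/-- Reflection of the arrows in the antidiagonal `q.1 + q.2 = m`. -/
def RA {A : Type} [Ring A] (m : A) (ω : Ori (A × A)) : Ori (A × A) := fun e =>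
  match e with
  | Sum.inl v => ω (Sum.inr (m - v.2 + 1, m - v.1))
  | Sum.inr v => ω (Sum.inl (m - v.2, m - v.1 + 1))

/-- Reflection positivity of the arrows. -/
def GRP (P : Measure (Ori (ℤ × ℤ))) (D : Dir) (R : ℤ → Ori (ℤ × ℤ) → Ori (ℤ × ℤ)) : Prop :=
  ∀ (m : ℤ) (f : Ori (ℤ × ℤ) → ℝ) (Λ : Finset (Edge (ℤ × ℤ))), (∀ e ∈ Λ, e ∈ Half D m) →
    (∀ ω ω', (∀ e ∈ Λ, ω e = ω' e) → f ω = f ω') → 0 ≤ ∫ ω, f ω * f (R m ω) ∂P

end Vale.Agent.P145.FA
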