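import Vale.Agent.P145.FA.Base
import Vale.Agent.P145.FA.Hp5
import Vale.Agent.P145.FA.SFa

/-!
P145, block F-A: the product form of the null property for the six-vertex measure.
-/

namespace Vale.Agent.P145.FA

open Finset Filter Topology MeasureTheory
open Vale.Agent.P152

/-- all legs, from the reflection positivity of the arrows -/
theorem legs_all {c : ℝ} {P : Measure (Ori (ℤ × ℤ))} (hPl : Pl c P)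
    (hG : GRP P dX RX ∧ GRP P dY RY ∧ GRP P dD RD ∧ GRP P dA RA) :
    (∀ a : ℤ × ℤ, (2 : ℤ) ∣ a.1 + a.2 → (mu0 P).map (pb (fun q => q + a)) = mu0 P) ∧
    (∀ D ∈ [dX, dY, dD, dA, dX.neg, dY.neg, dD.neg, dA.neg], LegLim P D) ∧
    Inv P dY ∧ RP P dY := by
  haveI := hPl.prob
  obtain ⟨h0, iX, iY, iD, iA⟩ := s_inv c P hPl
  obtain ⟨rX, rY, rD, rA⟩ := s_rp c P hPl
  obtain ⟨⟨gX, gY, gD, gA⟩, gneg⟩ := s_good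
  have pX := rX hG.1
  have pY := rY hG.2.1
  have pD := rD hG.2.2.1
  have pA := rA hG.2.2.2
  have key : ∀ D : Dir, D.Good → Inv P D → RP P D → LegLim P D ∧ LegLim P D.neg := by
    intro D hD hI hR
    have hn := s_neg P D hD
    exact ⟨(s_leg P D hD hI hR).2, (s_leg P D.neg (gneg D hD) (hn.2 hI) (hn.1 hR)).2⟩
  refine ⟨h0, ?_, iY, pY⟩
  intro D hD
  simp only [List.mem_cons, List.not_mem_nil, or_false] at hD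
  rcases hD with rfl | rfl | rfl | rfl | rfl | rfl | rfl | rfl
  · exact (key _ gX iX pX).1
  · exact (key _ gY iY pY).1
  · exact (key _ gD iD pD).1
  · exact (key _ gA iA pA).1
  · exact (key _ gX iX pX).2
  · exact (key _ gY iY pY).2
  · exact (key _ gD iD pD).2
  · exact (key _ gA iA pA).2

/-- **Product form of the null property** for a plane measure with reflection-positive arrows. -/
theorem fa_pl {c : ℝ} {P : Measure (Ori (ℤ × ℤ))} (hPl : Pl c P)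
    (hG : GRP P dX RX ∧ GRP P dY RY ∧ GRP P dD RD ∧ GRP P dA RA)
    {w u φ : ℕ → (ℤ × ℤ) →₀ ℝ} {α : ℝ} (hSD : SDseq P w u φ α)
    (ρ : ℕ) (N : ℕ → ℕ) (xl xr yt : ℕ → ℤ) (hN : ∀ n, 1 ≤ N n)
    (hbox : ∀ n, |xl n| ≤ ρ * N n ∧ |xr n| ≤ ρ * N n ∧ |yt n| ≤ ρ * N n)
    (hsupp : ∀ n, ∀ q, q ∈ (w n).support ∨ q ∈ (u n).support ∨ q ∈ (φ n).support →
      0 ≤ q.2 ∧ q.2 ≤ yt n ∧ xl n ≤ q.1 ∧ q.1 ≤ xr n ∧ |q.1| ≤ ρ * N n ∧ |q.2| ≤ ρ * N n)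
    (G1 G2 G3 G4 : ℕ → Hgt → ℂ) (C : ℝ)
    (hG1 : ∀ n, Adm P {q | q.1 ≤ xl n - 2 * N n ∧ |q.1| ≤ ρ * N n ∧ |q.2| ≤ ρ * N n} (G1 n))
    (hG2 : ∀ n, Loc {q | yt n + 2 * N n ≤ q.2 ∧ xl n ≤ q.1 ∧ |q.1| ≤ ρ * N n ∧
      |q.2| ≤ ρ * N n} (G2 n))
    (hG3 : ∀ n, Loc {q | xr n + 2 * N n ≤ q.1 ∧ q.2 ≤ yt n ∧ |q.1| ≤ ρ * N n ∧
      |q.2| ≤ ρ * N n} (G3 n))
    (hG4 : ∀ n, Adm P {q | q.2 ≤ 0 ∧ q.2 ≤ yt n ∧ xl n ≤ q.1 ∧ q.1 ≤ xr n ∧ |q.1| ≤ ρ * N n ∧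
      |q.2| ≤ ρ * N n} (G4 n))
    (b1 : ∀ n h, ‖G1 n h‖ ≤ 1) (b2 : ∀ n h, ‖G2 n h‖ ≤ 1) (b3 : ∀ n h, ‖G3 n h‖ ≤ 1)
    (b4 : ∀ n h, ‖G4 n h‖ ≤ 1)
    (i1 : ∀ n, ∫ h, ‖G1 n h‖ ∂(mu0 P) ≤ C) (i4 : ∀ n, ∫ h, ‖G4 n h‖ ∂(mu0 P) ≤ C)
    (hT : Tight P φ G4) :
    Tendsto (fun n => ∫ h, Yf (w n) (u n) α h * G1 n h * G2 n h * G3 n h * G4 n h ∂(mu0 P))
      atTop (𝓝 0) := by
  haveI := hPl.prob
  obtain ⟨hinv, hL, hI, hR⟩ := legs_all hPl hG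
  exact s_fa_of hinv hL hSD.mφ
    (fun G C' a1 a2 a3 a4 => s_hp hI hR w u φ α hSD (fun n q hq => (hsupp n q hq).1) G C' a1 a2 a3
      a4) ρ N xl xr yt hN hbox hsupp G1 G2 G3 G4 C hG1 hG2 hG3 hG4 b1 b2 b3 b4 i1 i4 hT

end Vale.Agent.P145.FA
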