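import Mathlib

/-! P145, block F-A: Gaussian sums over the even integers. -/

namespace Vale.Agent.P145.FA

open Filter Topology

lemma summable_exp_sq : Summable (fun n : ℤ => Real.exp (-((n : ℝ) ^ 2))) := by
  have h1 : Summable (fun n : ℕ => Real.exp (-((n : ℝ)))) := Real.summable_exp_neg_nat
  refine Summable.of_nat_of_neg ?_ ?_
  · refine Summable.of_nonneg_of_le (fun n => (Real.exp_pos _).le) (fun n => ?_) h1
    refine Real.exp_le_exp.2 ?_
    push_cast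
    have : (n : ℝ) ≤ (n : ℝ) ^ 2 := by
      have h : n ≤ n ^ 2 := Nat.le_self_pow (by norm_num) n
      exact_mod_cast h
    linarith
  · refine Summable.of_nonneg_of_le (fun n => (Real.exp_pos _).le) (fun n => ?_) h1
    refine Real.exp_le_exp.2 ?_
    push_cast
    have : (n : ℝ) ≤ (n : ℝ) ^ 2 := by
      have h : n ≤ n ^ 2 := Nat.le_self_pow (by norm_num) n
      exact_mod_cast h
    rw [neg_sq]
    linarith

/-- Gaussian sums over the even integers. -/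
theorem gauss_sum : ∃ C : ℝ, 0 ≤ C ∧ ∀ K : ℝ, 1 ≤ K → ∀ t : ℝ,
    Summable (fun k : ℤ => Real.exp (-((t + 2 * k) ^ 2 / K ^ 2))) ∧
    |∑' k : ℤ, Real.exp (-((t + 2 * k) ^ 2 / K ^ 2)) - K * √Real.pi / 2| ≤
      C * (K * Real.exp (-K ^ 2)) := by
  set T : ℝ := ∑' n : ℤ, Real.exp (-((n : ℝ) ^ 2)) with hT
  have hT0 : 0 ≤ T := tsum_nonneg fun n => (Real.exp_pos _).le
  refine ⟨√Real.pi / 2 * T, by positivity, fun K hK t => ?_⟩
  have hK0 : 0 < K := by linarith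
  have hpi := Real.pi_pos
  set a : ℝ := 4 / (Real.pi * K ^ 2) with ha
  have ha0 : 0 < a := by positivity
  set b : ℝ := -(2 * t) / (Real.pi * K ^ 2) with hb
  have haC : 0 < (a : ℂ).re := by rw [Complex.ofReal_re]; exact ha0
  have key := Complex.tsum_exp_neg_quadratic haC (b : ℂ)
  have hterm : ∀ n : ℤ, Complex.exp (-(Real.pi : ℂ) * (a : ℂ) * (n : ℂ) ^ 2
      + 2 * (Real.pi : ℂ) * (b : ℂ) * (n : ℂ)) =
      ((Real.exp (t ^ 2 / K ^ 2) * Real.exp (-((t + 2 * n) ^ 2 / K ^ 2)) : ℝ) : ℂ) := by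
    intro n
    rw [← Real.exp_add, Complex.ofReal_exp]
    congr 1
    rw [ha, hb]
    push_cast
    field_simp
    ring
  have hterm2 : ∀ n : ℤ, ‖Complex.exp (-(Real.pi : ℂ) / (a : ℂ) * ((n : ℂ) +
      Complex.I * (b : ℂ)) ^ 2)‖ = Real.exp (t ^ 2 / K ^ 2) *
        Real.exp (-(Real.pi ^ 2 * K ^ 2 / 4 * n ^ 2)) := by
    intro n
    rw [Complex.norm_exp, ← Real.exp_add]
    congr 1
    have e : -(Real.pi : ℂ) / (a : ℂ) * ((n : ℂ) + Complex.I * (b : ℂ)) ^ 2 =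
        (((-Real.pi / a) * ((n : ℝ) ^ 2 - b ^ 2) : ℝ) : ℂ) +
          (((-Real.pi / a) * (2 * n * b) : ℝ) : ℂ) * Complex.I := by
      push_cast
      have := Complex.I_sq
      linear_combination (-(Real.pi : ℂ) / (a : ℂ) * (b : ℂ) ^ 2) * this
    rw [e]
    simp only [Complex.add_re, Complex.ofReal_re, Complex.mul_re, Complex.ofReal_im,
      Complex.I_re, Complex.I_im, mul_zero, zero_mul, sub_zero, mul_one]
    rw [ha, hb]
    field_simp
    ring
  have hK2 : (1 : ℝ) ≤ K ^ 2 := one_le_pow₀ hK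
  have hpi2 : (2 : ℝ) ≤ Real.pi ^ 2 / 4 := by nlinarith [Real.pi_gt_three]
  have hexp : ∀ n : ℤ, n ≠ 0 → Real.exp (-(Real.pi ^ 2 * K ^ 2 / 4 * n ^ 2)) ≤
      Real.exp (-K ^ 2) * Real.exp (-((n : ℝ) ^ 2)) := by
    intro n hn
    rw [← Real.exp_add]
    refine Real.exp_le_exp.2 ?_
    have h1 : (1 : ℝ) ≤ (n : ℝ) ^ 2 := by
      have : (1 : ℤ) ≤ n ^ 2 := by
        have := sq_pos_of_ne_zero hn
        omega
      exact_mod_cast this
    have h2 : 2 * (K ^ 2 * (n : ℝ) ^ 2) ≤ Real.pi ^ 2 / 4 * (K ^ 2 * (n : ℝ) ^ 2) :=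
      mul_le_mul_of_nonneg_right hpi2 (by positivity)
    nlinarith [mul_nonneg (sub_nonneg.2 hK2) (sub_nonneg.2 h1)]
  have hsumT := summable_exp_sq
  have hsumN : Summable (fun n : ℤ => Real.exp (-(Real.pi ^ 2 * K ^ 2 / 4 * n ^ 2))) := by
    refine Summable.of_nonneg_of_le (fun n => (Real.exp_pos _).le) (fun n => ?_) hsumT
    by_cases hn : n = 0
    · subst hn; simp
    · refine (hexp n hn).trans ?_
      have : Real.exp (-K ^ 2) ≤ 1 := Real.exp_le_one_iff.2 (by nlinarith)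
      exact mul_le_of_le_one_left (Real.exp_pos _).le this
  -- summability of the left side
  have hsumL : Summable (fun k : ℤ => Real.exp (-((t + 2 * k) ^ 2 / K ^ 2))) := by
    have h0 : Summable (fun n : ℤ => Complex.exp (-(Real.pi : ℂ) * (a : ℂ) * (n : ℂ) ^ 2
      + 2 * (Real.pi : ℂ) * (b : ℂ) * (n : ℂ))) := by
      have h1 := (summable_jacobiTheta₂_term_iff ((b : ℂ) / Complex.I)
        (Complex.I * (a : ℂ))).2 (by
          rw [Complex.mul_im, Complex.I_re, Complex.I_im, Complex.ofReal_re]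
          simpa using ha0)
      refine h1.congr fun n => ?_
      unfold jacobiTheta₂_term
      congr 1
      have hI : Complex.I ≠ 0 := Complex.I_ne_zero
      field_simp
      have := Complex.I_sq
      linear_combination ((n : ℂ) ^ 2 * (a : ℂ)) * this
    have h2 : Summable (fun n : ℤ => ((Real.exp (t ^ 2 / K ^ 2) *
        Real.exp (-((t + 2 * n) ^ 2 / K ^ 2)) : ℝ) : ℂ)) := by
      simpa only [hterm] using h0
    have h3 := (Complex.summable_ofReal.1 h2).mul_left (Real.exp (t ^ 2 / K ^ 2))⁻¹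
    refine h3.congr fun n => ?_
    rw [← mul_assoc, inv_mul_cancel₀ (Real.exp_pos _).ne', one_mul]
  refine ⟨hsumL, ?_⟩
  have hsqa : (1 : ℂ) / (a : ℂ) ^ (1 / 2 : ℂ) = ((K * √Real.pi / 2 : ℝ) : ℂ) := by
    have e1 : (a : ℂ) ^ (1 / 2 : ℂ) = ((a ^ (1 / 2 : ℝ) : ℝ) : ℂ) := by
      rw [Complex.ofReal_cpow ha0.le]
      push_cast
      rfl
    have e2 : a ^ (1 / 2 : ℝ) = 2 / (K * √Real.pi) := by
      rw [← Real.sqrt_eq_rpow, ha, Real.sqrt_div (by norm_num), Real.sqrt_mul hpi.le,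
        Real.sqrt_sq hK0.le, show (4 : ℝ) = 2 ^ 2 by norm_num, Real.sqrt_sq (by norm_num),
        mul_comm]
    rw [e1, e2]
    push_cast
    have : (√Real.pi : ℂ) ≠ 0 := by
      exact_mod_cast (Real.sqrt_pos.2 hpi).ne'
    have hK' : (K : ℂ) ≠ 0 := by exact_mod_cast hK0.ne'
    field_simp
  set z : ℤ → ℂ := fun n => Complex.exp (-(Real.pi : ℂ) / (a : ℂ) * ((n : ℂ) +
      Complex.I * (b : ℂ)) ^ 2) with hz
  have hz0 : z 0 = ((Real.exp (t ^ 2 / K ^ 2) : ℝ) : ℂ) := by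
    rw [hz]
    simp only
    rw [Complex.ofReal_exp]
    congr 1
    have := Complex.I_sq
    rw [ha, hb]
    push_cast
    have hK' : (K : ℂ) ≠ 0 := by exact_mod_cast hK0.ne'
    have hp' : (Real.pi : ℂ) ≠ 0 := by exact_mod_cast hpi.ne'
    field_simp
    ring_nf
    simp only [Complex.I_sq]
    ring
  have hzn : ∀ n, ‖z n‖ = Real.exp (t ^ 2 / K ^ 2) *
        Real.exp (-(Real.pi ^ 2 * K ^ 2 / 4 * n ^ 2)) := hterm2
  have hzs : Summable z := by
    refine Summable.of_norm ?_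
    simp only [hzn]
    exact hsumN.mul_left _
  have hL : ((Real.exp (t ^ 2 / K ^ 2) * ∑' k : ℤ, Real.exp (-((t + 2 * k) ^ 2 / K ^ 2)) : ℝ) : ℂ)
      = ((K * √Real.pi / 2 : ℝ) : ℂ) * ∑' n, z n := by
    rw [← hsqa, ← key, ← tsum_mul_left, Complex.ofReal_tsum]
    exact tsum_congr fun n => (hterm n).symm
  have hdiff : ((Real.exp (t ^ 2 / K ^ 2) * (∑' k : ℤ, Real.exp (-((t + 2 * k) ^ 2 / K ^ 2))
      - K * √Real.pi / 2) : ℝ) : ℂ) = ((K * √Real.pi / 2 : ℝ) : ℂ) *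
        (∑' n, z n - z 0) := by
    rw [mul_sub ((K * √Real.pi / 2 : ℝ) : ℂ), ← hL, hz0]
    push_cast
    ring
  have hrest : ∑' n, z n - z 0 = ∑' n : ℤ, (if n = 0 then 0 else z n) := by
    rw [hzs.tsum_eq_add_tsum_ite 0]
    ring
  have hnorm : ‖∑' n : ℤ, (if n = 0 then (0 : ℂ) else z n)‖ ≤
      Real.exp (t ^ 2 / K ^ 2) * (Real.exp (-K ^ 2) * T) := by
    rw [hT, ← tsum_mul_left, ← tsum_mul_left]
    refine tsum_of_norm_bounded ((hsumT.mul_left _).mul_left _).hasSum fun n => ?_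
    split_ifs with h
    · rw [norm_zero]; positivity
    · rw [hzn]
      exact mul_le_mul_of_nonneg_left (hexp n h) (Real.exp_pos _).le
  have hcpos : 0 < K * √Real.pi / 2 := by positivity
  have hfin : Real.exp (t ^ 2 / K ^ 2) * |∑' k : ℤ, Real.exp (-((t + 2 * k) ^ 2 / K ^ 2))
      - K * √Real.pi / 2| = K * √Real.pi / 2 *
        ‖∑' n : ℤ, (if n = 0 then (0 : ℂ) else z n)‖ := by
    have h := congrArg norm hdiff
    rw [hrest, norm_mul ((K * √Real.pi / 2 : ℝ) : ℂ), Complex.norm_real, Complex.norm_real,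
      Real.norm_eq_abs, Real.norm_eq_abs, abs_mul, abs_of_pos (Real.exp_pos _),
      abs_of_pos hcpos] at h
    exact h
  have h5 : Real.exp (t ^ 2 / K ^ 2) * |∑' k : ℤ, Real.exp (-((t + 2 * k) ^ 2 / K ^ 2))
      - K * √Real.pi / 2| ≤ Real.exp (t ^ 2 / K ^ 2) * (√Real.pi / 2 * T *
        (K * Real.exp (-K ^ 2))) := by
    rw [hfin]
    calc K * √Real.pi / 2 * ‖∑' n : ℤ, (if n = 0 then (0 : ℂ) else z n)‖
        ≤ K * √Real.pi / 2 * (Real.exp (t ^ 2 / K ^ 2) * (Real.exp (-K ^ 2) * T)) :=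
          mul_le_mul_of_nonneg_left hnorm (by positivity)
      _ = _ := by ring
  exact le_of_mul_le_mul_left h5 (Real.exp_pos _)

end Vale.Agent.P145.FA
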