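import Vale.Agent.P145.FA.Stmt

/-!
P145, block F-A: directions, opposite directions.
-/

namespace Vale.Agent.P145.FA

open Finset Filter Topology MeasureTheory
open Vale.Agent.P152

/-- G0 -/
theorem s_good : S_good := by
  refine ⟨⟨⟨?_, ?_, ?_, ?_, ?_, ?_⟩, ⟨?_, ?_, ?_, ?_, ?_, ?_⟩, ⟨?_, ?_, ?_, ?_, ?_, ?_⟩,
    ⟨?_, ?_, ?_, ?_, ?_, ?_⟩⟩, ?_⟩
  · intro q r; simp [dX]
  · simp [dX]
  · intro m q; simp [dX]
  · intro m q; ext <;> simp [dX]
  · intro m q; ext <;> simp [dX]; ring
  · intro m q; ext <;> simp [dX]; ring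
  · intro q r; simp [dY]
  · simp [dY]
  · intro m q; simp [dY]
  · intro m q; ext <;> simp [dY]
  · intro m q; ext <;> simp [dY]; ring
  · intro m q; ext <;> simp [dY]; ring
  · intro q r; simp [dD]; ring
  · simp [dD]
  · intro m q; simp [dD]; ring
  · intro m q; ext <;> simp [dD]
  · intro m q; ext <;> simp [dD] <;> ring
  · intro m q; ext <;> simp [dD] <;> ring
  · intro q r; simp [dA]; ring
  · simp [dA]
  · intro m q; simp [dA]; ring
  · intro m q; ext <;> simp [dA]
  · intro m q; ext <;> simp [dA] <;> ring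
  · intro m q; ext <;> simp [dA] <;> ring
  · intro D hD
    have hneg : ∀ q, D.l (-q) = - D.l q := by
      intro q
      have h0 : D.l 0 = 0 := by
        have := hD.l_add 0 0
        rw [add_zero] at this
        omega
      have := hD.l_add q (-q)
      rw [add_neg_cancel, h0] at this
      omega
    refine ⟨?_, ?_, ?_, ?_, ?_, ?_⟩
    · intro q r
      show - D.l (q + r) = - D.l q + - D.l r
      rw [hD.l_add]; ring
    · show - D.l (- D.s) = 2
      rw [hneg, hD.l_s]; norm_num
    · intro m q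
      show - D.l (D.θ (-m) q) = 2 * m - - D.l q
      rw [hD.l_θ]; ring
    · intro m q
      show D.θ (-m) (D.θ (-m) q) = q
      exact hD.θθ _ _
    · intro m q
      show D.θ (-m) (q + - D.s) = D.θ (-m) q - - D.s
      have := hD.θ_s (-m) (q + - D.s)
      rw [neg_add_cancel_right] at this
      rw [this, sub_neg_eq_add, sub_add_cancel]
    · intro m q
      show D.θ (-(m + 1)) q = D.θ (-m) q + - D.s
      have := hD.θ_succ (-(m + 1)) q
      rw [show -(m + 1) + 1 = -m by ring] at this
      rw [this, add_neg_cancel_right]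

/-! ### Local functionals -/

theorem measurable_pb (g : ℤ × ℤ → ℤ × ℤ) : Measurable (pb g) :=
  measurable_pi_lambda _ fun q => measurable_pi_apply (g q)

theorem Loc.measurable {R : Type} [MeasurableSpace R] {A : Set (ℤ × ℤ)} {F : Hgt → R}
    (h : Loc A F) : Measurable F := by
  obtain ⟨Λ, -, hΛ⟩ := h
  classical
  let e : (Λ → ℤ) → Hgt := fun x q => if hq : q ∈ Λ then x ⟨q, hq⟩ else 0
  let r : Hgt → (Λ → ℤ) := fun h q => h q
  have h1 : F = (F ∘ e) ∘ r := by
    funext h
    refine hΛ _ _ (fun q hq => ?_)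
    simp only [e, r, hq, dif_pos]
  rw [h1]
  refine (measurable_of_countable _).comp ?_
  exact measurable_pi_lambda _ fun q => measurable_pi_apply _

theorem Loc.comp_pb {R : Type} {A B : Set (ℤ × ℤ)} {F : Hgt → R} (h : Loc A F)
    (g : ℤ × ℤ → ℤ × ℤ) (hg : ∀ q ∈ A, g q ∈ B) : Loc B (fun h => F (pb g h)) := by
  classical
  obtain ⟨Λ, h1, h2⟩ := h
  refine ⟨Λ.image g, ?_, ?_⟩
  · intro q hq
    obtain ⟨q', hq', rfl⟩ := Finset.mem_image.1 hq
    exact hg _ (h1 _ hq')
  · intro h h' hh
    exact h2 _ _ (fun q hq => hh _ (Finset.mem_image_of_mem g hq))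

theorem Loc.mono {R : Type} {A B : Set (ℤ × ℤ)} {F : Hgt → R} (h : Loc A F) (hAB : A ⊆ B) :
    Loc B F := by
  obtain ⟨Λ, h1, h2⟩ := h
  exact ⟨Λ, fun q hq => hAB (h1 q hq), h2⟩

theorem Loc.mul {R : Type} [Mul R] {A B : Set (ℤ × ℤ)} {F G : Hgt → R} (h : Loc A F)
    (h' : Loc B G) : Loc (A ∪ B) (fun h => F h * G h) := by
  classical
  obtain ⟨Λ, h1, h2⟩ := h
  obtain ⟨Λ', h1', h2'⟩ := h'
  refine ⟨Λ ∪ Λ', ?_, ?_⟩
  · intro q hq
    rcases Finset.mem_union.1 hq with hq | hq
    · exact Or.inl (h1 q hq)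
    · exact Or.inr (h1' q hq)
  · intro h h' hh
    show F h * G h = F h' * G h'
    rw [h2 h h' fun q hq => hh q (Finset.mem_union_left _ hq),
      h2' h h' fun q hq => hh q (Finset.mem_union_right _ hq)]

theorem measurable_pth (q : ℤ × ℤ) : Measurable fun ω : Ori (ℤ × ℤ) => pth ω q := by
  unfold pth
  unfold anti
  fun_prop

theorem measurable_hgt (k : ℤ) :
    Measurable (fun ω : Ori (ℤ × ℤ) => fun q : ℤ × ℤ => pth ω q + 2 * k) :=
  measurable_pi_lambda _ fun q => (measurable_pth q).add_const _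

theorem lintegral_mu0 (P : Measure (Ori (ℤ × ℤ))) {f : Hgt → ENNReal} (hf : Measurable f) :
    ∫⁻ h, f h ∂(mu0 P) = ∫⁻ ω, ∑' k : ℤ, f (fun q => pth ω q + 2 * k) ∂P := by
  unfold mu0
  rw [lintegral_sum_measure, lintegral_tsum]
  · refine tsum_congr fun k => ?_
    rw [lintegral_map hf (measurable_hgt k)]
  · intro k
    exact (hf.comp (measurable_hgt k)).aemeasurable

/-- The height of a face in a window has finite mass. -/
theorem integrable_window (P : Measure (Ori (ℤ × ℤ))) [IsProbabilityMeasure P] (q : ℤ × ℤ)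
    (K : ℕ) : Integrable (fun h : Hgt => if |h q| ≤ (K : ℤ) then (1 : ℝ) else 0) (mu0 P) := by
  classical
  have hmeas : Measurable (fun h : Hgt => if |h q| ≤ (K : ℤ) then (1 : ℝ) else 0) :=
    (measurable_of_countable (fun n : ℤ => if |n| ≤ (K : ℤ) then (1 : ℝ) else 0)).comp
      (measurable_pi_apply q)
  refine ⟨hmeas.aestronglyMeasurable, ?_⟩
  unfold HasFiniteIntegral
  rw [lintegral_mu0 P hmeas.enorm]
  have hb : ∀ ω : Ori (ℤ × ℤ), ∑' k : ℤ, ‖(if |pth ω q + 2 * k| ≤ (K : ℤ) then (1 : ℝ) else 0)‖ₑ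
      ≤ (2 * K + 1 : ℕ) := by
    intro ω
    set a := pth ω q with ha
    set S : Finset ℤ := (Finset.Icc (-(K + |a|)) (K + |a|)).filter fun k => |a + 2 * k| ≤ (K : ℤ)
      with hS
    rw [tsum_eq_sum (s := S)]
    · have h1 : ∀ k ∈ S, ‖(if |a + 2 * k| ≤ (K : ℤ) then (1 : ℝ) else 0)‖ₑ = 1 := by
        intro k hk
        rw [if_pos (Finset.mem_filter.1 hk).2]
        simp
      rw [Finset.sum_congr rfl h1, Finset.sum_const, nsmul_eq_mul, mul_one]
      have h2 : S.card ≤ (Finset.Icc (-(K : ℤ)) K).card := by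
        refine Finset.card_le_card_of_injOn (fun k => a + 2 * k) ?_ ?_
        · intro k hk
          have := (Finset.mem_filter.1 hk).2
          rw [abs_le] at this
          exact Finset.mem_coe.2 (Finset.mem_Icc.2 this)
        · intro k _ k' _ h
          have h' : a + 2 * k = a + 2 * k' := h
          omega
      have h3 : (Finset.Icc (-(K : ℤ)) K).card = 2 * K + 1 := by
        rw [Int.card_Icc]; omega
      rw [h3] at h2
      exact_mod_cast h2
    · intro k hk
      have : ¬ |a + 2 * k| ≤ (K : ℤ) := by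
        intro h
        apply hk
        refine Finset.mem_filter.2 ⟨Finset.mem_Icc.2 ?_, h⟩
        rw [abs_le] at h
        have h1 := le_abs_self a
        have h2 := neg_abs_le a
        have h3 := abs_nonneg a
        constructor <;> omega
      rw [if_neg this]
      simp
  refine lt_of_le_of_lt (lintegral_mono hb) ?_
  rw [lintegral_const, measure_univ, mul_one]
  exact ENNReal.natCast_lt_top _

/-- Adm functionals: `F` times a window. -/
theorem integrable_mul_bdd {P : Measure (Ori (ℤ × ℤ))} {F G : Hgt → ℝ} {A : Set (ℤ × ℤ)}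
    (hF : Integrable F (mu0 P)) (hG : Loc A G) {C : ℝ} (hC : ∀ h, ‖G h‖ ≤ C) :
    Integrable (fun h => F h * G h) (mu0 P) :=
  hF.mul_bdd hG.measurable.aestronglyMeasurable (Eventually.of_forall hC)

/-- G1: opposite directions. -/
theorem s_neg : S_neg := by
  intro P _ D hD
  have hneg : ∀ q, D.l (-q) = - D.l q := by
    intro q
    have h0 : D.l 0 = 0 := by
      have := hD.l_add 0 0
      rw [add_zero] at this
      omega
    have := hD.l_add q (-q)
    rw [add_neg_cancel, h0] at this
    omega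
  refine ⟨fun hRP m F hF => ?_, fun hInv => ⟨fun m => hInv.1 (-m), ?_⟩⟩
  · -- the functional `F ∘ θ` lives in the half plane of `D`
    show 0 ≤ ∫ h, F h * F (pb (D.θ (-m)) h) ∂(mu0 P)
    obtain ⟨C, hC⟩ := hF.bdd
    have hC0 : 0 ≤ C := (norm_nonneg _).trans (hC 0)
    have hθθ : ∀ h : Hgt, pb (D.θ (-m)) (pb (D.θ (-m)) h) = h := by
      intro h; funext q
      show h (D.θ (-m) (D.θ (-m) q)) = h q
      rw [hD.θθ]
    -- a face of the half plane
    obtain ⟨q0, hq0⟩ : ∃ q0 : ℤ × ℤ, -m ≤ D.l q0 := by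
      by_cases h : 0 ≤ m
      · refine ⟨0, ?_⟩
        have := hneg 0
        rw [neg_zero] at this
        omega
      · have h2 : ∀ n : ℕ, D.l (n • D.s) = 2 * n := by
          intro n
          induction n with
          | zero =>
            have := hneg 0
            rw [neg_zero] at this
            rw [zero_nsmul]; push_cast; omega
          | succ n ih => rw [succ_nsmul, hD.l_add, ih, hD.l_s]; push_cast; ring
        refine ⟨(-m).toNat • D.s, ?_⟩
        rw [h2]; omega
    let w : ℕ → Hgt → ℝ := fun K h => if |h q0| ≤ (K : ℤ) then (1 : ℝ) else 0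
    have hwloc : ∀ K, Loc {q | -m ≤ D.l q} (w K) := fun K =>
      ⟨{q0}, by simpa using hq0, fun h h' hh => by
        simp only [w, hh q0 (Finset.mem_singleton_self q0)]⟩
    have hwle : ∀ K h, ‖w K h‖ ≤ 1 := by
      intro K h
      simp only [w]
      split_ifs <;> simp
    have hFloc : Loc {q | -m ≤ D.l q} (fun h => F (pb (D.θ (-m)) h)) := by
      refine hF.loc.comp_pb _ (fun q hq => ?_)
      show -m ≤ D.l (D.θ (-m) q)
      have : m ≤ - D.l q := hq
      rw [hD.l_θ]; omega
    have hAdm : ∀ K, Adm P {q | -m ≤ D.l q} (fun h => F (pb (D.θ (-m)) h) * w K h) := by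
      intro K
      refine ⟨?_, ⟨C, fun h => ?_⟩, ?_⟩
      · exact (hFloc.mul (hwloc K)).mono (by simp)
      · rw [norm_mul]
        exact (mul_le_mul (hC _) (hwle K h) (norm_nonneg _) hC0).trans (by rw [mul_one])
      · have := integrable_mul_bdd (integrable_window P q0 K) hFloc (C := C) (fun h => hC _)
        refine this.congr (Eventually.of_forall fun h => ?_)
        show w K h * _ = _
        rw [mul_comm]
    have hpos : ∀ K, 0 ≤ ∫ h, F h * F (pb (D.θ (-m)) h) * (w K h * w K (pb (D.θ (-m)) h))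
        ∂(mu0 P) := by
      intro K
      have := hRP (-m) _ (hAdm K)
      refine this.trans (le_of_eq (integral_congr_ae (Eventually.of_forall fun h => ?_)))
      simp only [hθθ]
      ring
    refine ge_of_tendsto' (tendsto_integral_of_dominated_convergence (fun h => ‖F h‖ * C)
      (F := fun K h => F h * F (pb (D.θ (-m)) h) * (w K h * w K (pb (D.θ (-m)) h)))
      (f := fun h => F h * F (pb (D.θ (-m)) h)) ?_ ?_ ?_ ?_) hpos
    · intro K
      have h1 := (hwloc K).measurable
      exact ((hF.loc.measurable.mul hFloc.measurable).mul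
        (h1.mul (h1.comp (measurable_pb _)))).aestronglyMeasurable
    · exact hF.int.norm.mul_const C
    · intro K
      refine Eventually.of_forall fun h => ?_
      rw [norm_mul, norm_mul, norm_mul]
      have h1 := hwle K h
      have h2 := hwle K (pb (D.θ (-m)) h)
      have h3 : ‖w K h‖ * ‖w K (pb (D.θ (-m)) h)‖ ≤ 1 :=
        mul_le_one₀ h1 (norm_nonneg _) h2
      calc ‖F h‖ * ‖F (pb (D.θ (-m)) h)‖ * (‖w K h‖ * ‖w K (pb (D.θ (-m)) h)‖)
          ≤ ‖F h‖ * C * 1 := by
            refine mul_le_mul ?_ h3 (by positivity) (by positivity)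
            exact mul_le_mul_of_nonneg_left (hC _) (norm_nonneg _)
        _ = ‖F h‖ * C := mul_one _
    · refine Eventually.of_forall fun h => ?_
      refine tendsto_const_nhds.congr' ?_
      filter_upwards [eventually_ge_atTop ((|h q0| + |pb (D.θ (-m)) h q0|).toNat)] with K hK
      have h1 := abs_nonneg (h q0)
      have h2 := abs_nonneg (pb (D.θ (-m)) h q0)
      have e1 : w K h = 1 := if_pos (by omega)
      have e2 : w K (pb (D.θ (-m)) h) = 1 := if_pos (by omega)
      rw [e1, e2]; ring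
  · show (mu0 P).map (pb (fun q => q + - D.s)) = mu0 P
    conv_lhs => rw [← hInv.2]
    rw [Measure.map_map (measurable_pb _) (measurable_pb _)]
    have : (pb (fun q => q + - D.s) ∘ pb (fun q => q + D.s)) = id := by
      funext h q
      show h (q + - D.s + D.s) = h q
      rw [neg_add_cancel_right]
    rw [this, Measure.map_id]

end Vale.Agent.P145.FA
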