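import Mathlib.Analysis.SpecialFunctions.PolarCoord
import Mathlib.Analysis.SpecialFunctions.JapaneseBracket
import Vale.Agent.P145.PT.Basic
import Vale.Agent.P152.GFF.S.Green

/-!
P145, block F-A: `⟨-Δψ, (-Δ)⁻¹ g⟩ = ∫ ψ g` for the whole plane Green function.
-/

namespace Vale.Agent.P145.FA

open MeasureTheory Set Filter Topology
open Vale.Agent.P145.PT Vale.Agent.P152.GFF.S

/-- Regularised logarithm. -/
noncomputable def LL (ε : ℝ) (z : ℝ × ℝ) : ℝ := Real.log (z.1 ^ 2 + z.2 ^ 2 + ε ^ 2) / 2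

theorem LL_sm {ε : ℝ} (hε : 0 < ε) : Sm (LL ε) := by
  unfold LL
  refine ContDiff.div_const (ContDiff.log (by fun_prop) (fun z => ?_)) 2
  positivity

theorem dx_of {f : ℝ × ℝ → ℝ} (hf : Differentiable ℝ f) {z : ℝ × ℝ} {c : ℝ}
    (h : HasDerivAt (fun t => f (t, z.2)) c z.1) : PT.dx f z = c := by
  have h1 : HasDerivAt (fun t => f (t, z.2)) (fderiv ℝ f z (1, 0)) z.1 :=
    (hf z).hasFDerivAt.comp_hasDerivAt z.1
      ((hasDerivAt_id z.1).prodMk (hasDerivAt_const z.1 z.2))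
  exact h1.unique h

theorem dy_of {f : ℝ × ℝ → ℝ} (hf : Differentiable ℝ f) {z : ℝ × ℝ} {c : ℝ}
    (h : HasDerivAt (fun t => f (z.1, t)) c z.2) : PT.dy f z = c := by
  have h1 : HasDerivAt (fun t => f (z.1, t)) (fderiv ℝ f z (0, 1)) z.2 :=
    (hf z).hasFDerivAt.comp_hasDerivAt z.2
      ((hasDerivAt_const z.2 z.1).prodMk (hasDerivAt_id z.2))
  exact h1.unique h

theorem LL_dx {ε : ℝ} (hε : 0 < ε) (z : ℝ × ℝ) :
    PT.dx (LL ε) z = z.1 / (z.1 ^ 2 + z.2 ^ 2 + ε ^ 2) := by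
  refine dx_of (LL_sm hε).diff ?_
  have hq : (z.1 ^ 2 + z.2 ^ 2 + ε ^ 2) ≠ 0 := by positivity
  have h1 : HasDerivAt (fun t : ℝ => t ^ 2 + z.2 ^ 2 + ε ^ 2) (2 * z.1) z.1 := by
    simpa using (((hasDerivAt_id z.1).pow 2).add_const (z.2 ^ 2)).add_const (ε ^ 2)
  have h2 := (h1.log hq).div_const 2
  refine h2.congr_deriv ?_
  field_simp

theorem LL_dy {ε : ℝ} (hε : 0 < ε) (z : ℝ × ℝ) :
    PT.dy (LL ε) z = z.2 / (z.1 ^ 2 + z.2 ^ 2 + ε ^ 2) := by
  refine dy_of (LL_sm hε).diff ?_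
  have hq : (z.1 ^ 2 + z.2 ^ 2 + ε ^ 2) ≠ 0 := by positivity
  have h1 : HasDerivAt (fun t : ℝ => z.1 ^ 2 + t ^ 2 + ε ^ 2) (2 * z.2) z.2 := by
    simpa using (((hasDerivAt_id z.2).pow 2).const_add (z.1 ^ 2)).add_const (ε ^ 2)
  have h2 := (h1.log hq).div_const 2
  refine h2.congr_deriv ?_
  field_simp

theorem LL_lap {ε : ℝ} (hε : 0 < ε) (z : ℝ × ℝ) :
    lap (LL ε) z = 2 * ε ^ 2 / (z.1 ^ 2 + z.2 ^ 2 + ε ^ 2) ^ 2 := by
  have hq : (z.1 ^ 2 + z.2 ^ 2 + ε ^ 2) ≠ 0 := by positivity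
  have e1 : PT.dx (PT.dx (LL ε)) z =
      ((z.1 ^ 2 + z.2 ^ 2 + ε ^ 2) - z.1 * (2 * z.1)) / (z.1 ^ 2 + z.2 ^ 2 + ε ^ 2) ^ 2 := by
    refine dx_of (LL_sm hε).dx.diff ?_
    have h0 : (fun t => PT.dx (LL ε) (t, z.2)) = fun t => t / (t ^ 2 + z.2 ^ 2 + ε ^ 2) := by
      funext t; rw [LL_dx hε]
    rw [h0]
    have h1 : HasDerivAt (fun t : ℝ => t ^ 2 + z.2 ^ 2 + ε ^ 2) (2 * z.1) z.1 := by
      simpa using (((hasDerivAt_id z.1).pow 2).add_const (z.2 ^ 2)).add_const (ε ^ 2)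
    have h2 := (hasDerivAt_id z.1).div h1 hq
    refine h2.congr_deriv ?_
    simp
  have e2 : PT.dy (PT.dy (LL ε)) z =
      ((z.1 ^ 2 + z.2 ^ 2 + ε ^ 2) - z.2 * (2 * z.2)) / (z.1 ^ 2 + z.2 ^ 2 + ε ^ 2) ^ 2 := by
    refine dy_of (LL_sm hε).dy.diff ?_
    have h0 : (fun t => PT.dy (LL ε) (z.1, t)) = fun t => t / (z.1 ^ 2 + t ^ 2 + ε ^ 2) := by
      funext t; rw [LL_dy hε]
    rw [h0]
    have h1 : HasDerivAt (fun t : ℝ => z.1 ^ 2 + t ^ 2 + ε ^ 2) (2 * z.2) z.2 := by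
      simpa using (((hasDerivAt_id z.2).pow 2).const_add (z.1 ^ 2)).add_const (ε ^ 2)
    have h2 := (hasDerivAt_id z.2).div h1 hq
    refine h2.congr_deriv ?_
    simp
  unfold lap
  rw [e1, e2]
  ring

theorem lap_swap {φ : ℝ × ℝ → ℝ} (hφ : TestOn univ φ) {L : ℝ × ℝ → ℝ} (hL : Sm L) :
    ∫ z, L z * lap φ z = ∫ z, φ z * lap L z := by
  rw [green_id hφ hL]
  have h1 := ibp hφ.dx hL (1, 0)
  have h2 := ibp hφ.dy hL (0, 1)
  have e2 : ∫ z, (PT.dx φ z * PT.dx L z + PT.dy φ z * PT.dy L z)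
      = (∫ z, PT.dx φ z * PT.dx L z) + ∫ z, PT.dy φ z * PT.dy L z := by
    rw [← integral_add]
    · exact hφ.dx.intMul hL.dx.continuous
    · exact hφ.dy.intMul hL.dy.continuous
  have e1 : ∫ z, L z * lap φ z = (∫ z, PT.dx (PT.dx φ) z * L z) + ∫ z, PT.dy (PT.dy φ) z * L z := by
    rw [← integral_add]
    · congr 1; funext z; unfold PT.lap; ring
    · exact hφ.dx.dx.intMul hL.continuous
    · exact hφ.dy.dy.intMul hL.continuous
  rw [e1, e2]
  have h1' : ∫ z, PT.dx φ z * PT.dx L z = - ∫ z, PT.dx (PT.dx φ) z * L z := h1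
  have h2' : ∫ z, PT.dy φ z * PT.dy L z = - ∫ z, PT.dy (PT.dy φ) z * L z := h2
  rw [h1', h2']; ring

/-- The kernel. -/
noncomputable def ker1 (w : ℝ × ℝ) : ℝ := 2 / (w.1 ^ 2 + w.2 ^ 2 + 1) ^ 2

theorem ker1_nonneg (w : ℝ × ℝ) : 0 ≤ ker1 w := by unfold ker1; positivity

theorem ker1_integrable : Integrable ker1 := by
  have h1 : Integrable (fun x : ℝ × ℝ => (2 : ℝ) * ((1 : ℝ) + ‖x‖ ^ 2) ^ (-(4 : ℝ) / 2)) := by
    refine Integrable.const_mul ?_ 2
    refine integrable_rpow_neg_one_add_norm_sq ?_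
    simp
    norm_num
  refine h1.mono' ?_ (Eventually.of_forall fun w => ?_)
  · unfold ker1
    exact (by fun_prop : Measurable fun w : ℝ × ℝ => 2 / (w.1 ^ 2 + w.2 ^ 2 + 1) ^ 2).aestronglyMeasurable
  · rw [Real.norm_eq_abs, abs_of_nonneg (ker1_nonneg w)]
    unfold ker1
    have h2 : (-(4 : ℝ) / 2) = -((2 : ℕ) : ℝ) := by norm_num
    rw [h2, Real.rpow_neg (by positivity), Real.rpow_natCast, ← div_eq_mul_inv]
    refine div_le_div_of_nonneg_left (by norm_num) (by positivity) ?_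
    refine pow_le_pow_left₀ (by positivity) ?_ 2
    have h3 : ‖w‖ ^ 2 ≤ w.1 ^ 2 + w.2 ^ 2 := by
      rw [Prod.norm_def, Real.norm_eq_abs, Real.norm_eq_abs]
      rcases max_choice |w.1| |w.2| with h | h
      · rw [h, sq_abs]; nlinarith [sq_nonneg w.2]
      · rw [h, sq_abs]; nlinarith [sq_nonneg w.1]
    linarith

theorem ker1_integral : ∫ w, ker1 w = 2 * Real.pi := by
  rw [← integral_comp_polarCoord_symm]
  have h0 : ∀ p : ℝ × ℝ, p.1 • ker1 (polarCoord.symm p) = (2 * p.1 / (p.1 ^ 2 + 1) ^ 2) * 1 := by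
    intro p
    rw [polarCoord_symm_apply]
    unfold ker1
    have : (p.1 * Real.cos p.2) ^ 2 + (p.1 * Real.sin p.2) ^ 2 = p.1 ^ 2 := by
      rw [mul_pow, mul_pow, ← mul_add, Real.cos_sq_add_sin_sq, mul_one]
    simp only [this, smul_eq_mul]
    ring
  simp_rw [h0]
  rw [polarCoord_target, Measure.volume_eq_prod,
    setIntegral_prod_mul (fun r : ℝ => 2 * r / (r ^ 2 + 1) ^ 2) (fun _ : ℝ => (1 : ℝ))]
  have h1 : ∫ r in Ioi (0 : ℝ), 2 * r / (r ^ 2 + 1) ^ 2 = 0 - (-1) := by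
    refine (integral_Ioi_of_hasDerivAt_of_nonneg' (g := fun r : ℝ => - (r ^ 2 + 1)⁻¹) (l := 0)
      ?_ ?_ ?_).trans ?_
    · intro r _
      have h2 : HasDerivAt (fun t : ℝ => t ^ 2 + 1) (2 * r) r := by
        simpa using ((hasDerivAt_id r).pow 2).add_const (1 : ℝ)
      have h3 := (h2.inv (by positivity)).neg
      refine h3.congr_deriv ?_
      ring
    · intro r hr
      have : (0 : ℝ) < r := hr
      positivity
    · have : Tendsto (fun r : ℝ => (r ^ 2 + 1)) atTop atTop :=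
        tendsto_atTop_add_const_right _ _ (tendsto_pow_atTop (by norm_num))
      simpa using (tendsto_inv_atTop_zero.comp this).neg
    · norm_num
  rw [h1]
  simp only [sub_neg_eq_add, zero_add, one_mul, integral_const, MeasurableSet.univ,
    measureReal_restrict_apply, univ_inter, Real.volume_real_Ioo_of_le (by linarith [Real.pi_pos] : -Real.pi ≤ Real.pi),
    smul_eq_mul, mul_one]
  ring

theorem ker_lim {φ : ℝ × ℝ → ℝ} (hφ : Continuous φ) (cφ : HasCompactSupport φ) :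
    Tendsto (fun n : ℕ => ∫ z, φ z * (2 * (1 / ((n : ℝ) + 1)) ^ 2 /
      (z.1 ^ 2 + z.2 ^ 2 + (1 / ((n : ℝ) + 1)) ^ 2) ^ 2)) atTop (𝓝 (2 * Real.pi * φ 0)) := by
  obtain ⟨C, hC⟩ := cφ.exists_bound_of_continuous hφ
  have h1 : ∀ n : ℕ, ∫ z, φ z * (2 * (1 / ((n : ℝ) + 1)) ^ 2 /
      (z.1 ^ 2 + z.2 ^ 2 + (1 / ((n : ℝ) + 1)) ^ 2) ^ 2) =
      ∫ w, φ ((1 / ((n : ℝ) + 1)) • w) * ker1 w := by
    intro n
    set ε : ℝ := 1 / ((n : ℝ) + 1) with hε
    have hε0 : 0 < ε := by positivity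
    have h2 := Measure.integral_comp_smul (volume : Measure (ℝ × ℝ))
      (fun z : ℝ × ℝ => φ z * (2 * ε ^ 2 / (z.1 ^ 2 + z.2 ^ 2 + ε ^ 2) ^ 2)) ε
    have h3 : Module.finrank ℝ (ℝ × ℝ) = 2 := by simp
    rw [h3, abs_of_pos (by positivity), smul_eq_mul] at h2
    have h4 : ∫ z, φ z * (2 * ε ^ 2 / (z.1 ^ 2 + z.2 ^ 2 + ε ^ 2) ^ 2) =
        ε ^ 2 * ∫ w : ℝ × ℝ, φ (ε • w) * (2 * ε ^ 2 / ((ε • w).1 ^ 2 + (ε • w).2 ^ 2 + ε ^ 2) ^ 2) := by
      rw [h2, ← mul_assoc, mul_inv_cancel₀ (by positivity), one_mul]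
    rw [h4, ← integral_const_mul]
    refine integral_congr_ae (Eventually.of_forall fun w => ?_)
    simp only [Prod.smul_fst, Prod.smul_snd, smul_eq_mul]
    unfold ker1
    have h5 : (ε * w.1) ^ 2 + (ε * w.2) ^ 2 + ε ^ 2 = ε ^ 2 * (w.1 ^ 2 + w.2 ^ 2 + 1) := by ring
    rw [h5]
    have h6 : (w.1 ^ 2 + w.2 ^ 2 + 1) ≠ 0 := by positivity
    field_simp
  simp_rw [h1]
  have h2 : 2 * Real.pi * φ 0 = ∫ w, φ 0 * ker1 w := by
    rw [integral_const_mul, ker1_integral]; ring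
  rw [h2]
  refine tendsto_integral_of_dominated_convergence (fun w => C * ker1 w) ?_ ?_ ?_ ?_
  · intro n
    exact ((hφ.comp (continuous_const_smul _)).aestronglyMeasurable).mul
      ker1_integrable.aestronglyMeasurable
  · exact ker1_integrable.const_mul C
  · intro n
    refine Eventually.of_forall fun w => ?_
    rw [norm_mul, Real.norm_eq_abs (ker1 w), abs_of_nonneg (ker1_nonneg w)]
    exact mul_le_mul_of_nonneg_right (hC _) (ker1_nonneg w)
  · refine Eventually.of_forall fun w => ?_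
    refine Tendsto.mul_const _ ?_
    have h3 : Tendsto (fun n : ℕ => (1 / ((n : ℝ) + 1)) • w) atTop (𝓝 ((0 : ℝ) • w)) :=
      tendsto_one_div_add_atTop_nhds_zero_nat.smul_const w
    rw [zero_smul] at h3
    exact (hφ.tendsto 0).comp h3

theorem log_lim {f : ℝ × ℝ → ℝ} (hf : Continuous f) (cf : HasCompactSupport f) :
    Tendsto (fun n : ℕ => ∫ z, LL (1 / ((n : ℝ) + 1)) z * f z) atTop
      (𝓝 (∫ z, Real.log (Real.sqrt (z.1 ^ 2 + z.2 ^ 2)) * f z)) := by
  obtain ⟨C, hC⟩ := cf.exists_bound_of_continuous hf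
  obtain ⟨R, hR⟩ := (Metric.isBounded_iff_subset_closedBall 0).mp cf.isCompact.isBounded
  set M : ℝ := max 1 R with hM
  have hM1 : 1 ≤ M := le_max_left _ _
  have hC0 : 0 ≤ C := (norm_nonneg _).trans (hC 0)
  have hne : ∀ᵐ z : ℝ × ℝ, z.1 ≠ 0 := by
    have h0 : (volume : Measure (ℝ × ℝ)) ({(0 : ℝ)} ×ˢ Set.univ) = 0 := by
      rw [Measure.volume_eq_prod, Measure.prod_prod]
      simp
    refine measure_mono_null (fun z hz => ?_) h0
    simp only [Set.mem_compl_iff, Set.mem_ofPred_eq, not_not] at hz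
    exact ⟨hz, Set.mem_univ _⟩
  refine tendsto_integral_of_dominated_convergence
    (fun z => C * S10_phi M z + (2 * M ^ 2) * ‖f z‖) ?_ ?_ ?_ ?_
  · intro n
    exact ((LL_sm (by positivity)).continuous.mul hf).aestronglyMeasurable
  · exact ((S10_phi_integrable hM1).const_mul C).add
      ((hf.integrable_of_hasCompactSupport cf).norm.const_mul _)
  · intro n
    filter_upwards [hne] with z hz
    set ε : ℝ := 1 / ((n : ℝ) + 1) with hε
    have hε0 : 0 < ε := by positivity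
    have hε1 : ε ≤ 1 := by
      rw [hε, div_le_one (by positivity)]
      have : (0 : ℝ) ≤ n := by positivity
      linarith
    by_cases hfz : f z = 0
    · rw [hfz, mul_zero, norm_zero, mul_zero, add_zero]
      refine mul_nonneg hC0 ?_
      unfold S10_phi
      split_ifs
      · exact abs_nonneg _
      · exact le_refl _
    · have hz1 : ‖z‖ ≤ M := by
        have := hR (subset_tsupport f hfz)
        rw [Metric.mem_closedBall, dist_zero_right] at this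
        exact this.trans (le_max_right _ _)
      have hd1 : |z.1| ≤ M := (norm_fst_le z).trans hz1
      have hd2 : |z.2| ≤ M := (norm_snd_le z).trans hz1
      have hphi : S10_phi M z = |Real.log (Real.sqrt (z.1 ^ 2 + z.2 ^ 2))| := by
        unfold S10_phi; rw [if_pos ⟨hd1, hd2⟩]
      have hr : 0 < z.1 ^ 2 + z.2 ^ 2 := by positivity
      have hlog : Real.log (Real.sqrt (z.1 ^ 2 + z.2 ^ 2)) = Real.log (z.1 ^ 2 + z.2 ^ 2) / 2 :=
        Real.log_sqrt hr.le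
      have hlow : Real.log (Real.sqrt (z.1 ^ 2 + z.2 ^ 2)) ≤ LL ε z := by
        rw [hlog]; unfold LL
        have := Real.log_le_log hr (by nlinarith [sq_nonneg ε] :
          z.1 ^ 2 + z.2 ^ 2 ≤ z.1 ^ 2 + z.2 ^ 2 + ε ^ 2)
        linarith
      have hup : LL ε z ≤ 2 * M ^ 2 := by
        unfold LL
        have h1 := Real.log_le_sub_one_of_pos (by positivity : 0 < z.1 ^ 2 + z.2 ^ 2 + ε ^ 2)
        have h2 : z.1 ^ 2 ≤ M ^ 2 := by
          rw [← sq_abs z.1]; exact pow_le_pow_left₀ (abs_nonneg _) hd1 2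
        have h3 : z.2 ^ 2 ≤ M ^ 2 := by
          rw [← sq_abs z.2]; exact pow_le_pow_left₀ (abs_nonneg _) hd2 2
        have h4 : ε ^ 2 ≤ 1 := by nlinarith
        nlinarith
      have habs : |LL ε z| ≤ S10_phi M z + 2 * M ^ 2 := by
        rw [hphi, abs_le]
        constructor
        · have h5 := neg_abs_le (Real.log (Real.sqrt (z.1 ^ 2 + z.2 ^ 2)))
          nlinarith [sq_nonneg M]
        · have h6 := abs_nonneg (Real.log (Real.sqrt (z.1 ^ 2 + z.2 ^ 2)))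
          linarith
      have hphi0 : 0 ≤ S10_phi M z := by rw [hphi]; exact abs_nonneg _
      rw [norm_mul, Real.norm_eq_abs (LL ε z)]
      calc |LL ε z| * ‖f z‖ ≤ (S10_phi M z + 2 * M ^ 2) * ‖f z‖ :=
            mul_le_mul_of_nonneg_right habs (norm_nonneg _)
        _ ≤ C * S10_phi M z + 2 * M ^ 2 * ‖f z‖ := by
            have := mul_le_mul_of_nonneg_left (hC z) hphi0
            nlinarith
  · filter_upwards [hne] with z hz
    refine Tendsto.mul_const _ ?_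
    have hr : 0 < z.1 ^ 2 + z.2 ^ 2 := by positivity
    rw [Real.log_sqrt hr.le]
    unfold LL
    refine Tendsto.div_const ?_ 2
    have h3 : Tendsto (fun n : ℕ => z.1 ^ 2 + z.2 ^ 2 + (1 / ((n : ℝ) + 1)) ^ 2) atTop
        (𝓝 (z.1 ^ 2 + z.2 ^ 2 + 0 ^ 2)) :=
      tendsto_const_nhds.add (tendsto_one_div_add_atTop_nhds_zero_nat.pow 2)
    rw [zero_pow two_ne_zero, add_zero] at h3
    exact h3.log hr.ne'

/-- The logarithm is a fundamental solution. -/
theorem log_lap {φ : ℝ × ℝ → ℝ} (hφ : TestOn univ φ) :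
    ∫ z, Real.log (Real.sqrt (z.1 ^ 2 + z.2 ^ 2)) * lap φ z = 2 * Real.pi * φ 0 := by
  have h1 := log_lim hφ.lap.cont hφ.lap.cs
  have h2 := ker_lim hφ.cont hφ.cs
  refine tendsto_nhds_unique h1 (h2.congr fun n => ?_)
  rw [lap_swap hφ (LL_sm (by positivity))]
  refine integral_congr_ae (Eventually.of_forall fun z => ?_)
  simp only
  rw [LL_lap (by positivity)]

theorem green_int {ψ : ℝ × ℝ → ℝ} (hψ : TestOn univ ψ) (y : ℝ × ℝ) :
    ∫ x, green x y * (- lap ψ x) = ψ y := by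
  have hφ : TestOn univ (fun z => ψ (y + z)) := by
    refine ⟨hψ.1.comp (contDiff_const.add contDiff_id), ?_, Set.subset_univ _⟩
    exact hψ.2.1.comp_homeomorph (Homeomorph.addLeft y)
  have h1 := log_lap hφ
  have hlap : ∀ z, lap (fun z => ψ (y + z)) z = lap ψ (y + z) := by
    intro z
    have e1 : PT.dx (fun z => ψ (y + z)) = fun z => PT.dx ψ (y + z) := by
      funext w; unfold PT.dx; rw [fderiv_comp_add_left]
    have e2 : PT.dy (fun z => ψ (y + z)) = fun z => PT.dy ψ (y + z) := by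
      funext w; unfold PT.dy; rw [fderiv_comp_add_left]
    unfold lap
    rw [e1, e2]
    congr 1
    · show fderiv ℝ (fun z => PT.dx ψ (y + z)) z (1, 0) = fderiv ℝ (PT.dx ψ) (y + z) (1, 0)
      rw [fderiv_comp_add_left]
    · show fderiv ℝ (fun z => PT.dy ψ (y + z)) z (0, 1) = fderiv ℝ (PT.dy ψ) (y + z) (0, 1)
      rw [fderiv_comp_add_left]
  simp_rw [hlap] at h1
  rw [← integral_add_left_eq_self (μ := volume) (fun x => green x y * (- lap ψ x)) y]
  have h2 : ∀ z : ℝ × ℝ, green (y + z) y * (- lap ψ (y + z)) =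
      (2 * Real.pi)⁻¹ * (Real.log (Real.sqrt (z.1 ^ 2 + z.2 ^ 2)) * lap ψ (y + z)) := by
    intro z
    unfold green
    rw [Prod.fst_add, Prod.snd_add, add_sub_cancel_left, add_sub_cancel_left]
    ring
  simp_rw [h2]
  rw [integral_const_mul, h1, add_zero, ← mul_assoc, inv_mul_cancel₀ (by positivity), one_mul]

/-- Green's identity for the covariance of the free field. -/
theorem green_lap {ψ g : ℝ × ℝ → ℝ} (hψ : ContDiff ℝ ((⊤ : ℕ∞) : WithTop ℕ∞) ψ)
    (cψ : HasCompactSupport ψ) (hg : Continuous g) (cg : HasCompactSupport g) :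
    gffCov (fun x => - lap ψ x) g = ∫ x, ψ x * g x := by
  have hT : TestOn univ ψ := ⟨hψ, cψ, Set.subset_univ _⟩
  have h := green_integrable (f := fun x => - lap ψ x) hT.lap.cont.neg hg hT.lap.cs.neg cg
  rw [Measure.volume_eq_prod] at h
  unfold gffCov
  rw [integral_integral_swap h]
  refine integral_congr_ae (Eventually.of_forall fun y => ?_)
  simp only
  rw [integral_mul_const, green_int hT]

end Vale.Agent.P145.FA
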