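import Vale.Agent.P145.FA.Stmt

/-!
P145, block F-A: the localised null functional and the final form of the product statement
(no condition on the functionals `G1, ..., G4` except locality and the bound `1`).
-/

namespace Vale.Agent.P145.FA

open Finset Filter Topology MeasureTheory
open Vale.Agent.P152

/-- Localised null functional. -/
noncomputable def Wf (w u φ : (ℤ × ℤ) →₀ ℝ) (α K : ℝ) (h : Hgt) : ℂ :=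
  Yf w u α h * ((Real.exp (-((ev φ h) ^ 2 / (2 * K ^ 2))) : ℝ) : ℂ)

/-- H1': half-plane statement, uniform in `G`. -/
def S_hp2 : Prop := ∀ (P : Measure (Ori (ℤ × ℤ))) [IsProbabilityMeasure P], Inv P dY → RP P dY →
  ∀ (w u φ : ℕ → (ℤ × ℤ) →₀ ℝ) (α : ℝ), SDseq P w u φ α →
  (∀ n, ∀ q, q ∈ (w n).support ∨ q ∈ (u n).support ∨ q ∈ (φ n).support → 0 ≤ q.2) →
  ∃ e : ℝ → ℝ, Tendsto (fun K => K ^ 2 * e K) atTop (𝓝 0) ∧ ∀ K ≥ 1,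
    (∀ n, Adm P {q | 0 ≤ q.2} (Wf (w n) (u n) (φ n) α K)) ∧
    ∀ ε > 0, ∀ᶠ n in atTop, ∀ G : Hgt → ℂ, Adm P {q | q.2 ≤ 0} G →
    ‖∫ h, Wf (w n) (u n) (φ n) α K h * G h ∂(mu0 P)‖ ^ 2 ≤
      (e K + ε) * ∫ h, ‖G h‖ ^ 2 ∂(mu0 P)

/-- T: truncation with a second bump of charge one. -/
def S_trunc : Prop := ∃ C : ℝ, 0 ≤ C ∧ ∀ (P : Measure (Ori (ℤ × ℤ))) [IsProbabilityMeasure P]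
  (φ φ' : (ℤ × ℤ) →₀ ℝ) (K V : ℝ), mass φ = 1 → mass φ' = 1 → 1 ≤ K →
  ∫ ω, (ev φ' (pth ω) - ev φ (pth ω)) ^ 2 ∂P ≤ V →
  Integrable (fun h => Real.exp (-((ev φ h) ^ 2 / (2 * K ^ 2)))) (mu0 P) ∧
  Integrable (fun h => if |ev φ' h| ≤ K ^ 2 then (1 : ℝ) else 0) (mu0 P) ∧
  ∫ h, (if |ev φ' h| ≤ K ^ 2 then (1 : ℝ) else 0) ∂(mu0 P) ≤ C * K ^ 2 ∧
  ∫ h, Real.exp (-((ev φ h) ^ 2 / (2 * K ^ 2))) *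
    (1 - if |ev φ' h| ≤ K ^ 2 then (1 : ℝ) else 0) ∂(mu0 P) ≤
      C * (K * Real.exp (-(K ^ 2 / 16)) + V / K ^ 3)

/-- H2': product form (pinwheel), final version. -/
def S_fa2 : Prop := ∀ (P : Measure (Ori (ℤ × ℤ))) [IsProbabilityMeasure P],
  (∀ a : ℤ × ℤ, (2 : ℤ) ∣ a.1 + a.2 → (mu0 P).map (pb (fun q => q + a)) = mu0 P) →
  (∀ D ∈ [dX, dY, dD, dA, dX.neg, dY.neg, dD.neg, dA.neg], LegLim P D) → Inv P dY → RP P dY →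
  ∀ (w u φ φ' : ℕ → (ℤ × ℤ) →₀ ℝ) (α V : ℝ), SDseq P w u φ α → (∀ n, mass (φ' n) = 1) →
  (∀ n, ∫ ω, (ev (φ' n) (pth ω) - ev (φ n) (pth ω)) ^ 2 ∂P ≤ V) →
  ∀ (ρ : ℕ) (N : ℕ → ℕ) (xl xr yt : ℕ → ℤ), (∀ n, 1 ≤ N n) →
  (∀ n, |xl n| ≤ ρ * N n ∧ |xr n| ≤ ρ * N n ∧ |yt n| ≤ ρ * N n) →
  (∀ n, ∀ q, q ∈ (w n).support ∨ q ∈ (u n).support ∨ q ∈ (φ n).support →
    0 ≤ q.2 ∧ q.2 ≤ yt n ∧ xl n ≤ q.1 ∧ q.1 ≤ xr n ∧ |q.1| ≤ ρ * N n ∧ |q.2| ≤ ρ * N n) →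
  (∀ n, ∀ q ∈ (φ' n).support, q.1 ≤ xl n - 2 * N n ∧ |q.1| ≤ ρ * N n ∧ |q.2| ≤ ρ * N n) →
  ∀ ε > 0, ∃ K0 : ℝ, ∀ K ≥ K0, ∀ (G1 G2 G3 G4 : ℕ → Hgt → ℂ),
  (∀ n, Loc {q | q.1 ≤ xl n - 2 * N n ∧ |q.1| ≤ ρ * N n ∧ |q.2| ≤ ρ * N n} (G1 n)) →
  (∀ n, Loc {q | yt n + 2 * N n ≤ q.2 ∧ xl n ≤ q.1 ∧ |q.1| ≤ ρ * N n ∧ |q.2| ≤ ρ * N n} (G2 n)) →
  (∀ n, Loc {q | xr n + 2 * N n ≤ q.1 ∧ q.2 ≤ yt n ∧ xl n ≤ q.1 ∧ |q.1| ≤ ρ * N n ∧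
    |q.2| ≤ ρ * N n} (G3 n)) →
  (∀ n, Loc {q | q.2 ≤ 0 ∧ q.2 ≤ yt n ∧ xl n ≤ q.1 ∧ q.1 ≤ xr n ∧ |q.1| ≤ ρ * N n ∧
    |q.2| ≤ ρ * N n} (G4 n)) →
  (∀ n h, ‖G1 n h‖ ≤ 1) → (∀ n h, ‖G2 n h‖ ≤ 1) → (∀ n h, ‖G3 n h‖ ≤ 1) →
  (∀ n h, ‖G4 n h‖ ≤ 1) →
  ∀ᶠ n in atTop, ‖∫ h, Wf (w n) (u n) (φ n) α K h * G1 n h * G2 n h * G3 n h * G4 n h
    ∂(mu0 P)‖ ≤ ε

end Vale.Agent.P145.FA
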