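import Vale.Agent.P145.FA.RpP
import Vale.Agent.P152.GFF.E2.OutSym
import Vale.Agent.P152.GFF.B3.Even

/-!
# P145, block F-A: reflection positivity of the arrows in the plane, `1 ≤ c ≤ 2`

Same proof as in `RpP.lean`, from the convergence of the boxes with free arrows for even
amplitudes (`UqC c`, field `box`) and the symmetries of `P`.
-/

namespace Vale.Agent.P145.FA

open Finset Filter Topology MeasureTheory
open Vale.Agent.P152 Vale.Agent.P152.GFF.B3 Vale.Agent.P152.GFF.E2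

/-- Convergence of the centered boxes with free arrows. -/
def BoxLim (c : ℝ) : Prop :=
  ∀ m r : ℕ, 1 ≤ m → 1 ≤ r → ∀ Ψ : (BE m r → ZMod 2) → ℝ, Evn m r Ψ → ∀ ε > 0, ∃ q0 : ℕ,
    ∀ q : ℕ, q0 ≤ q →
      |insW (boxNet (q + m + q) (q + r + q)) (wc c) (bxf (m := m) (r := r) q q (by omega) (by omega))
          (bxg q q (by omega) (by omega)) Ψ /
        (boxNet (q + m + q) (q + r + q)).ar (wc c) (fun _ => 1) - muI (wc c) m r Ψ| ≤ ε

/-- The symmetries of the plane measure. -/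
def SymP (P : Measure (Ori (ℤ × ℤ))) : Prop :=
  (∀ a b : ℤ, P.map (shO a b) = P) ∧ P.map trO = P ∧ P.map (fun ω e => !(ω e)) = P ∧
    P.map reO = P

theorem boxLim_of_uqC {c : ℝ} (hu : UqC c) : BoxLim c := by
  intro m r hm hr Ψ hΨ ε hε
  obtain ⟨q0, hq0⟩ := hu.box m r hm hr Ψ hΨ ε hε
  exact ⟨q0, fun q hq => hq0 (q + m + q) (q + r + q) q q (by omega) (by omega) hq hq (by omega)
    (by omega)⟩

lemma rg_tel {n : ℕ} (f : Fin (n + 1) → ZMod 2) :
    ∑ i : Fin n, (f i.castSucc + f i.succ) = f 0 + f (Fin.last n) := by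
  have h1 := Fin.sum_univ_castSucc f
  have h2 := Fin.sum_univ_succ f
  have h3 : (2 : ZMod 2) = 0 := by decide
  rw [Finset.sum_add_distrib]
  linear_combination (-1 : ZMod 2) * h1 + (-1 : ZMod 2) * h2 +
    (∑ i, f i - f 0 - f (Fin.last n)) * h3

lemma rg_par {w : Pairing → ℝ} {l r b a : ZMod 2} (h : w6 w l r b a ≠ 0) :
    (l + r) + (b + a) = 0 := by
  by_contra hne
  apply h
  rw [w6_val, if_neg, if_neg, if_neg]
  · norm_num
  · rintro ⟨h1, h2⟩
    subst h1 h2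
    exact hne ((by decide : ∀ x y : ZMod 2, x + y + (y + x) = 0) _ _)
  · rintro ⟨h1, h2⟩
    subst h1 h2
    exact hne ((by decide : ∀ x y : ZMod 2, x + 1 + (y + 1) + (x + y) = 0) _ _)
  · rintro ⟨h1, h2⟩
    subst h1 h2
    exact hne ((by decide : ∀ x y : ZMod 2, x + x + (y + y) = 0) _ _)

lemma rg_evn (m r : ℕ) (hm : 1 ≤ m) (hr : 1 ≤ r) (w : Pairing → ℝ)
    (φ : (BE m r → ZMod 2) → ℝ) : Evn m r (fun x => φ x * (boxNet m r).W6 w x) := by
  intro x hx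
  have hW : (boxNet m r).W6 w x ≠ 0 := right_ne_zero_of_mul hx
  unfold Net.W6 at hW
  rw [Finset.prod_ne_zero_iff] at hW
  have hv : ∀ v : Fin m × Fin r,
      (x (Sum.inl (v.1.castSucc, v.2)) + x (Sum.inl (v.1.succ, v.2))) +
      (x (Sum.inr (v.1, v.2.castSucc)) + x (Sum.inr (v.1, v.2.succ))) = 0 :=
    fun v => rg_par (hW v (Finset.mem_univ v))
  have hs : ∑ v : Fin m × Fin r,
      ((x (Sum.inl (v.1.castSucc, v.2)) + x (Sum.inl (v.1.succ, v.2))) +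
      (x (Sum.inr (v.1, v.2.castSucc)) + x (Sum.inr (v.1, v.2.succ)))) = 0 :=
    Finset.sum_eq_zero fun v _ => hv v
  rw [Finset.sum_add_distrib, Fintype.sum_prod_type_right
    (f := fun v : Fin m × Fin r => x (Sum.inl (v.1.castSucc, v.2)) + x (Sum.inl (v.1.succ, v.2))),
    Fintype.sum_prod_type
    (f := fun v : Fin m × Fin r => x (Sum.inr (v.1, v.2.castSucc)) + x (Sum.inr (v.1, v.2.succ)))]
    at hs
  rw [ev_sum_bd hm hr, ← Finset.sum_add_distrib, ← Finset.sum_add_distrib, ← hs]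
  congr 1
  · exact Finset.sum_congr rfl fun j _ => (rg_tel (fun i => x (Sum.inl (i, j)))).symm
  · exact Finset.sum_congr rfl fun i _ => (rg_tel (fun j => x (Sum.inr (i, j)))).symm

lemma rg_W6_nonneg {c : ℝ} (hc : 0 < c) (hc2 : c ≤ 2) {V E : Type} [Fintype V] (N : Net V E)
    (k : E → ZMod 2) : 0 ≤ N.W6 (wc c) k := by
  refine Finset.prod_nonneg (fun v _ => ?_)
  rw [w6_val]
  have h1 : 0 ≤ wc c Pairing.str := by
    show 0 ≤ 1 - c / 2
    linarith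
  have h2 : 0 ≤ wc c Pairing.t1 := by
    show 0 ≤ c / 2
    linarith
  have h3 : 0 ≤ wc c Pairing.t2 := by
    show 0 ≤ c / 2
    linarith
  split_ifs <;> positivity

lemma rg_mu_nonneg {c : ℝ} (hc : 0 < c) (hc2 : c ≤ 2) (hb : BoxLim c) (m r : ℕ) (hm : 1 ≤ m)
    (hr : 1 ≤ r) (φ : (BE m r → ZMod 2) → ℝ)
    (h : ∀ q : ℕ, 0 ≤ (boxNet (q + m + q) (q + r + q)).ar (wc c)
      (fun k => φ (fun e => k (bxg q q (by omega) (by omega) e)))) : 0 ≤ mu (wc c) m r φ := by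
  by_contra hneg
  push Not at hneg
  set ε := - mu (wc c) m r φ / 2 with hε
  have hε0 : 0 < ε := by rw [hε]; linarith
  obtain ⟨q0, hq0⟩ := hb m r hm hr
    (fun x => φ x * (boxNet m r).W6 (wc c) x) (rg_evn m r hm hr (wc c) φ) ε hε0
  have h1 := hq0 q0 le_rfl
  rw [← m_loc _ _ _ _ _ _ _ _ _ (m_emb.2.2.1 m r (q0 + m + q0) (q0 + r + q0) q0 q0 (by omega)
    (by omega)) φ] at h1
  have h2 : 0 ≤ (boxNet (q0 + m + q0) (q0 + r + q0)).ar (wc c) (fun _ => 1) := by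
    unfold Net.ar
    exact Finset.sum_nonneg (fun k _ => by rw [one_mul]; exact rg_W6_nonneg hc hc2 _ _)
  have h3 := div_nonneg (h q0) h2
  have h4 := (abs_le.1 h1).2
  have h5 : muI (wc c) m r (fun x => φ x * (boxNet m r).W6 (wc c) x) = mu (wc c) m r φ := rfl
  rw [h5] at h4
  linarith

lemma rg_P_col {c : ℝ} (hc : 0 < c) (hc2 : c ≤ 2) (hb : BoxLim c)
    {P : Measure (Ori (ℤ × ℤ))} (hP : IsP c P) (hs : SymP P)
    (f : Ori (ℤ × ℤ) → ℝ) (Λ : Finset (Edge (ℤ × ℤ))) (hΛ : ∀ e ∈ Λ, e ∈ Half dX 0)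
    (hf : ∀ ω ω', (∀ e ∈ Λ, ω e = ω' e) → f ω = f ω') : 0 ≤ ∫ ω, f ω * f (RX 0 ω) ∂P := by
  obtain ⟨N, hN⟩ := edges_bdd Λ
  set n : ℕ := N + 1 with hn
  set r : ℕ := 2 * N + 2 with hr
  set x0 : ℤ := -(n : ℤ) + 1 with hx0
  set y0 : ℤ := -(N : ℤ) with hy0
  have hrep := window_rep (n + n) r x0 y0 (RH (n + n) r) f Λ hf (by
    intro e he
    have h1 := hN e he
    have h2 := hΛ e he
    rcases e with ⟨X, Y⟩ | ⟨X, Y⟩
    · obtain ⟨h3, h4⟩ : |X| ≤ (N : ℤ) ∧ |Y| ≤ (N : ℤ) := h1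
      have h5 : (0 : ℤ) ≤ X := h2.1
      rw [abs_le] at h3 h4
      constructor
      · refine ⟨Sum.inl (⟨(X + n).toNat, by omega⟩, ⟨(Y + N).toNat, by omega⟩), ?_⟩
        show Sum.inl (x0 + ((X + n).toNat : ℤ) - 1, y0 + ((Y + N).toNat : ℤ)) = _
        congr 1
        refine Prod.ext ?_ ?_
        · show x0 + ((X + n).toNat : ℤ) - 1 = X
          omega
        · show y0 + ((Y + N).toNat : ℤ) = Y
          omega
      · rintro (⟨i, j⟩ | ⟨i, j⟩) h
        · have h6 : (x0 + (i : ℤ) - 1, y0 + (j : ℤ)) = (X, Y) := Sum.inl.inj h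
          have h7 := congrArg Prod.fst h6
          show n + n ≤ 2 * i.val
          simp only at h7
          omega
        · exact absurd h (by simp [lc])
    · obtain ⟨h3, h4⟩ : |X| ≤ (N : ℤ) ∧ |Y| ≤ (N : ℤ) := h1
      have h5 : (0 : ℤ) ≤ X - 1 := h2.2
      rw [abs_le] at h3 h4
      constructor
      · refine ⟨Sum.inr (⟨(X + n - 1).toNat, by omega⟩, ⟨(Y + N + 1).toNat, by omega⟩), ?_⟩
        show Sum.inr (x0 + ((X + n - 1).toNat : ℤ), y0 + ((Y + N + 1).toNat : ℤ) - 1) = _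
        congr 1
        refine Prod.ext ?_ ?_
        · show x0 + ((X + n - 1).toNat : ℤ) = X
          omega
        · show y0 + ((Y + N + 1).toNat : ℤ) - 1 = Y
          omega
      · rintro (⟨i, j⟩ | ⟨i, j⟩) h
        · exact absurd h (by simp [lc])
        · have h6 : (x0 + (i : ℤ), y0 + (j : ℤ) - 1) = (X, Y) := Sum.inr.inj h
          have h7 := congrArg Prod.fst h6
          show n + n ≤ 2 * i.val
          simp only at h7
          omega)
  obtain ⟨hr1, hr2⟩ := hrep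
  set φ : (BE (n + n) r → ZMod 2) → ℝ := fun x => f (ofW (n + n) r x0 y0 x) with hφ
  have h1 : ∀ ω, f ω * f (RX 0 ω) =
      (fun x => φ x * φ (syK (n + n) r x)) (rd (n + n) r x0 y0 ω) := by
    intro ω
    show f ω * f (RX 0 ω) = f (ofW (n + n) r x0 y0 (rd (n + n) r x0 y0 ω)) *
      f (ofW (n + n) r x0 y0 (syK (n + n) r (rd (n + n) r x0 y0 ω)))
    rw [← rd_RX n r y0 ω, ← hr1, ← hr1]
  have h3 : ∫ ω, f ω * f (RX 0 ω) ∂P = mu (wc c) (n + n) r
      (fun x => φ x * φ (syK (n + n) r x)) := by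
    rw [← hP.2.2 (n + n) r (by omega) (by omega) _ x0 y0]
    exact integral_congr_ae (Eventually.of_forall h1)
  rw [h3]
  refine rg_mu_nonneg hc hc2 hb _ _ (by omega) (by omega) _ (fun q => ?_)
  have h2 := box_col (w := wc c) rfl (m := q + (n + n) + q) ⟨q + n, by ring⟩ (q + r + q)
    (fun k => φ (fun e => k (bxg q q (by omega) (by omega) e))) (by
      intro k k' h
      refine hr2 _ _ (fun e he => h _ ?_)
      rcases e with ⟨i, j⟩ | ⟨i, j⟩
      · have he' : n + n ≤ 2 * i.val := he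
        show q + (n + n) + q ≤ 2 * (q + i.val)
        omega
      · have he' : n + n ≤ 2 * i.val := he
        show q + (n + n) + q ≤ 2 * (q + i.val)
        omega)
  convert h2 using 4 with k
  refine congrArg φ ?_
  funext e
  rw [syK_apply, syK_apply]
  simp only [sy_R_bxg, sy_D_bxg]


lemma rg_P_diag {c : ℝ} (hc : 1 ≤ c) (hc2 : c ≤ 2) (hb : BoxLim c)
    {P : Measure (Ori (ℤ × ℤ))} (hP : IsP c P) (hs : SymP P)
    (f : Ori (ℤ × ℤ) → ℝ) (Λ : Finset (Edge (ℤ × ℤ))) (hΛ : ∀ e ∈ Λ, e ∈ Half dD 0)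
    (hf : ∀ ω ω', (∀ e ∈ Λ, ω e = ω' e) → f ω = f ω') : 0 ≤ ∫ ω, f ω * f (RD 0 ω) ∂P := by
  obtain ⟨N, hN⟩ := edges_bdd Λ
  set r : ℕ := 2 * N + 2 with hr
  set y0 : ℤ := -(N : ℤ) with hy0
  have hrep := window_rep r r y0 y0 (DH r) f Λ hf (by
    intro e he
    have h1 := hN e he
    have h2 := hΛ e he
    rcases e with ⟨X, Y⟩ | ⟨X, Y⟩
    · obtain ⟨h3, h4⟩ : |X| ≤ (N : ℤ) ∧ |Y| ≤ (N : ℤ) := h1
      have h5 : (0 : ℤ) ≤ X - Y := h2.1
      rw [abs_le] at h3 h4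
      constructor
      · refine ⟨Sum.inl (⟨(X + N + 1).toNat, by omega⟩, ⟨(Y + N).toNat, by omega⟩), ?_⟩
        show Sum.inl (y0 + ((X + N + 1).toNat : ℤ) - 1, y0 + ((Y + N).toNat : ℤ)) = _
        congr 1
        refine Prod.ext ?_ ?_
        · show y0 + ((X + N + 1).toNat : ℤ) - 1 = X
          omega
        · show y0 + ((Y + N).toNat : ℤ) = Y
          omega
      · rintro (⟨i, j⟩ | ⟨i, j⟩) h
        · have h6 : (y0 + (i : ℤ) - 1, y0 + (j : ℤ)) = (X, Y) := Sum.inl.inj h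
          have h7 := congrArg Prod.fst h6
          have h8 := congrArg Prod.snd h6
          show j.val < i.val
          simp only at h7 h8
          omega
        · exact absurd h (by simp [lc])
    · obtain ⟨h3, h4⟩ : |X| ≤ (N : ℤ) ∧ |Y| ≤ (N : ℤ) := h1
      have h5 : (0 : ℤ) ≤ X - 1 - Y := h2.2
      rw [abs_le] at h3 h4
      constructor
      · refine ⟨Sum.inr (⟨(X + N).toNat, by omega⟩, ⟨(Y + N + 1).toNat, by omega⟩), ?_⟩
        show Sum.inr (y0 + ((X + N).toNat : ℤ), y0 + ((Y + N + 1).toNat : ℤ) - 1) = _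
        congr 1
        refine Prod.ext ?_ ?_
        · show y0 + ((X + N).toNat : ℤ) = X
          omega
        · show y0 + ((Y + N + 1).toNat : ℤ) - 1 = Y
          omega
      · rintro (⟨i, j⟩ | ⟨i, j⟩) h
        · exact absurd h (by simp [lc])
        · have h6 : (y0 + (i : ℤ), y0 + (j : ℤ) - 1) = (X, Y) := Sum.inr.inj h
          have h7 := congrArg Prod.fst h6
          have h8 := congrArg Prod.snd h6
          show j.val ≤ i.val
          simp only at h7 h8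
          omega)
  obtain ⟨hr1, hr2⟩ := hrep
  set φ : (BE r r → ZMod 2) → ℝ := fun x => f (ofW r r y0 y0 x) with hφ
  have h1 : ∀ ω, f ω * f (RD 0 ω) =
      (fun x => φ x * φ (dgK r x)) (rd r r y0 y0 ω) := by
    intro ω
    show f ω * f (RD 0 ω) = f (ofW r r y0 y0 (rd r r y0 y0 ω)) *
      f (ofW r r y0 y0 (dgK r (rd r r y0 y0 ω)))
    rw [← rd_RD r y0 ω, ← hr1, ← hr1]
  have h3 : ∫ ω, f ω * f (RD 0 ω) ∂P = mu (wc c) r r (fun x => φ x * φ (dgK r x)) := by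
    rw [← hP.2.2 r r (by omega) (by omega) _ y0 y0]
    exact integral_congr_ae (Eventually.of_forall h1)
  rw [h3]
  refine rg_mu_nonneg (by linarith) hc2 hb _ _ (by omega) (by omega) _ (fun q => ?_)
  have h2 := box_diag hc (q + r + q)
    (fun k => φ (fun e => k (bxg q q (by omega) (by omega) e))) (by
      intro k k' h
      refine hr2 _ _ (fun e he => h _ ?_)
      rcases e with ⟨i, j⟩ | ⟨i, j⟩
      · have he' : j.val < i.val := he
        show q + j.val < q + i.val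
        omega
      · have he' : j.val ≤ i.val := he
        show q + j.val ≤ q + i.val
        omega)
  convert h2 using 4 with k
  refine congrArg φ ?_
  funext e
  rcases e with ⟨i, j⟩ | ⟨i, j⟩ <;> rfl


theorem rg_grp_X {c : ℝ} (hc : 0 < c) (hc2 : c ≤ 2) (hb : BoxLim c)
    {P : Measure (Ori (ℤ × ℤ))} (hP : IsP c P) (hs : SymP P) :
    GRP P dX RX := by
  intro m f Λ hΛ hf
  have hsh := hs.1 (-m) 0
  have hfm := local_measurable Λ hf
  rw [int_map (shO (-m) 0) (meas_shO _ _) hsh f (fun ω => f (RX m ω)) hfm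
    (hfm.comp (meas_RX m))]
  have h1 : ∀ ω : Ori (ℤ × ℤ), RX m (shO (-m) 0 ω) = shO (-m) 0 (RX 0 ω) := by
    intro ω
    funext e
    rcases e with ⟨x, y⟩ | ⟨x, y⟩
    · show ω (Sum.inl (2 * m - x + -m, y + 0)) = ω (Sum.inl (2 * 0 - (x + -m), y + 0))
      rw [show 2 * m - x + -m = 2 * 0 - (x + -m) by ring]
    · show (!(ω (Sum.inr (2 * m - x + 1 + -m, y + 0)))) =
        (!(ω (Sum.inr (2 * 0 - (x + -m) + 1, y + 0))))
      rw [show 2 * m - x + 1 + -m = 2 * 0 - (x + -m) + 1 by ring]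
  simp_rw [h1]
  let tr : Edge (ℤ × ℤ) → Edge (ℤ × ℤ) := Sum.map (fun v => (v.1 + -m, v.2 + 0))
    (fun v => (v.1 + -m, v.2 + 0))
  refine rg_P_col hc hc2 hb hP hs (fun ω => f (shO (-m) 0 ω)) (Λ.image tr) ?_ ?_
  · intro e he
    obtain ⟨e', he', rfl⟩ := Finset.mem_image.1 he
    have h2 := hΛ e' he'
    rcases e' with ⟨x, y⟩ | ⟨x, y⟩
    · obtain ⟨h3, h4⟩ : m ≤ x ∧ m ≤ x := h2
      show (0 : ℤ) ≤ x + -m ∧ (0 : ℤ) ≤ x + -m
      constructor <;> omega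
    · obtain ⟨h3, h4⟩ : m ≤ x ∧ m ≤ x - 1 := h2
      show (0 : ℤ) ≤ x + -m ∧ (0 : ℤ) ≤ x + -m - 1
      constructor <;> omega
  · intro ω ω' h
    refine hf _ _ (fun e he => ?_)
    have h2 := h (tr e) (Finset.mem_image_of_mem _ he)
    rcases e with v | v
    · exact h2
    · exact h2

theorem rg_grp_D {c : ℝ} (hc : 1 ≤ c) (hc2 : c ≤ 2) (hb : BoxLim c)
    {P : Measure (Ori (ℤ × ℤ))} (hP : IsP c P) (hs : SymP P) :
    GRP P dD RD := by
  intro m f Λ hΛ hf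
  have hsh := hs.1 (-m) 0
  have hfm := local_measurable Λ hf
  rw [int_map (shO (-m) 0) (meas_shO _ _) hsh f (fun ω => f (RD m ω)) hfm
    (hfm.comp (meas_RD m))]
  have h1 : ∀ ω : Ori (ℤ × ℤ), RD m (shO (-m) 0 ω) = shO (-m) 0 (RD 0 ω) := by
    intro ω
    funext e
    rcases e with ⟨x, y⟩ | ⟨x, y⟩
    · show (!(ω (Sum.inr (y + m + -m, x - m + 0)))) = (!(ω (Sum.inr (y + 0 + 0, x + -m - 0))))
      rw [show y + m + -m = y + 0 + 0 by ring, show x - m + 0 = x + -m - 0 by ring]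
    · show (!(ω (Sum.inl (y + m + -m, x - m + 0)))) = (!(ω (Sum.inl (y + 0 + 0, x + -m - 0))))
      rw [show y + m + -m = y + 0 + 0 by ring, show x - m + 0 = x + -m - 0 by ring]
  simp_rw [h1]
  let tr : Edge (ℤ × ℤ) → Edge (ℤ × ℤ) := Sum.map (fun v => (v.1 + -m, v.2 + 0))
    (fun v => (v.1 + -m, v.2 + 0))
  refine rg_P_diag hc hc2 hb hP hs (fun ω => f (shO (-m) 0 ω)) (Λ.image tr) ?_ ?_
  · intro e he
    obtain ⟨e', he', rfl⟩ := Finset.mem_image.1 he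
    have h2 := hΛ e' he'
    rcases e' with ⟨x, y⟩ | ⟨x, y⟩
    · obtain ⟨h3, h4⟩ : m ≤ x - y ∧ m ≤ x - (y - 1) := h2
      show (0 : ℤ) ≤ x + -m - (y + 0) ∧ (0 : ℤ) ≤ x + -m - (y + 0 - 1)
      constructor <;> omega
    · obtain ⟨h3, h4⟩ : m ≤ x - y ∧ m ≤ x - 1 - y := h2
      show (0 : ℤ) ≤ x + -m - (y + 0) ∧ (0 : ℤ) ≤ x + -m - 1 - (y + 0)
      constructor <;> omega
  · intro ω ω' h
    refine hf _ _ (fun e he => ?_)
    have h2 := h (tr e) (Finset.mem_image_of_mem _ he)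
    rcases e with v | v
    · exact h2
    · exact h2

theorem rg_grp_Y {c : ℝ} (hc : 0 < c) (hc2 : c ≤ 2) (hb : BoxLim c)
    {P : Measure (Ori (ℤ × ℤ))} (hP : IsP c P) (hs : SymP P) :
    GRP P dY RY := by
  intro m f Λ hΛ hf
  have htr := hs.2.1
  have hfm := local_measurable Λ hf
  have h1 : ∀ ω : Ori (ℤ × ℤ), RY m ω = trO (RX m (trO ω)) := by
    intro ω
    funext e
    rcases e with ⟨x, y⟩ | ⟨x, y⟩
    · rfl
    · rfl
  have htt : ∀ ω : Ori (ℤ × ℤ), trO (trO ω) = ω := by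
    intro ω
    funext e
    rcases e with ⟨x, y⟩ | ⟨x, y⟩
    · rfl
    · rfl
  have hRY : Measurable (RY m : Ori (ℤ × ℤ) → Ori (ℤ × ℤ)) := by
    have : (RY m : Ori (ℤ × ℤ) → Ori (ℤ × ℤ)) = fun ω => trO (RX m (trO ω)) := funext h1
    rw [this]
    exact meas_trO.comp ((meas_RX m).comp meas_trO)
  rw [int_map trO meas_trO htr f (fun ω => f (RY m ω)) hfm (hfm.comp hRY)]
  simp_rw [h1, htt]
  let tr : Edge (ℤ × ℤ) → Edge (ℤ × ℤ) := Sum.elim (fun v => Sum.inr (v.2, v.1))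
    (fun v => Sum.inl (v.2, v.1))
  refine rg_grp_X hc hc2 hb hP hs m (fun ω => f (trO ω)) (Λ.image tr) ?_ ?_
  · intro e he
    obtain ⟨e', he', rfl⟩ := Finset.mem_image.1 he
    have h2 := hΛ e' he'
    rcases e' with ⟨x, y⟩ | ⟨x, y⟩
    · obtain ⟨h3, h4⟩ : m ≤ y ∧ m ≤ y - 1 := h2
      show m ≤ y ∧ m ≤ y - 1
      exact ⟨h3, h4⟩
    · obtain ⟨h3, h4⟩ : m ≤ y ∧ m ≤ y := h2
      show m ≤ y ∧ m ≤ y
      exact ⟨h3, h4⟩
  · intro ω ω' h
    refine hf _ _ (fun e he => ?_)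
    have h2 := h (tr e) (Finset.mem_image_of_mem _ he)
    rcases e with v | v
    · exact h2
    · exact h2

theorem rg_grp_A {c : ℝ} (hc : 1 ≤ c) (hc2 : c ≤ 2) (hb : BoxLim c)
    {P : Measure (Ori (ℤ × ℤ))} (hP : IsP c P) (hs : SymP P) :
    GRP P dA RA := by
  intro m f Λ hΛ hf
  have hre := hs.2.2.2
  have hfm := local_measurable Λ hf
  have h1 : ∀ ω : Ori (ℤ × ℤ), RA m ω = reO (RD (-m - 1) (reO ω)) := by
    intro ω
    funext e
    rcases e with ⟨x, y⟩ | ⟨x, y⟩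
    · show ω (Sum.inr (m - y + 1, m - x)) =
        (!(!(ω (Sum.inr (-(y + (-m - 1)), -x - 1 - (-m - 1))))))
      rw [Bool.not_not, show m - y + 1 = -(y + (-m - 1)) by ring,
        show m - x = -x - 1 - (-m - 1) by ring]
    · show ω (Sum.inl (m - y, m - x + 1)) =
        (!(!(ω (Sum.inl (-(y + (-m - 1)) - 1, -x - (-m - 1))))))
      rw [Bool.not_not, show m - y = -(y + (-m - 1)) - 1 by ring,
        show m - x + 1 = -x - (-m - 1) by ring]
  have hrr : ∀ ω : Ori (ℤ × ℤ), reO (reO ω) = ω := by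
    intro ω
    funext e
    rcases e with ⟨x, y⟩ | ⟨x, y⟩
    · show ω (Sum.inl (-(-x - 1) - 1, y)) = _
      rw [show -(-x - 1) - 1 = x by ring]
    · show (!(!(ω (Sum.inr (- -x, y))))) = _
      rw [Bool.not_not, neg_neg]
  have hdd : ∀ ω : Ori (ℤ × ℤ), RD (-m - 1) (RD (-m - 1) ω) = ω := by
    intro ω
    funext e
    rcases e with ⟨x, y⟩ | ⟨x, y⟩
    · show (!(!(ω (Sum.inl (x - (-m - 1) + (-m - 1), y + (-m - 1) - (-m - 1)))))) = _
      rw [Bool.not_not, sub_add_cancel, add_sub_cancel_right]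
    · show (!(!(ω (Sum.inr (x - (-m - 1) + (-m - 1), y + (-m - 1) - (-m - 1)))))) = _
      rw [Bool.not_not, sub_add_cancel, add_sub_cancel_right]
  have hRA : Measurable (RA m : Ori (ℤ × ℤ) → Ori (ℤ × ℤ)) := by
    have : (RA m : Ori (ℤ × ℤ) → Ori (ℤ × ℤ)) = fun ω => reO (RD (-m - 1) (reO ω)) := funext h1
    rw [this]
    exact meas_reO.comp ((meas_RD _).comp meas_reO)
  rw [int_map reO meas_reO hre f (fun ω => f (RA m ω)) hfm (hfm.comp hRA)]
  simp_rw [h1, hrr]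
  have h2 : ∀ ω : Ori (ℤ × ℤ), f (reO ω) * f (reO (RD (-m - 1) ω)) =
      f (reO (RD (-m - 1) ω)) * f (reO (RD (-m - 1) (RD (-m - 1) ω))) := by
    intro ω
    rw [hdd, mul_comm]
  rw [integral_congr_ae (Eventually.of_forall h2)]
  let tr : Edge (ℤ × ℤ) → Edge (ℤ × ℤ) := Sum.elim
    (fun v => Sum.inr (v.2 + (-m - 1), -v.1 - 1 - (-m - 1)))
    (fun v => Sum.inl (v.2 + (-m - 1), -v.1 - (-m - 1)))
  refine rg_grp_D hc hc2 hb hP hs (-m - 1) (fun ω => f (reO (RD (-m - 1) ω))) (Λ.image tr) ?_ ?_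
  · intro e he
    obtain ⟨e', he', rfl⟩ := Finset.mem_image.1 he
    have h2 := hΛ e' he'
    rcases e' with ⟨x, y⟩ | ⟨x, y⟩
    · obtain ⟨h3, h4⟩ : m ≤ x + y ∧ m ≤ x + (y - 1) := h2
      show -m - 1 ≤ y + (-m - 1) - (-x - 1 - (-m - 1)) ∧
        -m - 1 ≤ y + (-m - 1) - 1 - (-x - 1 - (-m - 1))
      constructor <;> omega
    · obtain ⟨h3, h4⟩ : m ≤ x + y ∧ m ≤ x - 1 + y := h2
      show -m - 1 ≤ y + (-m - 1) - (-x - (-m - 1)) ∧
        -m - 1 ≤ y + (-m - 1) - (-x - (-m - 1) - 1)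
      constructor <;> omega
  · intro ω ω' h
    refine hf _ _ (fun e he => ?_)
    have h2 := h (tr e) (Finset.mem_image_of_mem _ he)
    rcases e with v | v
    · show (!(ω (tr (Sum.inl v)))) = (!(ω' (tr (Sum.inl v))))
      rw [h2]
    · show (!(!(ω (tr (Sum.inr v))))) = (!(!(ω' (tr (Sum.inr v)))))
      rw [h2]


/-- R3, all `1 ≤ c ≤ 2`. -/
theorem grp_of_box {c : ℝ} (hc : 1 ≤ c) (hc2 : c ≤ 2) (hb : BoxLim c) {P : Measure (Ori (ℤ × ℤ))}
    (hP : IsP c P) (hs : SymP P) : GRP P dX RX ∧ GRP P dY RY ∧ GRP P dD RD ∧ GRP P dA RA :=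
  ⟨rg_grp_X (by linarith) hc2 hb hP hs, rg_grp_Y (by linarith) hc2 hb hP hs,
    rg_grp_D hc hc2 hb hP hs, rg_grp_A hc hc2 hb hP hs⟩

/-- R3 from the output of block E2 of P152. -/
theorem grp_of_uqC {c : ℝ} (hc : 1 ≤ c) (hc2 : c ≤ 2) (hu : UqC c)
    {P : Measure (Ori (ℤ × ℤ))} (hP : IsP c P) :
    GRP P dX RX ∧ GRP P dY RY ∧ GRP P dD RD ∧ GRP P dA RA :=
  grp_of_box hc hc2 (boxLim_of_uqC hu) hP (stB_sym2 c (by linarith) hc2 P hP)

end Vale.Agent.P145.FA
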