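import Vale.Agent.P145.FA.PlP
import Vale.Agent.P145.FA.RpG
import Vale.Agent.P145.FP.Uniq
import Vale.Agent.P152.GFF.B3.ColP
import Vale.Agent.P152.GFF.B3.VarP
import Vale.Agent.P152.GFF.B3.Engy

/-!
P145: the properties `FP.Hyp` of the plane measure for all `1 ≤ c ≤ 2`.
-/

set_option autoImplicit false

namespace Vale.Agent.P145.FA

open Finset Filter Topology MeasureTheory
open Vale.Agent.P152 Vale.Agent.P152.GFF.B3
open Vale.Agent.P152.GFF.S (ar GD)

variable {P : Measure (Ori (ℤ × ℤ))} [IsProbabilityMeasure P]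

/-! ### The variance of the heights -/

omit [IsProbabilityMeasure P] in
theorem hh_col {c : ℝ} (hP : IsP c P) (hs : SymP P) {C : ℝ} (hC : 0 ≤ C) (hG : GD P C) :
    ∃ C' > 0, ∀ (n : ℕ) (x y : ℤ), 1 ≤ n →
      ∫ ω, (∑ j ∈ range n, ar ω (Sum.inl (x, y + j))) ^ 2 ∂P ≤ C' * (1 + Real.log n) ∧
      ∫ ω, (∑ i ∈ range n, ar ω (Sum.inr (x + i, y))) ^ 2 ∂P ≤ C' * (1 + Real.log n) := by
  obtain ⟨CE, hCE, hE⟩ := engy
  have hCG : 0 < C + 1 := by linarith
  refine ⟨4 * (C + 1) * CE + 2, by positivity, fun n x y hn => ?_⟩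
  obtain ⟨R, hR, φ, hφ0, hφ1, hφE⟩ := hE n hn
  have hG' : ∀ (s : Finset (ℤ × ℤ)) (g : ℤ × ℤ → ℝ),
      ∫ ω, (∑ v ∈ s, g v * ((ar ω (Sum.inl (v.1 - 1, v.2)) + ar ω (Sum.inl v)) / 2)) ^ 2 ∂P ≤
          (C + 1) * ∑ v ∈ s, g v ^ 2 ∧
      ∫ ω, (∑ v ∈ s, g v * ((ar ω (Sum.inr (v.1, v.2 - 1)) + ar ω (Sum.inr v)) / 2)) ^ 2 ∂P ≤
          (C + 1) * ∑ v ∈ s, g v ^ 2 := by
    intro s g
    have h0 : 0 ≤ ∑ v ∈ s, g v ^ 2 := Finset.sum_nonneg fun v _ => sq_nonneg _
    obtain ⟨h1, h2⟩ := hG s g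
    constructor <;> nlinarith
  have key := fun x y => cp_first m_ice hCG hP hG' hn hR hφ0 hφ1 hφE x y
  refine ⟨key x y, ?_⟩
  have htr : P.map trO = P := hs.2.1
  have hmt : Measurable trO := by
    refine measurable_pi_lambda _ (fun e => ?_)
    rcases e with e | e
    · exact measurable_pi_apply _
    · exact measurable_pi_apply _
  have hmar : ∀ e : Edge (ℤ × ℤ), Measurable fun ω : Ori (ℤ × ℤ) => ar ω e := fun e =>
    (measurable_of_finite fun b : Bool => (sgb b : ℝ)).comp (measurable_pi_apply e)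
  refine le_trans (le_of_eq ?_) (key y x)
  conv_lhs => rw [← htr]
  rw [integral_map hmt.aemeasurable]
  · rfl
  · exact ((Finset.measurable_sum _ fun i _ => hmar _).pow_const 2).aestronglyMeasurable

theorem hh_var {C : ℝ} (hC : 0 < C) (hcol : ∀ (n : ℕ) (x y : ℤ), 1 ≤ n →
      ∫ ω, (∑ j ∈ range n, ar ω (Sum.inl (x, y + j))) ^ 2 ∂P ≤ C * (1 + Real.log n) ∧
      ∫ ω, (∑ i ∈ range n, ar ω (Sum.inr (x + i, y))) ^ 2 ∂P ≤ C * (1 + Real.log n))
    (h : Ori (ℤ × ℤ) → ℤ × ℤ → ℤ) (hh : ∀ᵐ ω ∂P, IsHeight ω (h ω)) (x y : ℤ × ℤ) (hxy : x ≠ y) :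
    ProbabilityTheory.variance (fun ω => ((h ω x - h ω y : ℤ) : ℝ)) P ≤
      4 * C * (1 + Real.log (|x.1 - y.1| + |x.2 - y.2| : ℤ)) := by
  obtain ⟨K, hK⟩ : ∃ K : ℤ, K = |x.1 - y.1| + |x.2 - y.2| := ⟨_, rfl⟩
  have h1 := abs_nonneg (x.1 - y.1)
  have h2 := abs_nonneg (x.2 - y.2)
  have hK1 : 1 ≤ K := by
    by_contra hcon
    have h3 : |x.1 - y.1| = 0 := by omega
    have h4 : |x.2 - y.2| = 0 := by omega
    rw [abs_eq_zero] at h3 h4
    exact hxy (Prod.ext (by omega) (by omega))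
  obtain ⟨V, hVm, ⟨B, hB⟩, hVi, hV⟩ := VarPAux.seg hC (fun j => Sum.inl (x.1, j))
    (fun n y hn => (hcol n x.1 y hn).1) hK1 (a := x.2) (b := y.2) (by omega)
  obtain ⟨H, hHm, ⟨B', hB'⟩, hHi, hH⟩ := VarPAux.seg hC (fun j => Sum.inr (j, y.2))
    (fun n x hn => (hcol n x y.2 hn).2) hK1 (a := y.1) (b := x.1) (by
      rw [abs_sub_comm]; omega)
  rw [← hK]
  have hae : (fun ω => ((h ω x - h ω y : ℤ) : ℝ)) =ᵐ[P] fun ω => V ω + H ω := by
    filter_upwards [hh] with ω hω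
    rw [← hV ω (fun t => ((h ω (x.1, t) : ℤ) : ℝ)) fun a n => by
        rw [← VarPAux.vert hω, Int.cast_sub],
      ← hH ω (fun t => -((h ω (t, y.2) : ℤ) : ℝ)) fun a n => by
        rw [← VarPAux.horiz hω, Int.cast_sub]; ring]
    push_cast
    ring
  rw [ProbabilityTheory.variance_congr hae]
  refine (ProbabilityTheory.variance_le_expectation_sq (hVm.add hHm).aestronglyMeasurable).trans ?_
  have hVint : Integrable (fun ω => V ω ^ 2) P := by
    refine Integrable.of_bound (hVm.pow_const 2).aestronglyMeasurable (B ^ 2)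
      (Filter.Eventually.of_forall fun ω => ?_)
    rw [Real.norm_eq_abs, abs_of_nonneg (sq_nonneg _), ← sq_abs (V ω)]
    exact pow_le_pow_left₀ (abs_nonneg _) (hB ω) 2
  have hHint : Integrable (fun ω => H ω ^ 2) P := by
    refine Integrable.of_bound (hHm.pow_const 2).aestronglyMeasurable (B' ^ 2)
      (Filter.Eventually.of_forall fun ω => ?_)
    rw [Real.norm_eq_abs, abs_of_nonneg (sq_nonneg _), ← sq_abs (H ω)]
    exact pow_le_pow_left₀ (abs_nonneg _) (hB' ω) 2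
  have h5 : ∫ ω, ((fun ω => V ω + H ω) ^ 2) ω ∂P ≤ ∫ ω, (2 * V ω ^ 2 + 2 * H ω ^ 2) ∂P := by
    refine integral_mono_of_nonneg (Filter.Eventually.of_forall fun ω => ?_)
      ((hVint.const_mul 2).add (hHint.const_mul 2)) (Filter.Eventually.of_forall fun ω => ?_)
    · simp only [Pi.pow_apply, Pi.zero_apply]
      positivity
    · simp only [Pi.pow_apply]
      nlinarith [sq_nonneg (V ω - H ω)]
  refine h5.trans ?_
  rw [integral_add (hVint.const_mul 2) (hHint.const_mul 2), integral_const_mul,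
    integral_const_mul]
  linarith

/-! ### Correlations of the arrows -/

/-- Correlation of two arrows. -/
noncomputable def cE (P : Measure (Ori (ℤ × ℤ))) (e e' : Edge (ℤ × ℤ)) : ℝ :=
  ∫ ω, ar ω e * ar ω e' ∂P

lemma ar_meas (e : Edge (ℤ × ℤ)) : Measurable fun ω : Ori (ℤ × ℤ) => ar ω e :=
  VarPAux.meas e

lemma ar_prod_int (e e' : Edge (ℤ × ℤ)) : Integrable (fun ω => ar ω e * ar ω e') P := by
  refine Integrable.of_bound ((ar_meas e).mul (ar_meas e')).aestronglyMeasurable 1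
    (Eventually.of_forall fun ω => ?_)
  rw [Real.norm_eq_abs, abs_mul]
  exact mul_le_one₀ (VarPAux.abs_ar ω e) (abs_nonneg _) (VarPAux.abs_ar ω e')

omit [IsProbabilityMeasure P] in
lemma cE_comm (e e' : Edge (ℤ × ℤ)) : cE P e e' = cE P e' e := by
  unfold cE
  simp only [mul_comm]

omit [IsProbabilityMeasure P] in
/-- Image of an edge under a transformation of the orientations. -/
lemma cE_map (T : Ori (ℤ × ℤ) → Ori (ℤ × ℤ)) (hT : Measurable T) (hm : P.map T = P)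
    (e e' f f' : Edge (ℤ × ℤ)) (h : ∀ ω, ar (T ω) e * ar (T ω) e' = ar ω f * ar ω f') :
    cE P e e' = cE P f f' := by
  have h1 : ∫ ω, ar ω e * ar ω e' ∂(P.map T) = ∫ ω, ar (T ω) e * ar (T ω) e' ∂P :=
    integral_map hT.aemeasurable ((ar_meas e).mul (ar_meas e')).aestronglyMeasurable
  rw [hm] at h1
  unfold cE
  rw [h1]
  simp only [h]

lemma cE_sh (hs : SymP P) (a : ℤ × ℤ) (e e' : Edge (ℤ × ℤ)) :
    cE P (Sum.map (· + a) (· + a) e) (Sum.map (· + a) (· + a) e') = cE P e e' := by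
  symm
  refine cE_map (shO a.1 a.2) (by
    refine measurable_pi_lambda _ (fun e => ?_)
    rcases e with e | e
    · exact measurable_pi_apply _
    · exact measurable_pi_apply _) (hs.1 a.1 a.2) _ _ _ _ (fun ω => ?_)
  rcases e with v | v <;> rcases e' with v' | v' <;> rfl

/-- Bessel's inequality. -/
lemma bessel {ι : Type} (A : ι → Ori (ℤ × ℤ) → ℝ) (X : Ori (ℤ × ℤ) → ℝ) (hA : ∀ i, Measurable (A i))
    (hAb : ∀ i ω, |A i ω| ≤ 1) (hX : Measurable X) (hXb : ∀ ω, |X ω| ≤ 1) {C : ℝ} (hC : 0 < C)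
    (hG : ∀ (s : Finset ι) (g : ι → ℝ), ∫ ω, (∑ v ∈ s, g v * A v ω) ^ 2 ∂P ≤ C * ∑ v ∈ s, g v ^ 2)
    (s : Finset ι) : ∑ v ∈ s, (∫ ω, X ω * A v ω ∂P) ^ 2 ≤ C := by
  set u : ι → ℝ := fun v => ∫ ω, X ω * A v ω ∂P with hu
  set Y : Ori (ℤ × ℤ) → ℝ := fun ω => ∑ v ∈ s, u v * A v ω with hY
  have hYm : Measurable Y := Finset.measurable_sum _ fun v _ => (hA v).const_mul _
  have hYb : ∀ ω, |Y ω| ≤ ∑ v ∈ s, |u v| := by
    intro ω
    refine (Finset.abs_sum_le_sum_abs _ _).trans (Finset.sum_le_sum fun v _ => ?_)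
    rw [abs_mul]
    calc |u v| * |A v ω| ≤ |u v| * 1 := mul_le_mul_of_nonneg_left (hAb v ω) (abs_nonneg _)
      _ = _ := mul_one _
  have hYi : Integrable (fun ω => Y ω ^ 2) P := by
    refine Integrable.of_bound (hYm.pow_const 2).aestronglyMeasurable ((∑ v ∈ s, |u v|) ^ 2)
      (Eventually.of_forall fun ω => ?_)
    rw [Real.norm_eq_abs, abs_pow]
    exact pow_le_pow_left₀ (abs_nonneg _) (hYb ω) 2
  have hXi : Integrable (fun ω => X ω ^ 2) P := by
    refine Integrable.of_bound (hX.pow_const 2).aestronglyMeasurable 1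
      (Eventually.of_forall fun ω => ?_)
    rw [Real.norm_eq_abs, abs_pow]
    exact pow_le_one₀ (abs_nonneg _) (hXb ω)
  have hXAi : ∀ v, Integrable (fun ω => X ω * A v ω) P := by
    intro v
    refine Integrable.of_bound (hX.mul (hA v)).aestronglyMeasurable 1
      (Eventually.of_forall fun ω => ?_)
    rw [Real.norm_eq_abs, abs_mul]
    exact mul_le_one₀ (hXb ω) (abs_nonneg _) (hAb v ω)
  have h1 : ∑ v ∈ s, u v ^ 2 = ∫ ω, X ω * Y ω ∂P := by
    have e : ∀ ω, X ω * Y ω = ∑ v ∈ s, u v * (X ω * A v ω) := by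
      intro ω
      rw [hY]
      simp only
      rw [Finset.mul_sum]
      exact Finset.sum_congr rfl fun v _ => by ring
    simp only [e]
    rw [integral_finsetSum _ fun v _ => (hXAi v).const_mul _]
    refine Finset.sum_congr rfl fun v _ => ?_
    rw [integral_const_mul, sq]
  have h2 : ∫ ω, X ω * Y ω ∂P ≤ ∫ ω, ((C * X ω ^ 2 + Y ω ^ 2 / C) / 2) ∂P := by
    refine integral_mono ?_ (((hXi.const_mul C).add (hYi.div_const C)).div_const 2) (fun ω => ?_)
    · refine Integrable.of_bound (hX.mul hYm).aestronglyMeasurable (∑ v ∈ s, |u v|)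
        (Eventually.of_forall fun ω => ?_)
      rw [Real.norm_eq_abs, abs_mul]
      calc |X ω| * |Y ω| ≤ 1 * (∑ v ∈ s, |u v|) :=
            mul_le_mul (hXb ω) (hYb ω) (abs_nonneg _) zero_le_one
        _ = _ := one_mul _
    · show X ω * Y ω ≤ (C * X ω ^ 2 + Y ω ^ 2 / C) / 2
      have h3 : Y ω ^ 2 / C * C = Y ω ^ 2 := div_mul_cancel₀ _ hC.ne'
      have h4 : X ω * Y ω * C ≤ (C * X ω ^ 2 + Y ω ^ 2 / C) / 2 * C := by
        nlinarith [sq_nonneg (C * X ω - Y ω)]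
      exact le_of_mul_le_mul_right h4 hC
  rw [integral_div, integral_add (hXi.const_mul C) (hYi.div_const C), integral_const_mul,
    integral_div] at h2
  have h5 : ∫ ω, X ω ^ 2 ∂P ≤ 1 := by
    have h6 : ∫ ω, X ω ^ 2 ∂P ≤ ∫ _ω, (1 : ℝ) ∂P := by
      refine integral_mono hXi (integrable_const _) fun ω => ?_
      show X ω ^ 2 ≤ 1
      rw [← sq_abs]
      exact pow_le_one₀ (abs_nonneg _) (hXb ω)
    simpa using h6
  have h7 : (∫ ω, Y ω ^ 2 ∂P) / C ≤ ∑ v ∈ s, u v ^ 2 := by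
    rw [div_le_iff₀ hC, mul_comm]
    exact hG s u
  show ∑ v ∈ s, u v ^ 2 ≤ C
  nlinarith

lemma bessel_tendsto {ι : Type} (A : ι → Ori (ℤ × ℤ) → ℝ) (X : Ori (ℤ × ℤ) → ℝ)
    (hA : ∀ i, Measurable (A i)) (hAb : ∀ i ω, |A i ω| ≤ 1) (hX : Measurable X)
    (hXb : ∀ ω, |X ω| ≤ 1) {C : ℝ} (hC : 0 < C)
    (hG : ∀ (s : Finset ι) (g : ι → ℝ), ∫ ω, (∑ v ∈ s, g v * A v ω) ^ 2 ∂P ≤
      C * ∑ v ∈ s, g v ^ 2) :
    Tendsto (fun v => ∫ ω, X ω * A v ω ∂P) cofinite (𝓝 0) := by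
  have h1 : Summable fun v => (∫ ω, X ω * A v ω ∂P) ^ 2 :=
    summable_of_sum_le (fun v => sq_nonneg _) (fun s => bessel A X hA hAb hX hXb hC hG s)
  have h2 := h1.tendsto_cofinite_zero
  have h3 := h2.sqrt
  rw [Real.sqrt_zero] at h3
  have h4 : (fun v => √((∫ ω, X ω * A v ω ∂P) ^ 2)) = fun v => |∫ ω, X ω * A v ω ∂P| :=
    funext fun v => Real.sqrt_sq_eq_abs _
  rw [h4] at h3
  exact (tendsto_zero_iff_abs_tendsto_zero _).2 h3

lemma avl (hG : ∃ C : ℝ, 0 ≤ C ∧ GD P C) (e : Edge (ℤ × ℤ)) :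
    Tendsto (fun v : ℤ × ℤ => cE P e (Sum.inl (v.1 - 1, v.2)) + cE P e (Sum.inl v)) cofinite
      (𝓝 0) := by
  obtain ⟨C, hC, hG⟩ := hG
  have h := bessel_tendsto (P := P)
    (fun (v : ℤ × ℤ) ω => (ar ω (Sum.inl (v.1 - 1, v.2)) + ar ω (Sum.inl v)) / 2)
    (fun ω => ar ω e) (fun v => ((ar_meas _).add (ar_meas _)).div_const 2)
    (fun v ω => by
      have h1 := abs_le.1 (VarPAux.abs_ar ω (Sum.inl (v.1 - 1, v.2)))
      have h2 := abs_le.1 (VarPAux.abs_ar ω (Sum.inl v))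
      rw [abs_le]; constructor <;> linarith)
    (ar_meas e) (fun ω => VarPAux.abs_ar ω e) (C := C + 1) (by linarith)
    (fun s g => (hG s g).1.trans (mul_le_mul_of_nonneg_right (by linarith)
      (Finset.sum_nonneg fun v _ => sq_nonneg _)))
  have h2 := h.const_mul 2
  rw [mul_zero] at h2
  refine h2.congr fun v => ?_
  unfold cE
  rw [← integral_add (ar_prod_int _ _) (ar_prod_int _ _), ← integral_const_mul]
  refine integral_congr_ae (Eventually.of_forall fun ω => ?_)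
  simp only
  ring

lemma avr (hG : ∃ C : ℝ, 0 ≤ C ∧ GD P C) (e : Edge (ℤ × ℤ)) :
    Tendsto (fun v : ℤ × ℤ => cE P e (Sum.inr (v.1, v.2 - 1)) + cE P e (Sum.inr v)) cofinite
      (𝓝 0) := by
  obtain ⟨C, hC, hG⟩ := hG
  have h := bessel_tendsto (P := P)
    (fun (v : ℤ × ℤ) ω => (ar ω (Sum.inr (v.1, v.2 - 1)) + ar ω (Sum.inr v)) / 2)
    (fun ω => ar ω e) (fun v => ((ar_meas _).add (ar_meas _)).div_const 2)
    (fun v ω => by
      have h1 := abs_le.1 (VarPAux.abs_ar ω (Sum.inr (v.1, v.2 - 1)))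
      have h2 := abs_le.1 (VarPAux.abs_ar ω (Sum.inr v))
      rw [abs_le]; constructor <;> linarith)
    (ar_meas e) (fun ω => VarPAux.abs_ar ω e) (C := C + 1) (by linarith)
    (fun s g => (hG s g).2.trans (mul_le_mul_of_nonneg_right (by linarith)
      (Finset.sum_nonneg fun v _ => sq_nonneg _)))
  have h2 := h.const_mul 2
  rw [mul_zero] at h2
  refine h2.congr fun v => ?_
  unfold cE
  rw [← integral_add (ar_prod_int _ _) (ar_prod_int _ _), ← integral_const_mul]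
  refine integral_congr_ae (Eventually.of_forall fun ω => ?_)
  simp only
  ring

lemma ice_ar {ω : Ori (ℤ × ℤ)} {x y : ℤ} (h : Ice ω x y) :
    ar ω (Sum.inl (x - 1, y)) + ar ω (Sum.inr (x, y - 1)) =
      ar ω (Sum.inl (x, y)) + ar ω (Sum.inr (x, y)) := by
  unfold Ice at h
  unfold ar sgb
  cases h1 : ω (Sum.inl (x - 1, y)) <;> cases h2 : ω (Sum.inr (x, y - 1)) <;>
    cases h3 : ω (Sum.inl (x, y)) <;> cases h4 : ω (Sum.inr (x, y)) <;>
    simp only [h1, h2, h3, h4] at h <;> simp_all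

lemma ice_cE (hice : ∀ᵐ ω ∂P, ∀ x y, Ice ω x y) (e : Edge (ℤ × ℤ)) (v : ℤ × ℤ) :
    cE P e (Sum.inl (v.1 - 1, v.2)) + cE P e (Sum.inr (v.1, v.2 - 1)) =
      cE P e (Sum.inl v) + cE P e (Sum.inr v) := by
  unfold cE
  rw [← integral_add (ar_prod_int _ _) (ar_prod_int _ _),
    ← integral_add (ar_prod_int _ _) (ar_prod_int _ _)]
  refine integral_congr_ae ?_
  filter_upwards [hice] with ω hω
  have h := ice_ar (hω v.1 v.2)
  rw [← mul_add, ← mul_add, h]

/-- The horizontal and the vertical correlations are opposite up to a vanishing error. -/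
lemma sum_zero (hice : ∀ᵐ ω ∂P, ∀ x y, Ice ω x y) (hG : ∃ C : ℝ, 0 ≤ C ∧ GD P C)
    (e : Edge (ℤ × ℤ)) :
    Tendsto (fun v : ℤ × ℤ => cE P e (Sum.inl v) + cE P e (Sum.inr v)) cofinite (𝓝 0) := by
  have h := ((avl hG e).add (avr hG e)).div_const 2
  rw [add_zero, zero_div] at h
  refine h.congr fun v => ?_
  have h1 := ice_cE hice e v
  linarith

theorem hh_swap (hice : ∀ᵐ ω ∂P, ∀ x y, Ice ω x y) (hs : SymP P)
    (hG : ∃ C : ℝ, 0 ≤ C ∧ GD P C) :
    Tendsto (fun v : ℤ × ℤ => cE P (Sum.inl 0) (Sum.inl v) - cE P (Sum.inl 0) (Sum.inl v.swap))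
      cofinite (𝓝 0) := by
  have h1 := sum_zero hice hG (Sum.inl 0)
  have h2 := (sum_zero hice hG (Sum.inr 0)).comp
    ((neg_injective (G := ℤ × ℤ)).tendsto_cofinite)
  have h3 := h1.sub h2
  rw [sub_zero] at h3
  refine h3.congr fun v => ?_
  -- L(-v) = K(v)
  have e1 : cE P (Sum.inr 0) (Sum.inl (-v)) = cE P (Sum.inl 0) (Sum.inr v) := by
    rw [cE_comm, ← cE_sh hs v (Sum.inl (-v)) (Sum.inr 0)]
    congr 1
    · simp
    · simp
  -- V(-v) = H(v.swap)
  have e2 : cE P (Sum.inr 0) (Sum.inr (-v)) = cE P (Sum.inl 0) (Sum.inl v.swap) := by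
    have e3 : cE P (Sum.inr 0) (Sum.inr (-v)) = cE P (Sum.inr v) (Sum.inr 0) := by
      rw [← cE_sh hs v (Sum.inr 0) (Sum.inr (-v))]
      congr 1
      · simp
      · simp
    rw [e3, cE_comm]
    refine cE_map trO (by
      refine measurable_pi_lambda _ (fun e => ?_)
      rcases e with e | e
      · exact measurable_pi_apply _
      · exact measurable_pi_apply _) hs.2.1 _ _ _ _ (fun ω => ?_)
    rfl
  show cE P (Sum.inl 0) (Sum.inl v) + cE P (Sum.inl 0) (Sum.inr v) -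
    (cE P (Sum.inr 0) (Sum.inl (-v)) + cE P (Sum.inr 0) (Sum.inr (-v))) = _
  rw [e1, e2]
  ring

/-! ### Reflection positivity -/

lemma hh_neg (hs : SymP P) (v : ℤ × ℤ) :
    cE P (Sum.inl 0) (Sum.inl (-v)) = cE P (Sum.inl 0) (Sum.inl v) := by
  rw [← cE_sh hs v (Sum.inl 0) (Sum.inl (-v)), cE_comm]
  congr 1
  · simp
  · simp

lemma hh_refl (hs : SymP P) (v : ℤ × ℤ) :
    cE P (Sum.inl 0) (Sum.inl (-v.1, v.2)) = cE P (Sum.inl 0) (Sum.inl v) := by
  have h1 : cE P (Sum.inl (-1, 0)) (Sum.inl (-v.1 - 1, v.2)) =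
      cE P (Sum.inl 0) (Sum.inl (-v.1, v.2)) := by
    rw [← cE_sh hs (1, 0) (Sum.inl (-1, 0)) (Sum.inl (-v.1 - 1, v.2))]
    congr 1 <;> simp
  rw [← h1]
  symm
  refine cE_map reO (by
    refine measurable_pi_lambda _ (fun e => ?_)
    rcases e with e | e
    · exact measurable_pi_apply _
    · exact (measurable_of_finite (fun b : Bool => !b)).comp
        (measurable_pi_apply (Sum.inr (-e.1, e.2)))) hs.2.2.2 _ _ _ _ (fun ω => ?_)
  rfl

/-- Correlations between columns at distance `x + x'`. -/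
lemma hh_rp (hs : SymP P) (hX : GRP P dX RX) {x x' : ℤ} (hx : 0 ≤ x) (hx' : 0 ≤ x') (y : ℤ) :
    2 * |cE P (Sum.inl 0) (Sum.inl (x + x', y))| ≤
      cE P (Sum.inl 0) (Sum.inl (2 * x, 0)) + cE P (Sum.inl 0) (Sum.inl (2 * x', 0)) := by
  have key : ∀ s : ℝ, 0 ≤ cE P (Sum.inl 0) (Sum.inl (2 * x, 0)) +
      s * (2 * cE P (Sum.inl 0) (Sum.inl (x + x', y))) +
      s ^ 2 * cE P (Sum.inl 0) (Sum.inl (2 * x', 0)) := by
    intro s
    have h1 := hX 0 (fun ω => ar ω (Sum.inl (x, 0)) + s * ar ω (Sum.inl (x', y)))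
      {Sum.inl (x, 0), Sum.inl (x', y)} (by
        intro e he
        simp only [Finset.mem_insert, Finset.mem_singleton] at he
        rcases he with rfl | rfl
        · exact ⟨hx, hx⟩
        · exact ⟨hx', hx'⟩) (by
        intro ω ω' h
        have e1 := h (Sum.inl (x, 0)) (by simp)
        have e2 := h (Sum.inl (x', y)) (by simp)
        unfold ar
        rw [e1, e2])
    have h2 : ∀ ω : Ori (ℤ × ℤ), (ar ω (Sum.inl (x, 0)) + s * ar ω (Sum.inl (x', y))) *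
        (ar (RX 0 ω) (Sum.inl (x, 0)) + s * ar (RX 0 ω) (Sum.inl (x', y))) =
        ar ω (Sum.inl (x, 0)) * ar ω (Sum.inl (2 * 0 - x, 0)) +
        s * (ar ω (Sum.inl (x, 0)) * ar ω (Sum.inl (2 * 0 - x', y))) +
        s * (ar ω (Sum.inl (x', y)) * ar ω (Sum.inl (2 * 0 - x, 0))) +
        s ^ 2 * (ar ω (Sum.inl (x', y)) * ar ω (Sum.inl (2 * 0 - x', y))) := by
      intro ω
      show (ar ω (Sum.inl (x, 0)) + s * ar ω (Sum.inl (x', y))) *
        (ar ω (Sum.inl (2 * 0 - x, 0)) + s * ar ω (Sum.inl (2 * 0 - x', y))) = _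
      ring
    have h3 : 0 ≤ cE P (Sum.inl (x, 0)) (Sum.inl (2 * 0 - x, 0)) +
        s * cE P (Sum.inl (x, 0)) (Sum.inl (2 * 0 - x', y)) +
        s * cE P (Sum.inl (x', y)) (Sum.inl (2 * 0 - x, 0)) +
        s ^ 2 * cE P (Sum.inl (x', y)) (Sum.inl (2 * 0 - x', y)) := by
      refine h1.trans (le_of_eq ?_)
      simp only [h2]
      unfold cE
      rw [integral_add, integral_add, integral_add, integral_const_mul, integral_const_mul,
        integral_const_mul]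
      · exact ar_prod_int _ _
      · exact (ar_prod_int _ _).const_mul _
      · exact (ar_prod_int _ _).add ((ar_prod_int _ _).const_mul _)
      · exact (ar_prod_int _ _).const_mul _
      · exact ((ar_prod_int _ _).add ((ar_prod_int _ _).const_mul _)).add
          ((ar_prod_int _ _).const_mul _)
      · exact (ar_prod_int _ _).const_mul _
    have t : ∀ a b a' b' : ℤ, cE P (Sum.inl (a, b)) (Sum.inl (a', b')) =
        cE P (Sum.inl 0) (Sum.inl (a' - a, b' - b)) := by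
      intro a b a' b'
      rw [← cE_sh hs (a, b) (Sum.inl 0) (Sum.inl (a' - a, b' - b))]
      congr 1
      · simp
      · simp
    rw [t x 0 (2 * 0 - x) 0, t x 0 (2 * 0 - x') y, t x' y (2 * 0 - x) 0,
      t x' y (2 * 0 - x') y] at h3
    have r1 : cE P (Sum.inl 0) (Sum.inl (2 * 0 - x - x, 0 - 0)) =
        cE P (Sum.inl 0) (Sum.inl (2 * x, 0)) := by
      rw [← hh_refl hs (2 * x, 0)]
      congr 2
      exact Prod.ext (by simp only; ring) (by simp)
    have r2 : cE P (Sum.inl 0) (Sum.inl (2 * 0 - x' - x, y - 0)) =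
        cE P (Sum.inl 0) (Sum.inl (x + x', y)) := by
      rw [← hh_refl hs (x + x', y)]
      congr 2
      exact Prod.ext (by simp only; ring) (by simp)
    have r3 : cE P (Sum.inl 0) (Sum.inl (2 * 0 - x - x', 0 - y)) =
        cE P (Sum.inl 0) (Sum.inl (x + x', y)) := by
      rw [← hh_neg hs (x + x', y)]
      congr 2
      exact Prod.ext (by simp only [Prod.fst_neg]; ring) (by simp)
    have r4 : cE P (Sum.inl 0) (Sum.inl (2 * 0 - x' - x', y - y)) =
        cE P (Sum.inl 0) (Sum.inl (2 * x', 0)) := by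
      rw [← hh_refl hs (2 * x', 0)]
      congr 2
      exact Prod.ext (by simp only; ring) (by simp)
    rw [r1, r2, r3, r4] at h3
    linarith
  have k1 := key 1
  have k2 := key (-1)
  have h1 : |cE P (Sum.inl 0) (Sum.inl (x + x', y))| ≤
      (cE P (Sum.inl 0) (Sum.inl (2 * x, 0)) + cE P (Sum.inl 0) (Sum.inl (2 * x', 0))) / 2 := by
    rw [abs_le]
    constructor <;> linarith
  linarith

/-- Decay of the correlations of the arrows in all directions. -/
theorem hh_cc (hice : ∀ᵐ ω ∂P, ∀ x y, Ice ω x y) (hs : SymP P) (hG : ∃ C : ℝ, 0 ≤ C ∧ GD P C)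
    (hX : GRP P dX RX) (hdec : Tendsto (fun m : ℕ => Cc P 0 m) atTop (𝓝 0)) :
    Tendsto (fun a : ℤ × ℤ => ∫ ω, ar ω (Sum.inl 0) * ar ω (Sum.inl a) ∂P) cofinite (𝓝 0) := by
  have hsw := hh_swap hice hs hG
  rw [Metric.tendsto_nhds] at hsw ⊢
  intro ε hε
  rw [Metric.tendsto_atTop] at hdec
  obtain ⟨N, hN⟩ := hdec (ε / 2) (by linarith)
  have hH : ∀ n : ℤ, (N : ℤ) ≤ n → cE P (Sum.inl 0) (Sum.inl (n, 0)) < ε / 2 := by
    intro n hn
    obtain ⟨k, hk⟩ := Int.eq_ofNat_of_zero_le (show 0 ≤ n by omega)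
    have h1 := hN k (by omega)
    rw [Real.dist_eq, sub_zero] at h1
    have h2 : Cc P 0 k = cE P (Sum.inl 0) (Sum.inl (n, 0)) := by
      rw [hk]
      rfl
    rw [← h2]
    exact (le_abs_self _).trans_lt h1
  have hcol : ∀ (n y : ℤ), (N : ℤ) + 1 ≤ n → |cE P (Sum.inl 0) (Sum.inl (n, y))| < ε / 2 := by
    intro n y hn
    have h1 := hh_rp hs hX (x := n / 2) (x' := n - n / 2) (by omega) (by omega) y
    rw [show n / 2 + (n - n / 2) = n by ring] at h1
    have h2 := hH (2 * (n / 2)) (by omega)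
    have h3 := hH (2 * (n - n / 2)) (by omega)
    linarith
  have hcol' : ∀ (n y : ℤ), (N : ℤ) + 1 ≤ |n| → |cE P (Sum.inl 0) (Sum.inl (n, y))| < ε / 2 := by
    intro n y hn
    rcases le_total 0 n with h | h
    · exact hcol n y (by rwa [abs_of_nonneg h] at hn)
    · rw [← hh_refl hs (n, y)]
      exact hcol (-n) y (by rwa [abs_of_nonpos h] at hn)
  have hfin : ∀ᶠ v : ℤ × ℤ in cofinite, (N : ℤ) + 1 ≤ |v.1| ∨ (N : ℤ) + 1 ≤ |v.2| := by
    rw [eventually_cofinite]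
    refine ((Finset.Icc (-(N : ℤ)) N ×ˢ Finset.Icc (-(N : ℤ)) N).finite_toSet).subset ?_
    intro v hv
    simp only [Set.mem_ofPred_eq, not_or, not_le] at hv
    have h1 := abs_lt.1 hv.1
    have h2 := abs_lt.1 hv.2
    simp only [Finset.coe_product, Finset.coe_Icc, Set.mem_prod, Set.mem_Icc]
    omega
  filter_upwards [hsw (ε / 2) (by linarith), hfin] with v h1 h2
  rw [Real.dist_eq, sub_zero] at h1 ⊢
  show |cE P (Sum.inl 0) (Sum.inl v)| < ε
  rcases h2 with h2 | h2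
  · have := hcol' v.1 v.2 h2
    exact this.trans (by linarith)
  · have h3 : |cE P (Sum.inl 0) (Sum.inl v.swap)| < ε / 2 := hcol' v.2 v.1 h2
    have h4 : cE P (Sum.inl 0) (Sum.inl v) = (cE P (Sum.inl 0) (Sum.inl v) -
        cE P (Sum.inl 0) (Sum.inl v.swap)) + cE P (Sum.inl 0) (Sum.inl v.swap) := by ring
    rw [h4]
    exact (abs_add_le _ _).trans_lt (by linarith)

/-- **The properties of the plane measure used for the spin model.** -/
theorem hyp_hi {c : ℝ} (hP : IsP c P) (hs : SymP P) (hG : ∃ C : ℝ, 0 ≤ C ∧ GD P C)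
    (hX : GRP P dX RX) (hdec : Tendsto (fun m : ℕ => Cc P 0 m) atTop (𝓝 0)) : FP.Hyp P := by
  have hPl : Pl c P := pl_of_sym hP hs
  refine ⟨hPl.ice, hh_cc hPl.ice hs hG hX hdec, hPl.shift, ?_⟩
  obtain ⟨C, hC, hGD⟩ := hG
  obtain ⟨C', hC', hcol⟩ := hh_col hP hs hC hGD
  have hpth : ∀ᵐ ω ∂P, P152.IsHeight ω (pth ω) := by
    filter_upwards [hPl.ice] with ω hω
    exact pth_isHeight hω
  refine ⟨4 * C', by positivity, fun q hq => ?_⟩
  have h1 := hh_var hC' hcol (fun ω => pth ω) hpth q 0 hq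
  have h2 := P152.var_height (c := c) ⟨id, strictMono_id, hP.2.1⟩ (fun ω => pth ω) hpth q
  rw [h2] at h1
  simpa only [Prod.fst_zero, Prod.snd_zero, sub_zero] using h1

end Vale.Agent.P145.FA
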