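import Vale.Agent.P145.FA.PlP
import Vale.Agent.P145.FA.RpG

/-!
# P145, block F-A: the plane measure of P152, `1 ≤ c ≤ 2`
-/

namespace Vale.Agent.P145.FA

open Finset Filter Topology MeasureTheory
open Vale.Agent.P152 Vale.Agent.P152.GFF.B3 Vale.Agent.P152.GFF.E2

/-- All plane inputs of block F-A from the output of block E2 of P152. -/
theorem pl_grp_of_uqC {c : ℝ} (hc : 1 ≤ c) (hc2 : c ≤ 2) (hu : UqC c)
    {P : Measure (Ori (ℤ × ℤ))} (hP : IsP c P) :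
    Pl c P ∧ GRP P dX RX ∧ GRP P dY RY ∧ GRP P dD RD ∧ GRP P dA RA :=
  ⟨pl_of_sym hP (stB_sym2 c (by linarith) hc2 P hP), grp_of_uqC hc hc2 hu hP⟩

end Vale.Agent.P145.FA
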