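import Vale.Agent.P145.FA.Sd1
import Vale.Agent.P145.FA.Grn

/-!
P145, block F-A: the macroscopic input `SDseq` from the Gaussian limit in the plane.
-/

namespace Vale.Agent.P145.FA

open Finset Filter Topology MeasureTheory
open Vale.Agent.P152
open Vale.Agent.P152.GFF.S (hcell hbox hint Test gffCov gffCov_symm gffCov_add)
open Vale.Agent.P145.PT (Sm TestOn lap)

variable {P : Measure (Ori (ℤ × ℤ))} [IsProbabilityMeasure P]

/-- The Gaussian limit in the plane. -/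
def CLT (P : Measure (Ori (ℤ × ℤ))) (κ : ℝ) : Prop := ∀ F : ℝ × ℝ → ℝ, Test F →
  Tendsto (fun δ : ℝ => ∫ ω, Complex.exp (Complex.I * (hint (pth ω) δ F : ℂ)) ∂P) (𝓝[>] 0)
    (𝓝 (Complex.exp (-(((κ / 2) * gffCov F F : ℝ) : ℂ))))

lemma smooth_bounds {g : ℝ × ℝ → ℝ} (hg : Sm g) (cg : HasCompactSupport g) :
    ∃ R0 F L : ℝ, 0 < R0 ∧ (∀ x : ℝ × ℝ, g x ≠ 0 → |x.1| ≤ R0 ∧ |x.2| ≤ R0) ∧ (∀ x, |g x| ≤ F) ∧
      0 ≤ L ∧ ∀ x y, |g x - g y| ≤ L * ‖x - y‖ := by
  obtain ⟨R0, hR0, hR⟩ := P152.GFF.S.bound_of_compact cg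
  obtain ⟨F, hF⟩ := cg.exists_bound_of_continuous hg.continuous
  obtain ⟨L, hL⟩ := (cg.fderiv ℝ).exists_bound_of_continuous (hg.continuous_fderiv (by simp))
  refine ⟨R0, F, L, hR0, hR, fun x => by simpa using hF x, (norm_nonneg _).trans (hL 0), fun x y => ?_⟩
  have h := Convex.norm_image_sub_le_of_norm_fderiv_le (𝕜 := ℝ) (f := g) (C := L) (s := Set.univ)
    (fun x _ => hg.differentiable (by simp) x) (fun x _ => hL x) convex_univ (Set.mem_univ y)
    (Set.mem_univ x)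
  simpa using h

/-- Characteristic functions of the lattice functionals. -/
theorem app_char (hP : FP.Hyp P) {κ : ℝ} (hclt : CLT P κ) {δ : ℕ → ℝ}
    (hδ : Tendsto δ atTop (𝓝[>] 0)) {g : ℝ × ℝ → ℝ} (hg : Test g) {v : ℕ → (ℤ × ℤ) →₀ ℝ}
    (hv : App δ g v) :
    Tendsto (fun n => ∫ ω, Complex.exp (Complex.I * ((ev (v n) (pth ω) : ℝ) : ℂ)) ∂P) atTop
      (𝓝 (Complex.exp (-(((κ / 2) * gffCov g g : ℝ) : ℂ)))) := by
  obtain ⟨R0, F, L, hR0, hR, hF, hL0, hL⟩ := smooth_bounds hg.1 hg.2.1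
  have hgi : Integrable g := hg.1.continuous.integrable_of_hasCompactSupport hg.2.1
  have h1 := app_close hP hδ hv hgi hR0 hR hF hL0 hL
  have h2 := (hclt g hg).comp hδ
  have hpos : ∀ᶠ n in atTop, 0 < δ n := hδ.eventually self_mem_nhdsWithin
  have h3 : Tendsto (fun n => ∫ ω, Complex.exp (Complex.I * ((ev (v n) (pth ω) : ℝ) : ℂ)) ∂P -
      ∫ ω, Complex.exp (Complex.I * (hint (pth ω) (δ n) g : ℂ)) ∂P) atTop (𝓝 0) := by
    refine squeeze_zero_norm' ?_ h1
    filter_upwards [hpos] with n hn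
    obtain ⟨N, hN⟩ := exists_nat_ge (R0 / δ n + 1)
    have e : ∀ ω : Ori (ℤ × ℤ), hint (pth ω) (δ n) g =
        ∑ q ∈ hbox N, (pth ω q : ℝ) * ∫ x in hcell (δ n) q, g x := fun ω =>
      P152.GFF.S.hint_cells (pth ω) hn hgi hR hN
    have mY : Measurable fun ω : Ori (ℤ × ℤ) => hint (pth ω) (δ n) g := by
      simp only [e]
      refine Finset.measurable_sum _ fun q _ => Measurable.mul_const ?_ _
      exact measurable_from_top.comp (measurable_pthq q)
    have mX : Measurable fun ω : Ori (ℤ × ℤ) => ev (v n) (pth ω) := by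
      unfold ev Finsupp.sum
      refine Finset.measurable_sum _ fun q _ => Measurable.const_mul ?_ _
      exact measurable_from_top.comp (measurable_pthq q)
    have iX : Integrable (fun ω : Ori (ℤ × ℤ) => ev (v n) (pth ω)) P := by
      unfold ev Finsupp.sum
      exact integrable_finsetSum _ fun q _ => (pth_integrable q).const_mul _
    have iY : Integrable (fun ω : Ori (ℤ × ℤ) => hint (pth ω) (δ n) g) P := by
      simp only [e]
      exact integrable_finsetSum _ fun q _ => (pth_integrable q).mul_const _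
    exact char_close1 mX.aestronglyMeasurable mY.aestronglyMeasurable (iX.sub iY).abs
  have h4 := h3.add h2
  rw [zero_add] at h4
  refine h4.congr fun n => ?_
  simp only [Function.comp_apply]
  ring

/-! ### The reflection -/

/-- Reflection of the plane. -/
def rr (x : ℝ × ℝ) : ℝ × ℝ := (x.1, -x.2)

lemma rr_rr (x : ℝ × ℝ) : rr (rr x) = x := by simp [rr]

lemma rr_cont : Continuous rr := continuous_fst.prodMk continuous_snd.neg

lemma rr_sm : ContDiff ℝ ((⊤ : ℕ∞) : WithTop ℕ∞) rr := contDiff_fst.prodMk contDiff_snd.neg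

/-- The reflection as a homeomorphism. -/
def rrh : (ℝ × ℝ) ≃ₜ (ℝ × ℝ) where
  toFun := rr
  invFun := rr
  left_inv := rr_rr
  right_inv := rr_rr
  continuous_toFun := rr_cont
  continuous_invFun := rr_cont

lemma cs_rr {f : ℝ × ℝ → ℝ} (cf : HasCompactSupport f) : HasCompactSupport (fun x => f (rr x)) :=
  cf.comp_homeomorph rrh

lemma int_rr (F : ℝ × ℝ → ℝ) : ∫ x, F (rr x) = ∫ x, F x := by
  have h : MeasurePreserving rr (volume : Measure (ℝ × ℝ)) volume := by
    rw [Measure.volume_eq_prod]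
    exact (MeasurePreserving.id _).prod (Measure.measurePreserving_neg _)
  exact h.integral_comp rrh.measurableEmbedding F

lemma hasFDerivAt_rr (x : ℝ × ℝ) : HasFDerivAt rr
    ((ContinuousLinearMap.fst ℝ ℝ ℝ).prod (-(ContinuousLinearMap.snd ℝ ℝ ℝ))) x :=
  hasFDerivAt_fst.prodMk hasFDerivAt_snd.neg

lemma dx_rr {f : ℝ × ℝ → ℝ} (hf : Sm f) (z : ℝ × ℝ) :
    PT.dx (fun x => f (rr x)) z = PT.dx f (rr z) := by
  unfold PT.dx
  have h := ((hf.differentiable (by simp)) (rr z)).hasFDerivAt.comp z (hasFDerivAt_rr z)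
  have e : (f ∘ rr) = fun x => f (rr x) := rfl
  rw [e] at h
  rw [h.fderiv]
  simp

lemma dy_rr {f : ℝ × ℝ → ℝ} (hf : Sm f) (z : ℝ × ℝ) :
    PT.dy (fun x => f (rr x)) z = - PT.dy f (rr z) := by
  unfold PT.dy
  have h := ((hf.differentiable (by simp)) (rr z)).hasFDerivAt.comp z (hasFDerivAt_rr z)
  have e : (f ∘ rr) = fun x => f (rr x) := rfl
  rw [e] at h
  rw [h.fderiv]
  have e2 : ((0 : ℝ), (-1 : ℝ)) = - ((0 : ℝ), (1 : ℝ)) := by simp
  simp only [ContinuousLinearMap.comp_apply, ContinuousLinearMap.prod_apply,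
    _root_.neg_apply, ContinuousLinearMap.coe_fst', ContinuousLinearMap.coe_snd']
  rw [e2, map_neg]

lemma dy_neg {f : ℝ × ℝ → ℝ} (z : ℝ × ℝ) : PT.dy (fun x => - f x) z = - PT.dy f z := by
  unfold PT.dy
  rw [fderiv_fun_neg]
  rfl

lemma dx_neg {f : ℝ × ℝ → ℝ} (z : ℝ × ℝ) : PT.dx (fun x => - f x) z = - PT.dx f z := by
  unfold PT.dx
  rw [fderiv_fun_neg]
  rfl

lemma lap_neg {f : ℝ × ℝ → ℝ} (z : ℝ × ℝ) : lap (fun x => - f x) z = - lap f z := by
  have e1 : PT.dx (fun x => - f x) = fun x => - PT.dx f x := funext fun x => dx_neg x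
  have e2 : PT.dy (fun x => - f x) = fun x => - PT.dy f x := funext fun x => dy_neg x
  unfold PT.lap
  rw [e1, e2, dx_neg, dy_neg]
  ring

lemma lap_rr {f : ℝ × ℝ → ℝ} (hf : Sm f) (z : ℝ × ℝ) :
    lap (fun x => f (rr x)) z = lap f (rr z) := by
  have e1 : PT.dx (fun x => f (rr x)) = fun x => (PT.dx f) (rr x) := funext fun x => dx_rr hf x
  have e2 : PT.dy (fun x => f (rr x)) = fun x => - (PT.dy f) (rr x) := funext fun x => dy_rr hf x
  unfold PT.lap
  rw [e1, e2, dx_rr hf.dx, dy_neg, dy_rr hf.dy]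
  ring

lemma lap_zero {ψ : ℝ × ℝ → ℝ} (h : ∀ x : ℝ × ℝ, x.2 ≤ 0 → ψ x = 0) {x : ℝ × ℝ} (hx : x.2 < 0) :
    lap ψ x = 0 := by
  have hopen : IsOpen {y : ℝ × ℝ | y.2 < 0} := isOpen_lt continuous_snd continuous_const
  have key : ∀ (f : ℝ × ℝ → ℝ), (∀ y : ℝ × ℝ, y.2 < 0 → f y = 0) → ∀ y : ℝ × ℝ, y.2 < 0 →
      fderiv ℝ f y = 0 := by
    intro f hf y hy
    have e : f =ᶠ[𝓝 y] fun _ => (0 : ℝ) := by
      filter_upwards [hopen.mem_nhds hy] with z hz using hf z hz
    rw [e.fderiv_eq]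
    exact fderiv_const_apply 0
  have h1 : ∀ y : ℝ × ℝ, y.2 < 0 → PT.dx ψ y = 0 := fun y hy => by
    unfold PT.dx
    rw [key ψ (fun y hy => h y hy.le) y hy]; rfl
  have h2 : ∀ y : ℝ × ℝ, y.2 < 0 → PT.dy ψ y = 0 := fun y hy => by
    unfold PT.dy
    rw [key ψ (fun y hy => h y hy.le) y hy]; rfl
  unfold PT.lap
  have e1 : PT.dx (PT.dx ψ) x = 0 := by
    unfold PT.dx
    rw [key (fun z => fderiv ℝ ψ z (1, 0)) h1 x hx]; rfl
  have e2 : PT.dy (PT.dy ψ) x = 0 := by
    unfold PT.dy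
    rw [key (fun z => fderiv ℝ ψ z (0, 1)) h2 x hx]; rfl
  rw [e1, e2, add_zero]

lemma int_lap {ψ : ℝ × ℝ → ℝ} (hψ : Sm ψ) (cψ : HasCompactSupport ψ) : ∫ x, lap ψ x = 0 := by
  have hT : TestOn Set.univ ψ := ⟨hψ, cψ, Set.subset_univ _⟩
  have h := lap_swap hT (L := fun _ => (1 : ℝ)) contDiff_const
  simp only [one_mul] at h
  rw [h]
  have : ∀ z : ℝ × ℝ, lap (fun _ => (1 : ℝ)) z = 0 := by
    intro z
    have e1 : PT.dx (fun _ : ℝ × ℝ => (1 : ℝ)) = fun _ => 0 := by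
      funext y; unfold PT.dx; rw [fderiv_const_apply]; rfl
    have e2 : PT.dy (fun _ : ℝ × ℝ => (1 : ℝ)) = fun _ => 0 := by
      funext y; unfold PT.dy; rw [fderiv_const_apply]; rfl
    unfold PT.lap
    rw [e1, e2]
    unfold PT.dx PT.dy
    rw [fderiv_const_apply]
    simp
  simp [this]

/-- Completing the square. -/
lemma gff_square {A ψ : ℝ × ℝ → ℝ} (hA : Continuous A) (cA : HasCompactSupport A) (hψ : Sm ψ)
    (cψ : HasCompactSupport ψ) :
    gffCov (fun x => A x + -lap ψ x) (fun x => A x + -lap ψ x) =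
      gffCov A A + 2 * (∫ x, ψ x * A x) + ∫ x, ψ x * (-lap ψ x) := by
  have hT : TestOn Set.univ ψ := ⟨hψ, cψ, Set.subset_univ _⟩
  have hV : Continuous (fun x => -lap ψ x) := hT.lap.cont.neg
  have cV : HasCompactSupport (fun x => -lap ψ x) := hT.lap.cs.neg
  have hAV : Continuous (fun x => A x + -lap ψ x) := hA.add hV
  have cAV : HasCompactSupport (fun x => A x + -lap ψ x) := cA.add cV
  rw [gffCov_add hA hV hAV cA cV cAV, gffCov_symm hA hAV cA cAV, gffCov_add hA hV hA cA cV cA,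
    green_lap hψ cψ hA cA, green_lap hψ cψ hAV cAV]
  have e : ∫ x, ψ x * (A x + -lap ψ x) = (∫ x, ψ x * A x) + ∫ x, ψ x * (-lap ψ x) := by
    rw [← integral_add]
    · refine integral_congr_ae (Eventually.of_forall fun x => ?_)
      simp only
      ring
    · exact (hψ.continuous.mul hA).integrable_of_hasCompactSupport (cψ.mul_right)
    · exact (hψ.continuous.mul hV).integrable_of_hasCompactSupport (cψ.mul_right)
  rw [e]
  ring

/-! ### The sequence -/

/-- The test function of the combination. -/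
noncomputable def gst (f ψ χ : ℝ × ℝ → ℝ) (s t z : ℝ) (x : ℝ × ℝ) : ℝ :=
  (((f x - f (rr x)) + s * (-lap ψ x)) - t * (-lap ψ (rr x))) + z * (χ (rr x) - χ x)

/-- Data for the half-plane statement. -/
structure SDdat (f ψ χ : ℝ × ℝ → ℝ) : Prop where
  f1 : Sm f
  f2 : HasCompactSupport f
  f3 : ∀ x : ℝ × ℝ, x.2 ≤ 0 → f x = 0
  p1 : Sm ψ
  p2 : HasCompactSupport ψ
  p3 : ∀ x : ℝ × ℝ, x.2 ≤ 0 → ψ x = 0
  c1 : Sm χ
  c2 : HasCompactSupport χ
  c3 : ∀ x : ℝ × ℝ, x.2 ≤ 0 → χ x = 0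
  c4 : ∫ x, ψ x * χ x = 0

variable {f ψ χ : ℝ × ℝ → ℝ}

lemma gst_sm (h : SDdat f ψ χ) (s t z : ℝ) : Sm (gst f ψ χ s t z) := by
  have hU : Sm (fun x => -lap ψ x) := (PT.Sm.lap h.p1).neg
  unfold gst
  exact ((((h.f1.sub (h.f1.comp rr_sm)).add (contDiff_const.mul hU)).sub
    (contDiff_const.mul (hU.comp rr_sm))).add (contDiff_const.mul ((h.c1.comp rr_sm).sub h.c1)))

lemma cs_sub {a b : ℝ × ℝ → ℝ} (ca : HasCompactSupport a) (cb : HasCompactSupport b) :
    HasCompactSupport (fun x => a x - b x) := by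
  show HasCompactSupport (a - b)
  rw [sub_eq_add_neg]
  exact ca.add cb.neg

lemma gst_cs (h : SDdat f ψ χ) (s t z : ℝ) : HasCompactSupport (gst f ψ χ s t z) := by
  have hT : TestOn Set.univ ψ := ⟨h.p1, h.p2, Set.subset_univ _⟩
  have cU : HasCompactSupport (fun x => -lap ψ x) := hT.lap.cs.neg
  unfold gst
  exact (cs_sub ((cs_sub h.f2 (cs_rr h.f2)).add cU.mul_left) (cs_rr cU).mul_left).add
    (cs_sub (cs_rr h.c2) h.c2).mul_left

lemma gst_int (h : SDdat f ψ χ) (s t z : ℝ) : ∫ x, gst f ψ χ s t z x = 0 := by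
  have hT : TestOn Set.univ ψ := ⟨h.p1, h.p2, Set.subset_univ _⟩
  have iU : Integrable (fun x => -lap ψ x) := hT.lap.int.neg
  have iU' : Integrable (fun x => -lap ψ (rr x)) :=
    (hT.lap.cont.comp rr_cont).neg.integrable_of_hasCompactSupport (cs_rr hT.lap.cs.neg)
  have iff : Integrable f := h.f1.continuous.integrable_of_hasCompactSupport h.f2
  have iff' : Integrable (fun x => f (rr x)) :=
    (h.f1.continuous.comp rr_cont).integrable_of_hasCompactSupport (cs_rr h.f2)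
  have iχ : Integrable χ := h.c1.continuous.integrable_of_hasCompactSupport h.c2
  have iχ' : Integrable (fun x => χ (rr x)) :=
    (h.c1.continuous.comp rr_cont).integrable_of_hasCompactSupport (cs_rr h.c2)
  have i1 : Integrable (fun x => f x - f (rr x)) := iff.sub iff'
  have i2 : Integrable (fun x => s * (-lap ψ x)) := iU.const_mul s
  have i3 : Integrable (fun x => t * (-lap ψ (rr x))) := iU'.const_mul t
  have i4 : Integrable (fun x => z * (χ (rr x) - χ x)) := (iχ'.sub iχ).const_mul z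
  have i5 : Integrable (fun x => (f x - f (rr x)) + s * (-lap ψ x)) := i1.add i2
  have i6 : Integrable (fun x => ((f x - f (rr x)) + s * (-lap ψ x)) - t * (-lap ψ (rr x))) :=
    i5.sub i3
  unfold gst
  rw [integral_add i6 i4, integral_sub i5 i3, integral_add i1 i2, integral_sub iff iff',
    integral_const_mul, integral_const_mul, integral_const_mul, integral_sub iχ' iχ, int_rr f,
    int_rr χ, int_rr (fun x => -lap ψ x), integral_neg, int_lap h.p1 h.p2]
  ring

lemma gst_app {δ : ℕ → ℝ} {w u φ : ℕ → (ℤ × ℤ) →₀ ℝ} (hw : App δ f w)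
    (hu : App δ (fun x => -lap ψ x) u) (hφ : App δ χ φ) (s t z : ℝ) :
    App δ (gst f ψ χ s t z) (fun n => w n - rf (w n) + s • u n - t • rf (u n)
      + z • (rf (φ n) - φ n)) :=
  ((((hw.sub hw.rf).add (hu.smul s)).sub (hu.rf.smul t)).add ((hφ.rf.sub hφ).smul z))

lemma disj (h : SDdat f ψ χ) (x : ℝ × ℝ) :
    ψ x * f (rr x) = 0 ∧ ψ x * (-lap ψ (rr x)) = 0 ∧ ψ x * χ (rr x) = 0 := by
  by_cases hx : x.2 ≤ 0
  · rw [h.p3 x hx]; simp
  · push Not at hx
    have h1 : (rr x).2 < 0 := by show -x.2 < 0; linarith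
    rw [h.f3 _ h1.le, h.c3 _ h1.le, lap_zero h.p3 h1]
    simp

lemma int_a (h : SDdat f ψ χ) (t z : ℝ) : ∫ x, ψ x * gst f ψ χ 0 t z x = ∫ x, ψ x * f x := by
  have e : ∀ x, ψ x * gst f ψ χ 0 t z x = ψ x * f x + (-z) * (ψ x * χ x) := by
    intro x
    obtain ⟨h1, h2, h3⟩ := disj h x
    unfold gst
    linear_combination -h1 - t * h2 + z * h3
  simp only [e]
  rw [integral_add, integral_const_mul, h.c4, mul_zero, add_zero]
  · exact (h.p1.continuous.mul h.f1.continuous).integrable_of_hasCompactSupport h.p2.mul_right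
  · exact ((h.p1.continuous.mul h.c1.continuous).integrable_of_hasCompactSupport
      h.p2.mul_right).const_mul _

lemma int_b (h : SDdat f ψ χ) (s z : ℝ) :
    ∫ x, (-ψ (rr x)) * gst f ψ χ s 0 z x = ∫ x, ψ x * f x := by
  rw [← int_rr (fun x => (-ψ (rr x)) * gst f ψ χ s 0 z x)]
  have e : ∀ x, (-ψ (rr (rr x))) * gst f ψ χ s 0 z (rr x) = ψ x * f x + (-z) * (ψ x * χ x) := by
    intro x
    obtain ⟨h1, h2, h3⟩ := disj h x
    unfold gst
    rw [rr_rr]
    linear_combination -h1 - s * h2 + z * h3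
  simp only [e]
  rw [integral_add, integral_const_mul, h.c4, mul_zero, add_zero]
  · exact (h.p1.continuous.mul h.f1.continuous).integrable_of_hasCompactSupport h.p2.mul_right
  · exact ((h.p1.continuous.mul h.c1.continuous).integrable_of_hasCompactSupport
      h.p2.mul_right).const_mul _

/-- The macroscopic input of the half-plane statement. -/
theorem sdseq (hP : FP.Hyp P) {κ : ℝ} (hclt : CLT P κ) {δ : ℕ → ℝ}
    (hδ : Tendsto δ atTop (𝓝[>] 0)) (h : SDdat f ψ χ) {w u φ : ℕ → (ℤ × ℤ) →₀ ℝ}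
    (hw : App δ f w) (hu : App δ (fun x => -lap ψ x) u) (hφ : App δ χ φ)
    (mu : ∀ n, mass (u n) = 0) (mφ : ∀ n, mass (φ n) = 1) :
    SDseq P w u φ (Real.exp (-(κ * ∫ x, ψ x * f x) - (κ / 2) * ∫ x, ψ x * (-lap ψ x))) := by
  refine ⟨mu, mφ, fun s t z => Complex.exp (-(((κ / 2) * gffCov (gst f ψ χ s t z)
    (gst f ψ χ s t z) : ℝ) : ℂ)), fun s t z _ _ => ?_, fun t z ht => ?_, fun s z hs => ?_⟩
  · exact app_char hP hclt hδ ⟨gst_sm h s t z, gst_cs h s t z, gst_int h s t z⟩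
      (gst_app hw hu hφ s t z)
  · have e : gst f ψ χ 1 t z = fun x => gst f ψ χ 0 t z x + -lap ψ x := by
      funext x; unfold gst; ring
    have h1 := gff_square (gst_sm h 0 t z).continuous (gst_cs h 0 t z) h.p1 h.p2
    beta_reduce
    rw [e, h1, int_a h t z, Complex.ofReal_exp, ← Complex.exp_add]
    congr 1
    push_cast
    ring
  · have hψ' : Sm (fun x => -ψ (rr x)) := (h.p1.comp rr_sm).neg
    have cψ' : HasCompactSupport (fun x => -ψ (rr x)) := (cs_rr h.p2).neg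
    have elap : ∀ x, lap (fun x => -ψ (rr x)) x = - lap ψ (rr x) := fun x => by
      rw [lap_neg (f := fun x => ψ (rr x)), lap_rr h.p1]
    have e : gst f ψ χ s 1 z = fun x => gst f ψ χ s 0 z x + -lap (fun x => -ψ (rr x)) x := by
      funext x; rw [elap]; unfold gst; ring
    have h1 := gff_square (gst_sm h s 0 z).continuous (gst_cs h s 0 z) hψ' cψ'
    have h2 : ∫ x, (-ψ (rr x)) * (-lap (fun x => -ψ (rr x)) x) = ∫ x, ψ x * (-lap ψ x) := by
      rw [← int_rr (fun x => ψ x * (-lap ψ x))]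
      refine integral_congr_ae (Eventually.of_forall fun x => ?_)
      simp only
      rw [elap]
      ring
    beta_reduce
    rw [e, h1, int_b h s z, h2, Complex.ofReal_exp, ← Complex.exp_add]
    congr 1
    push_cast
    ring

end Vale.Agent.P145.FA
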