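import Vale.Agent.P145.FA.Defs

/-!
P145, block F-A: statements (as `Prop`s).
-/

namespace Vale.Agent.P145.FA

open Finset Filter Topology MeasureTheory
open Vale.Agent.P152

/-- Algebraic properties of a direction. -/
structure Dir.Good (D : Dir) : Prop where
  l_add : ∀ q r, D.l (q + r) = D.l q + D.l r
  l_s : D.l D.s = 2
  l_θ : ∀ m q, D.l (D.θ m q) = 2 * m - D.l q
  θθ : ∀ m q, D.θ m (D.θ m q) = q
  θ_s : ∀ m q, D.θ m (q + D.s) = D.θ m q - D.s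
  θ_succ : ∀ m q, D.θ (m + 1) q = D.θ m q + D.s

/-- G0 -/
def S_good : Prop := (dX.Good ∧ dY.Good ∧ dD.Good ∧ dA.Good) ∧ ∀ D : Dir, D.Good → D.neg.Good

/-- G1: opposite directions. -/
def S_neg : Prop := ∀ (P : Measure (Ori (ℤ × ℤ))) [IsProbabilityMeasure P] (D : Dir), D.Good →
  (RP P D → RP P D.neg) ∧ (Inv P D → Inv P D.neg)

/-- Lg: legs (helper375). -/
def S_leg : Prop := ∀ (P : Measure (Ori (ℤ × ℤ))) [IsProbabilityMeasure P] (D : Dir), D.Good →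
  Inv P D → RP P D → LegIneq P D ∧ LegLim P D

/-! ### The plane measure -/

/-- Torus averages. -/
noncomputable def torA (c : ℝ) (M L : ℕ) [NeZero M] [NeZero L] (f : Ori (ℤ × ℤ) → ℝ) : ℝ :=
  (∑ ω : Ori (ZMod M × ZMod L), wt c ω * f (unroll ω)) / ∑ ω : Ori (ZMod M × ZMod L), wt c ω

/-- What is used of the plane measure. -/
structure Pl (c : ℝ) (P : Measure (Ori (ℤ × ℤ))) : Prop where
  prob : IsProbabilityMeasure P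
  ice : ∀ᵐ ω ∂P, ∀ x y, Ice ω x y
  shift : ∀ a : ℤ × ℤ, P.map (fun ω e => ω (Sum.map (· + a) (· + a) e)) = P
  tr : P.map (fun ω => Sum.elim (fun v => ω (Sum.inr v.swap)) (fun v => ω (Sum.inl v.swap))) = P
  rev : P.map (fun ω e => !(ω e)) = P
  refl : P.map (fun ω => Sum.elim (fun v => ω (Sum.inl (-v.1 - 1, v.2)))
        (fun v => !(ω (Sum.inr (-v.1, v.2))))) = P

/-- M1: the law of the heights, in terms of an arbitrary base face. -/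
def S_base : Prop := ∀ (c : ℝ) (P : Measure (Ori (ℤ × ℤ))), Pl c P → ∀ (b : ℤ × ℤ) (R : Type)
  [NormedAddCommGroup R] [NormedSpace ℝ R] (F : Hgt → R), Integrable F (mu0 P) →
    HasSum (fun k : ℤ => ∫ ω, F (fun q => pth ω q - pth ω b + (2 * k + b.1 + b.2)) ∂P)
      (∫ h, F h ∂(mu0 P))

/-- M2: `mu0 P` is carried by height functions. -/
def S_lip : Prop := ∀ (c : ℝ) (P : Measure (Ori (ℤ × ℤ))), Pl c P → ∀ᵐ h ∂(mu0 P), ∀ q : ℤ × ℤ,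
  (2 : ℤ) ∣ h q - (q.1 + q.2) ∧ |h (q + (1, 0)) - h q| = 1 ∧ |h (q + (0, 1)) - h q| = 1

/-- M3: invariance. -/
def S_inv : Prop := ∀ (c : ℝ) (P : Measure (Ori (ℤ × ℤ))), Pl c P →
  (∀ a : ℤ × ℤ, (2 : ℤ) ∣ a.1 + a.2 → (mu0 P).map (pb (fun q => q + a)) = mu0 P) ∧
  Inv P dX ∧ Inv P dY ∧ Inv P dD ∧ Inv P dA

/-- R0: folding. `θ` acts on the variables, `A` is the closed half; the variables of `A ∩ θ A` are
fixed. -/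
def S_fold : Prop := ∀ (E : Type) [Fintype E] [DecidableEq E] (θ : E → E) (s : E → Bool)
  (A : Finset E), (∀ e, θ (θ e) = e) → (∀ e, s (θ e) = s e) → (∀ e, e ∈ A ∨ θ e ∈ A) →
  (∀ e ∈ A, θ e ∈ A → θ e = e ∧ s e = false) →
  ∀ F : (E → Bool) → ℝ, (∀ ω ω', (∀ e ∈ A, ω e = ω' e) → F ω = F ω') →
    0 ≤ ∑ ω : E → Bool, F ω * F (fun e => xor (s e) (ω (θ e)))

/-- R1: reflection positivity of the tori, columns. `f` depends on the arrows between the faces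
of the columns `0, ..., K` of the torus with `2 K` columns. -/
def S_torX : Prop := ∀ (c : ℝ), 0 < c → ∀ (K L : ℕ) [NeZero (2 * K)] [NeZero L]
  (f : Ori (ZMod (2 * K) × ZMod L) → ℝ),
  (∀ ω ω', (∀ (i : ℕ) (y : ZMod L), i ≤ K → ω (Sum.inl ((i : ZMod (2 * K)), y)) =
      ω' (Sum.inl ((i : ZMod (2 * K)), y))) →
    (∀ (i : ℕ) (y : ZMod L), 1 ≤ i → i ≤ K → ω (Sum.inr ((i : ZMod (2 * K)), y)) =
      ω' (Sum.inr ((i : ZMod (2 * K)), y))) → f ω = f ω') →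
  0 ≤ ∑ ω : Ori (ZMod (2 * K) × ZMod L), wt c ω * (f ω * f (Rx 0 ω))

/-- R2: reflection positivity of the square tori, diagonals. `f` depends on the arrows between
faces `q` with `0 ≤ q.1 - q.2 ≤ K` modulo `2 K`. -/
def S_torD : Prop := ∀ (c : ℝ), 1 ≤ c → ∀ (K : ℕ) [NeZero (2 * K)]
  (f : Ori (ZMod (2 * K) × ZMod (2 * K)) → ℝ),
  (∀ ω ω', (∀ (i : ℕ) (y : ZMod (2 * K)), i < K → ω (Sum.inl (y + i, y)) =
      ω' (Sum.inl (y + i, y))) →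
    (∀ (i : ℕ) (y : ZMod (2 * K)), 1 ≤ i → i ≤ K → ω (Sum.inr (y + i, y)) =
      ω' (Sum.inr (y + i, y))) → f ω = f ω') →
  0 ≤ ∑ ω : Ori (ZMod (2 * K) × ZMod (2 * K)), wt c ω * (f ω * f (RD 0 ω))

/-- R3: reflection positivity of the arrows in the plane. -/
def S_grp : Prop := ∀ (c : ℝ), 1 ≤ c → ∀ P : Measure (Ori (ℤ × ℤ)), Pl c P →
  GRP P dX RX ∧ GRP P dY RY ∧ GRP P dD RD ∧ GRP P dA RA

/-- R4: reflection positivity of the heights. -/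
def S_rp : Prop := ∀ (c : ℝ) (P : Measure (Ori (ℤ × ℤ))), Pl c P →
  (GRP P dX RX → RP P dX) ∧ (GRP P dY RY → RP P dY) ∧ (GRP P dD RD → RP P dD) ∧
  (GRP P dA RA → RP P dA)

/-! ### The half-plane statement -/

/-- Linear functionals of the heights. -/
noncomputable def ev (w : (ℤ × ℤ) →₀ ℝ) (h : Hgt) : ℝ := w.sum fun q a => a * (h q : ℝ)

/-- Total mass. -/
noncomputable def mass (w : (ℤ × ℤ) →₀ ℝ) : ℝ := w.sum fun _ a => a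

/-- Reflection in the row `0`. -/
noncomputable def rf (w : (ℤ × ℤ) →₀ ℝ) : (ℤ × ℤ) →₀ ℝ := w.mapDomain fun q => (q.1, - q.2)

/-- The null functional. -/
noncomputable def Yf (w u : (ℤ × ℤ) →₀ ℝ) (α : ℝ) (h : Hgt) : ℂ :=
  Complex.exp (Complex.I * (ev w h : ℂ)) * (Complex.exp (Complex.I * (ev u h : ℂ)) - (α : ℂ))

/-- Macroscopic input: Gaussian limits of the neutral functionals built from `w n`, `u n`, `φ n`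
and their reflections. -/
structure SDseq (P : Measure (Ori (ℤ × ℤ))) (w u φ : ℕ → (ℤ × ℤ) →₀ ℝ) (α : ℝ) : Prop where
  mu : ∀ n, mass (u n) = 0
  mφ : ∀ n, mass (φ n) = 1
  lim : ∃ L : ℝ → ℝ → ℝ → ℂ,
    (∀ s t z : ℝ, (s = 0 ∨ s = 1) → (t = 0 ∨ t = 1) →
      Tendsto (fun n => ∫ ω, Complex.exp (Complex.I * ((ev (w n - rf (w n) + s • u n - t • rf (u n)
        + z • (rf (φ n) - φ n)) (pth ω) : ℝ) : ℂ)) ∂P) atTop (𝓝 (L s t z))) ∧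
    (∀ t z : ℝ, (t = 0 ∨ t = 1) → L 1 t z = α * L 0 t z) ∧
    (∀ s z : ℝ, (s = 0 ∨ s = 1) → L s 1 z = α * L s 0 z)

/-- Tightness of `ev (φ n)` relative to `G n`. -/
def Tight (P : Measure (Ori (ℤ × ℤ))) (φ : ℕ → (ℤ × ℤ) →₀ ℝ) (G : ℕ → Hgt → ℂ) : Prop :=
  ∀ ε > 0, ∃ K0 : ℝ, ∀ K ≥ K0, ∀ᶠ n in atTop,
    ∫ h, ‖G n h‖ * (1 - Real.exp (-((ev (φ n) h) ^ 2 / (2 * K ^ 2)))) ∂(mu0 P) ≤ ε

/-- H0: Gaussian sums over the even integers. -/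
def S_gauss : Prop := ∃ e : ℝ → ℝ, Tendsto e atTop (𝓝 0) ∧ ∀ K ≥ 1, ∀ t : ℝ,
  Summable (fun k : ℤ => Real.exp (-((t + 2 * k) ^ 2 / K ^ 2))) ∧
  |∑' k : ℤ, Real.exp (-((t + 2 * k) ^ 2 / K ^ 2)) - K * √Real.pi / 2| ≤ e K

/-- H1: half-plane statement. -/
def S_hp : Prop := ∀ (P : Measure (Ori (ℤ × ℤ))) [IsProbabilityMeasure P], RP P dY →
  ∀ (w u φ : ℕ → (ℤ × ℤ) →₀ ℝ) (α : ℝ), SDseq P w u φ α →
  (∀ n, ∀ q, q ∈ (w n).support ∨ q ∈ (u n).support ∨ q ∈ (φ n).support → 0 ≤ q.2) →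
  ∀ (G : ℕ → Hgt → ℂ) (C : ℝ), (∀ n, Adm P {q | q.2 ≤ 0} (G n)) → (∀ n h, ‖G n h‖ ≤ 1) →
  (∀ n, ∫ h, ‖G n h‖ ∂(mu0 P) ≤ C) → Tight P φ G →
  Tendsto (fun n => ∫ h, Yf (w n) (u n) α h * G n h ∂(mu0 P)) atTop (𝓝 0)

/-- H2: product form (pinwheel). Lines: columns `xl n`, `xr n`, rows `0`, `yt n`; width of the
corridors `2 * N n`; everything happens in the box of radius `ρ * N n`. -/
def S_fa : Prop := ∀ (P : Measure (Ori (ℤ × ℤ))) [IsProbabilityMeasure P],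
  (∀ a : ℤ × ℤ, (2 : ℤ) ∣ a.1 + a.2 → (mu0 P).map (pb (fun q => q + a)) = mu0 P) →
  (∀ D ∈ [dX, dY, dD, dA, dX.neg, dY.neg, dD.neg, dA.neg], LegLim P D) → RP P dY →
  ∀ (w u φ : ℕ → (ℤ × ℤ) →₀ ℝ) (α : ℝ), SDseq P w u φ α →
  ∀ (ρ : ℕ) (N : ℕ → ℕ) (xl xr yt : ℕ → ℤ), (∀ n, 1 ≤ N n) →
  (∀ n, |xl n| ≤ ρ * N n ∧ |xr n| ≤ ρ * N n ∧ |yt n| ≤ ρ * N n) →
  (∀ n, ∀ q, q ∈ (w n).support ∨ q ∈ (u n).support ∨ q ∈ (φ n).support →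
    0 ≤ q.2 ∧ q.2 ≤ yt n ∧ xl n ≤ q.1 ∧ q.1 ≤ xr n ∧ |q.1| ≤ ρ * N n ∧ |q.2| ≤ ρ * N n) →
  ∀ (G1 G2 G3 G4 : ℕ → Hgt → ℂ) (C : ℝ),
  (∀ n, Adm P {q | q.1 ≤ xl n - 2 * N n ∧ |q.1| ≤ ρ * N n ∧ |q.2| ≤ ρ * N n} (G1 n)) →
  (∀ n, Loc {q | yt n + 2 * N n ≤ q.2 ∧ xl n ≤ q.1 ∧ |q.1| ≤ ρ * N n ∧ |q.2| ≤ ρ * N n} (G2 n)) →
  (∀ n, Loc {q | xr n + 2 * N n ≤ q.1 ∧ q.2 ≤ yt n ∧ |q.1| ≤ ρ * N n ∧ |q.2| ≤ ρ * N n}
    (G3 n)) →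
  (∀ n, Adm P {q | q.2 ≤ 0 ∧ q.2 ≤ yt n ∧ xl n ≤ q.1 ∧ q.1 ≤ xr n ∧ |q.1| ≤ ρ * N n ∧
    |q.2| ≤ ρ * N n} (G4 n)) →
  (∀ n h, ‖G1 n h‖ ≤ 1) → (∀ n h, ‖G2 n h‖ ≤ 1) → (∀ n h, ‖G3 n h‖ ≤ 1) →
  (∀ n h, ‖G4 n h‖ ≤ 1) →
  (∀ n, ∫ h, ‖G1 n h‖ ∂(mu0 P) ≤ C) → (∀ n, ∫ h, ‖G4 n h‖ ∂(mu0 P) ≤ C) → Tight P φ G4 →
  Tendsto (fun n => ∫ h, Yf (w n) (u n) α h * G1 n h * G2 n h * G3 n h * G4 n h ∂(mu0 P))
    atTop (𝓝 0)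

end Vale.Agent.P145.FA
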