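import Vale.Agent.P145.FA.HypHi
import Vale.Agent.P145.FA.BxLim
import Vale.Agent.P145.FA.PlG
import Vale.Agent.P145.FA.Sd2
import Vale.Agent.P145.FA.Base
import Vale.Agent.P145.FB.MomHi
import Vale.Agent.P145.FB.AntiConc
import Vale.Agent.P145.FB.Sym0
import Vale.Agent.P145.FB.Swap
import Vale.Agent.P152.GFF.ValF

/-!
P145: all properties of the plane six-vertex measure, `1 ≤ c ≤ 2`, in one structure.
-/

set_option autoImplicit false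

namespace Vale.Agent.P145.FA

open Finset Filter Topology MeasureTheory
open Vale.Agent.P152 Vale.Agent.P152.GFF.B3 Vale.Agent.P152.GFF.E2
open Vale.Agent.P152.GFF (Pln ChP TorI VarLim)
open Vale.Agent.P152.GFF.S (GD SliceCLT)

/-- The plane measure `P` of the six-vertex model with weights `1, 1, c`, with stiffness `κ`. -/
structure PlIn (c : ℝ) (P : Measure (Ori (ℤ × ℤ))) (κ : ℝ) : Prop where
  prob : IsProbabilityMeasure P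
  isP : IsP c P
  pl : Pl c P
  ice : ∀ᵐ ω ∂P, ∀ x y, Ice ω x y
  sym : SymP P
  symM : FB.SymM P
  lim : IsLimit c P
  pln : Pln c P
  chP : ChP c P
  tor : FB.TorL c P
  swap : FB.Swap c P
  box : BoxLim c
  grp : GRP P dX RX ∧ GRP P dY RY ∧ GRP P dD RD ∧ GRP P dA RA
  inv : ∀ a : ℤ × ℤ, (2 : ℤ) ∣ a.1 + a.2 → (mu0 P).map (pb (fun q => q + a)) = mu0 P
  hyp : FP.Hyp P
  κpos : 0 < κ
  clt : CLT P κ
  charLim : FB.AC.CharLim P κ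
  slice : SliceCLT P κ
  varLim : VarLim P κ
  gd : ∃ C : ℝ, 0 ≤ C ∧ GD P C
  egd : ∃ C > 0, ∃ γ > 0, FB.Mom.EGD P C γ
  ac : FB.AC.Stmt P

theorem plIn_of {c : ℝ} (hc : 1 ≤ c) (hc2 : c ≤ 2) {P : Measure (Ori (ℤ × ℤ))} (hP : IsP c P)
    (hPl : Pln c P) (hch : ChP c P) (hpos : ∀ κ : ℝ, 0 ≤ κ → VarLim P κ → 0 < κ)
    (hb : BoxLim c) (hdec : Tendsto (fun m : ℕ => Cc P 0 m) atTop (𝓝 0))
    (hE : ∃ C > 0, ∃ γ > 0, FB.Mom.EGD P C γ) : ∃ κ : ℝ, PlIn c P κ := by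
  have hc0 : 0 < c := by linarith
  have := hPl.prob
  obtain ⟨κ, hκ, hS, hV⟩ := GFF.gen_slice hc0 hPl hch GFF.stWeak
  have hκ0 := hpos κ hκ hV
  have hsym : SymP P := stB_sym2 c hc0 hc2 P hP
  obtain ⟨hsub, hice⟩ := hPl.ice
  obtain ⟨C, hC, hgd⟩ := hPl.gd
  have hgrp := grp_of_box hc hc2 hb hP hsym
  have hpl : Pl c P := pl_of_sym hP hsym
  have hht : ∀ᵐ ω ∂P, IsHeight ω (pth ω) := by
    filter_upwards [hice] with ω hω
    exact pth_isHeight hω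
  have hclt : CLT P κ := fun F hF =>
    GFF.S.char_limit' hC hgd hice hS (fun ω => pth ω) hht hF
  have htor : FB.TorL c P := hPl.tor
  exact ⟨κ, {
    prob := hPl.prob
    isP := hP
    pl := hpl
    ice := hice
    sym := hsym
    symM := ⟨hsym.1, hsym.2.1, hsym.2.2.1, hsym.2.2.2⟩
    lim := hPl.lim
    pln := hPl
    chP := hch
    tor := htor
    swap := FB.swap_of_torL htor
    box := hb
    grp := hgrp
    inv := (s_inv c P hpl).1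
    hyp := hyp_hi hP hsym ⟨C, hC, hgd⟩ hgrp.1 hdec
    κpos := hκ0
    clt := hclt
    charLim := hclt
    slice := hS
    varLim := hV
    gd := ⟨C, hC, hgd⟩
    egd := hE
    ac := FB.AC.main hC hgd hice hκ0 hclt }⟩

lemma tendsto_col {f : ℤ × ℤ → ℝ} (h : Tendsto f cofinite (𝓝 0)) :
    Tendsto (fun m : ℕ => f (0, (m : ℤ))) atTop (𝓝 0) := by
  have h2 : Tendsto (fun m : ℕ => ((0, (m : ℤ)) : ℤ × ℤ)) atTop cofinite := by
    rw [← Nat.cofinite_eq_atTop]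
    refine Function.Injective.tendsto_cofinite ?_
    intro a b hab
    simpa using hab
  exact h.comp h2

lemma dec_lo {c : ℝ} (hc0 : 0 < c) (hc2 : c ^ 2 ≤ 2) {P : Measure (Ori (ℤ × ℤ))}
    (hP : IsP c P) : Tendsto (fun m : ℕ => Cc P 0 m) atTop (𝓝 0) := by
  obtain ⟨C0, _, hCc⟩ := m_Cc c hc0 hc2 (s_a6 c hc0 hc2)
  exact tendsto_col (hCc P hP).2.2.1

lemma egd_lo {c : ℝ} (hc0 : 0 < c) (hc2 : c ^ 2 ≤ 2) {P : Measure (Ori (ℤ × ℤ))}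
    (hP : IsP c P) : ∃ C > 0, ∃ γ > 0, FB.Mom.EGD P C γ := by
  obtain ⟨C, hC, γ, hγ, hE⟩ := FB.Mom.egd m_GD m_muI m_tsym m_loc m_emb hc0 hc2
    (s_a6 c hc0 hc2)
  exact ⟨C, hC, γ, hγ, hE P hP⟩

/-- `1 ≤ c`, `c² ≤ 2`. -/
theorem exists_plIn_lo {c : ℝ} (hc : 1 ≤ c) (hc2 : c ^ 2 ≤ 2) :
    ∃ (P : Measure (Ori (ℤ × ℤ))) (κ : ℝ), PlIn c P κ := by
  have hc0 : 0 < c := by linarith
  obtain ⟨P, hP, hPl, hch, hpos⟩ := GFF.lo_all hc0 hc2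
  obtain ⟨κ, h⟩ := plIn_of hc (by nlinarith) hP hPl hch hpos (boxLim_of_sq hc0 hc2)
    (dec_lo hc0 hc2 hP) (egd_lo hc0 hc2 hP)
  exact ⟨P, κ, h⟩

/-- `√2 < c ≤ 2`. -/
theorem exists_plIn_hi {c : ℝ} (hc : 1 ≤ c) (h2 : 2 < c ^ 2) (hc2 : c ≤ 2) :
    ∃ (P : Measure (Ori (ℤ × ℤ))) (κ : ℝ), PlIn c P κ := by
  have hc0 : 0 < c := by linarith
  have hA : A6 (wc c) := by
    rcases hc2.lt_or_eq with h | h
    · exact GFF.a6_all hc0 h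
    · rw [h]
      exact GFF.A6u.a6_two
  have hu : UqC c := uqC hc0 h2 hc2
  obtain ⟨P, hP⟩ := stB_exist2 c hc0 hc2 hu
  obtain ⟨hsh, htr, hrev, -⟩ := stB_sym2 c hc0 hc2 P hP
  have htor := stB_tor2 c hu P hP
  obtain ⟨C, hC, hgd⟩ := stB_gd2 c hc0 hc2 hu hA
  have hPl : Pln c P := ⟨hP.1, hP.2.1, htor, hsh, htr, hrev, C, hC, hgd P hP⟩
  have hR : GFF.Rng c P := ⟨(stB_ice2 c hc0 hc2 P hP).2,
    stB_col2 stB_gd2 stB_sym2 c hc0 hc2 hu hA P hP,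
    stB_cov c hc0 P hP.1 htor hsh, stB_loc2 c hc0 hu⟩
  obtain ⟨CE, hCE, γ, hγ, hE⟩ := FB.Mom.egd_hi hc0 hc2 hu hA
  obtain ⟨κ, h⟩ := plIn_of hc hc2 hP hPl (GFF.hi_chP hc0 h2 hc2 hPl hR)
    (fun κ hκ hV => GFF.hi_kappa hc0 h2 hc2 hPl hR hκ hV) (boxLim_of_uqC hu)
    (GFF.hi_decay hc0 h2 hc2 hPl hR) ⟨CE, hCE, γ, hγ, hE P hP⟩
  exact ⟨P, κ, h⟩

/-- The plane measure for all `1 ≤ c ≤ 2`. -/
theorem exists_plIn {c : ℝ} (hc : 1 ≤ c) (hc2 : c ≤ 2) :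
    ∃ (P : Measure (Ori (ℤ × ℤ))) (κ : ℝ), PlIn c P κ := by
  rcases le_or_gt (c ^ 2) 2 with h | h
  · exact exists_plIn_lo hc h
  · exact exists_plIn_hi hc h hc2

end Vale.Agent.P145.FA
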