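import Vale.Agent.P145.FA.RpP
import Vale.Agent.P145.FA.Stmt

/-!
# P145, block F-A: the plane measure of P152 (`c ^ 2 ≤ 2`) satisfies `Pl`
-/

namespace Vale.Agent.P145.FA

open Finset Filter Topology MeasureTheory
open Vale.Agent.P152 Vale.Agent.P152.GFF.B3

/-- The plane measure of P152, any `c`. -/
theorem pl_of_sym {c : ℝ} {P : Measure (Ori (ℤ × ℤ))} (hP : IsP c P)
    (hsym : (∀ a b : ℤ, P.map (shO a b) = P) ∧ P.map trO = P ∧ P.map (fun ω e => !(ω e)) = P ∧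
      P.map reO = P) : Pl c P := by
  obtain ⟨hs, ht, hr, hx⟩ := hsym
  have hprob := hP.1
  have hsub : IsSubLimit c P := by
    obtain ⟨Q, hQ1, hQ2⟩ := hP.2.1
    exact ⟨id, strictMono_id, Q, fun i => hQ1 i, hQ2⟩
  refine ⟨hP.1, ice_ae hsub, fun a => ?_, ?_, hr, ?_⟩
  · have h1 : (fun (ω : Ori (ℤ × ℤ)) e => ω (Sum.map (· + a) (· + a) e)) = shO a.1 a.2 := by
      funext ω e
      rcases e with v | v <;> rfl
    rw [h1]
    exact hs a.1 a.2
  · have h1 : (fun ω : Ori (ℤ × ℤ) => Sum.elim (fun v => ω (Sum.inr v.swap))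
        (fun v => ω (Sum.inl v.swap))) = trO := by
      funext ω e
      rcases e with v | v <;> rfl
    rw [h1]
    exact ht
  · have h1 : (fun ω : Ori (ℤ × ℤ) => Sum.elim (fun v : ℤ × ℤ => ω (Sum.inl (-v.1 - 1, v.2)))
        (fun v : ℤ × ℤ => !(ω (Sum.inr (-v.1, v.2))))) = reO := by
      funext ω e
      rcases e with v | v <;> rfl
    rw [h1]
    exact hx

theorem pl_of {c : ℝ} (hc : 0 < c) (hc2 : c ^ 2 ≤ 2) (_hA : A6 (wc c))
    {P : Measure (Ori (ℤ × ℤ))} (hP : IsP c P) : Pl c P :=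
  pl_of_sym hP (m_symP c hc hc2 P hP)

end Vale.Agent.P145.FA
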