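import Vale.Agent.P145.FA.Good

/-!
P145, block F-A: reflection positivity of the heights from reflection positivity of the arrows.
-/

namespace Vale.Agent.P145.FA

open Finset Filter Topology MeasureTheory
open Vale.Agent.P152

theorem sum_Ioc_tel {G g : ℤ → ℤ} (h : ∀ i, G i - G (i - 1) = g i) {m n : ℤ} (hmn : m ≤ n) :
    ∑ i ∈ Finset.Ioc m n, g i = G n - G m := by
  induction n, hmn using Int.leInduction with
  | base => simp
  | succ n hn ih =>
    have e1 : Finset.Ioc m (n + 1) = insert (n + 1) (Finset.Ioc m n) := by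
      ext i; simp only [Finset.mem_Ioc, Finset.mem_insert]; omega
    rw [e1, Finset.sum_insert (by simp), ih, ← h (n + 1), add_sub_cancel_right]
    ring

/-- Heights along paths that stay in a half plane. -/
structure Lift (D : Dir) (R : ℤ → Ori (ℤ × ℤ) → Ori (ℤ × ℤ)) (m : ℤ) where
  b : ℤ × ℤ
  hb : D.θ m b = b
  H : Ori (ℤ × ℤ) → Hgt
  loc : ∀ q, m ≤ D.l q → ∃ Λ : Finset (Edge (ℤ × ℤ)), (∀ e ∈ Λ, e ∈ Half D m) ∧
    ∀ ω ω', (∀ e ∈ Λ, ω e = ω' e) → H ω q = H ω' q
  hH : ∀ ω h, IsHeight ω h → ∀ q, m ≤ D.l q → H ω q = h q - h b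
  hR : ∀ ω h, IsHeight ω h → IsHeight (R m ω) (fun q => h (D.θ m q))

theorem rp_of_grp (hbase : S_base) {c : ℝ} {P : Measure (Ori (ℤ × ℤ))} (hP : Pl c P) (D : Dir)
    (R : ℤ → Ori (ℤ × ℤ) → Ori (ℤ × ℤ)) (L : ∀ m, Lift D R m) (h : GRP P D R) : RP P D := by
  classical
  intro m F hF
  have := hP.prob
  obtain ⟨C, hC⟩ := hF.bdd
  have hint : Integrable (fun h => F h * F (pb (D.θ m) h)) (mu0 P) :=
    hF.int.mul_bdd (hF.loc.measurable.comp (measurable_pb _)).aestronglyMeasurable
      (Eventually.of_forall fun h => hC _)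
  have hs := hbase c P hP (L m).b ℝ _ hint
  rw [← hs.tsum_eq]
  refine tsum_nonneg fun k => ?_
  set b := (L m).b with hb
  set v : ℤ := 2 * k + b.1 + b.2 with hv
  let f : Ori (ℤ × ℤ) → ℝ := fun ω => F (fun q => (L m).H ω q + v)
  obtain ⟨Λ, h1, h2⟩ := hF.loc
  choose! Λ' h3 h4 using (L m).loc
  have hf := h m f (Λ.biUnion Λ') (by
      intro e he
      obtain ⟨q, hq, he⟩ := Finset.mem_biUnion.1 he
      exact h3 q (h1 q hq) e he) (by
      intro ω ω' hω
      refine h2 _ _ (fun q hq => ?_)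
      show (L m).H ω q + v = (L m).H ω' q + v
      rw [h4 q (h1 q hq) ω ω' fun e he => hω e (Finset.mem_biUnion.2 ⟨q, hq, he⟩)])
  refine hf.trans (le_of_eq (integral_congr_ae ?_))
  filter_upwards [hP.ice] with ω hω
  have hh := pth_isHeight hω
  have e1 : f ω = F (fun q => pth ω q - pth ω b + v) := by
    refine h2 _ _ (fun q hq => ?_)
    show (L m).H ω q + v = _
    rw [(L m).hH ω _ hh q (h1 q hq)]
  have e2 : f (R m ω) = F (pb (D.θ m) (fun q => pth ω q - pth ω b + v)) := by
    refine h2 _ _ (fun q hq => ?_)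
    show (L m).H (R m ω) q + v = pth ω (D.θ m q) - pth ω b + v
    rw [(L m).hH _ _ ((L m).hR ω _ hh) q (h1 q hq), (L m).hb]
  show f ω * f (R m ω) = _
  rw [e1, e2]

theorem sgb_not (x : Bool) : sgb (!x) = - sgb x := by cases x <;> rfl

theorem isHeight_iff {ω : Ori (ℤ × ℤ)} {h : Hgt} : IsHeight ω h ↔ ∀ x y : ℤ,
    h (x, y) - h (x, y - 1) = sgb (ω (Sum.inl (x, y))) ∧
    h (x - 1, y) - h (x, y) = sgb (ω (Sum.inr (x, y))) := Iff.rfl

noncomputable def liftX (m : ℤ) : Lift dX RX m where
  b := (m, 0)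
  hb := by simp [dX]; ring
  H := fun ω q => anti (fun j => sgb (ω (Sum.inl (m, j)))) q.2 -
    ∑ i ∈ Finset.Ioc m q.1, sgb (ω (Sum.inr (i, q.2)))
  loc := by
    classical
    intro q hq
    refine ⟨(Finset.Icc (-|q.2|) |q.2|).image (fun j => Sum.inl (m, j)) ∪
      (Finset.Ioc m q.1).image (fun i => Sum.inr (i, q.2)), ?_, ?_⟩
    · intro e he
      rcases Finset.mem_union.1 he with he | he
      · obtain ⟨j, hj, rfl⟩ := Finset.mem_image.1 he
        exact ⟨le_rfl, le_rfl⟩
      · obtain ⟨i, hi, rfl⟩ := Finset.mem_image.1 he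
        rw [Finset.mem_Ioc] at hi
        refine ⟨?_, ?_⟩
        · show m ≤ i; omega
        · show m ≤ i - 1; omega
    · intro ω ω' h
      congr 1
      · refine anti_congr (fun i hi => ?_)
        rw [h _ (Finset.mem_union_left _ (Finset.mem_image_of_mem _
          (Finset.mem_Icc.2 (abs_le.1 hi))))]
      · refine Finset.sum_congr rfl (fun i hi => ?_)
        rw [h _ (Finset.mem_union_right _ (Finset.mem_image_of_mem _ hi))]
  hH := by
    intro ω h hh q hq
    obtain ⟨x, y⟩ := q
    have e1 : h (m, y) - h (m, 0) = anti (fun j => sgb (ω (Sum.inl (m, j)))) y :=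
      anti_unique (F := fun y => h (m, y)) (fun n => (hh m n).1) y
    have e2 : ∑ i ∈ Finset.Ioc m x, sgb (ω (Sum.inr (i, y))) = - h (x, y) - - h (m, y) :=
      sum_Ioc_tel (G := fun x => - h (x, y)) (fun i => by
        have := (isHeight_iff.1 hh i y).2
        linarith) hq
    show anti _ y - ∑ i ∈ Finset.Ioc m x, sgb (ω (Sum.inr (i, y))) = h (x, y) - h (m, 0)
    rw [← e1, e2]; ring
  hR := by
    intro ω h hh
    rw [isHeight_iff] at hh ⊢
    intro x y
    refine ⟨?_, ?_⟩
    · exact (hh (2 * m - x) y).1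
    · show h (2 * m - (x - 1), y) - h (2 * m - x, y) = sgb (!(ω (Sum.inr (2 * m - x + 1, y))))
      rw [sgb_not, ← (hh (2 * m - x + 1) y).2,
        show 2 * m - (x - 1) = 2 * m - x + 1 by ring, add_sub_cancel_right]
      ring

noncomputable def liftY (m : ℤ) : Lift dY RY m where
  b := (0, m)
  hb := by simp [dY]; ring
  H := fun ω q => - anti (fun i => sgb (ω (Sum.inr (i, m)))) q.1 +
    ∑ j ∈ Finset.Ioc m q.2, sgb (ω (Sum.inl (q.1, j)))
  loc := by
    classical
    intro q hq
    refine ⟨(Finset.Icc (-|q.1|) |q.1|).image (fun j => Sum.inr (j, m)) ∪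
      (Finset.Ioc m q.2).image (fun i => Sum.inl (q.1, i)), ?_, ?_⟩
    · intro e he
      rcases Finset.mem_union.1 he with he | he
      · obtain ⟨j, hj, rfl⟩ := Finset.mem_image.1 he
        exact ⟨le_rfl, le_rfl⟩
      · obtain ⟨i, hi, rfl⟩ := Finset.mem_image.1 he
        rw [Finset.mem_Ioc] at hi
        refine ⟨?_, ?_⟩
        · show m ≤ i; omega
        · show m ≤ i - 1; omega
    · intro ω ω' h
      congr 1
      · congr 1
        refine anti_congr (fun i hi => ?_)
        rw [h _ (Finset.mem_union_left _ (Finset.mem_image_of_mem _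
          (Finset.mem_Icc.2 (abs_le.1 hi))))]
      · refine Finset.sum_congr rfl (fun i hi => ?_)
        rw [h _ (Finset.mem_union_right _ (Finset.mem_image_of_mem _ hi))]
  hH := by
    intro ω h hh q hq
    obtain ⟨x, y⟩ := q
    have e1 : - h (x, m) - - h (0, m) = anti (fun j => sgb (ω (Sum.inr (j, m)))) x :=
      anti_unique (F := fun x => - h (x, m)) (fun n => by
        have := (isHeight_iff.1 hh n m).2
        linarith) x
    have e2 : ∑ i ∈ Finset.Ioc m y, sgb (ω (Sum.inl (x, i))) = h (x, y) - h (x, m) :=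
      sum_Ioc_tel (G := fun y => h (x, y)) (fun i => (isHeight_iff.1 hh x i).1) hq
    show - anti _ x + ∑ i ∈ Finset.Ioc m y, sgb (ω (Sum.inl (x, i))) = h (x, y) - h (0, m)
    rw [← e1, e2]; ring
  hR := by
    intro ω h hh
    rw [isHeight_iff] at hh ⊢
    intro x y
    refine ⟨?_, ?_⟩
    · show h (x, 2 * m - y) - h (x, 2 * m - (y - 1)) = sgb (!(ω (Sum.inl (x, 2 * m - y + 1))))
      rw [sgb_not, ← (hh x (2 * m - y + 1)).1,
        show 2 * m - (y - 1) = 2 * m - y + 1 by ring, add_sub_cancel_right]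
      ring
    · exact (hh x (2 * m - y)).2

noncomputable def liftD (m : ℤ) : Lift dD RD m where
  b := (m, 0)
  hb := by simp [dD]
  H := fun ω q => anti (fun j => sgb (ω (Sum.inl (m + j, j))) -
      sgb (ω (Sum.inr (m + j, j - 1)))) q.2 -
    ∑ i ∈ Finset.Ioc (m + q.2) q.1, sgb (ω (Sum.inr (i, q.2)))
  loc := by
    classical
    intro q hq
    refine ⟨(Finset.Icc (-|q.2|) |q.2|).image (fun j => Sum.inl (m + j, j)) ∪
      (Finset.Icc (-|q.2|) |q.2|).image (fun j => Sum.inr (m + j, j - 1)) ∪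
      (Finset.Ioc (m + q.2) q.1).image (fun i => Sum.inr (i, q.2)), ?_, ?_⟩
    · intro e he
      rcases Finset.mem_union.1 he with he | he
      · rcases Finset.mem_union.1 he with he | he
        · obtain ⟨j, hj, rfl⟩ := Finset.mem_image.1 he
          refine ⟨?_, ?_⟩
          · show m ≤ m + j - j; omega
          · show m ≤ m + j - (j - 1); omega
        · obtain ⟨j, hj, rfl⟩ := Finset.mem_image.1 he
          refine ⟨?_, ?_⟩
          · show m ≤ m + j - (j - 1); omega
          · show m ≤ m + j - 1 - (j - 1); omega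
      · obtain ⟨i, hi, rfl⟩ := Finset.mem_image.1 he
        rw [Finset.mem_Ioc] at hi
        refine ⟨?_, ?_⟩
        · show m ≤ i - q.2; omega
        · show m ≤ i - 1 - q.2; omega
    · intro ω ω' h
      congr 1
      · refine anti_congr (fun i hi => ?_)
        rw [h (Sum.inl (m + i, i)) (Finset.mem_union_left _ (Finset.mem_union_left _
            (Finset.mem_image_of_mem (fun j => (Sum.inl (m + j, j) : Edge (ℤ × ℤ)))
              (Finset.mem_Icc.2 (abs_le.1 hi))))),
          h (Sum.inr (m + i, i - 1)) (Finset.mem_union_left _ (Finset.mem_union_right _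
            (Finset.mem_image_of_mem (fun j => (Sum.inr (m + j, j - 1) : Edge (ℤ × ℤ)))
              (Finset.mem_Icc.2 (abs_le.1 hi)))))]
      · refine Finset.sum_congr rfl (fun i hi => ?_)
        rw [h _ (Finset.mem_union_right _ (Finset.mem_image_of_mem _ hi))]
  hH := by
    intro ω h hh q hq
    obtain ⟨x, y⟩ := q
    have hq' : m ≤ x - y := hq
    have e1 : h (m + y, y) - h (m + 0, 0) = anti (fun j => sgb (ω (Sum.inl (m + j, j))) -
        sgb (ω (Sum.inr (m + j, j - 1)))) y :=
      anti_unique (F := fun y => h (m + y, y)) (fun n => by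
        have h1 := (isHeight_iff.1 hh (m + n) n).1
        have h2 := (isHeight_iff.1 hh (m + n) (n - 1)).2
        show h (m + n, n) - h (m + (n - 1), n - 1) = _
        rw [show m + (n - 1) = m + n - 1 by ring]
        linarith) y
    rw [add_zero] at e1
    have e2 : ∑ i ∈ Finset.Ioc (m + y) x, sgb (ω (Sum.inr (i, y))) = - h (x, y) - - h (m + y, y) :=
      sum_Ioc_tel (G := fun x => - h (x, y)) (fun i => by
        have := (isHeight_iff.1 hh i y).2
        linarith) (by omega)
    show anti _ y - ∑ i ∈ Finset.Ioc (m + y) x, sgb (ω (Sum.inr (i, y))) = h (x, y) - h (m, 0)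
    rw [← e1, e2]; ring
  hR := by
    intro ω h hh
    rw [isHeight_iff] at hh ⊢
    intro x y
    refine ⟨?_, ?_⟩
    · show h (y + m, x - m) - h (y - 1 + m, x - m) = sgb (!(ω (Sum.inr (y + m, x - m))))
      rw [sgb_not, ← (hh (y + m) (x - m)).2, show y - 1 + m = y + m - 1 by ring]
      ring
    · show h (y + m, x - 1 - m) - h (y + m, x - m) = sgb (!(ω (Sum.inl (y + m, x - m))))
      rw [sgb_not, ← (hh (y + m) (x - m)).1, show x - 1 - m = x - m - 1 by ring]
      ring

noncomputable def liftA (m : ℤ) : Lift dA RA m where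
  b := (m, 0)
  hb := by simp [dA]
  H := fun ω q => anti (fun j => sgb (ω (Sum.inl (m - j + 1, j))) +
      sgb (ω (Sum.inr (m - j + 1, j)))) q.2 -
    ∑ i ∈ Finset.Ioc (m - q.2) q.1, sgb (ω (Sum.inr (i, q.2)))
  loc := by
    classical
    intro q hq
    refine ⟨(Finset.Icc (-|q.2|) |q.2|).image (fun j => Sum.inl (m - j + 1, j)) ∪
      (Finset.Icc (-|q.2|) |q.2|).image (fun j => Sum.inr (m - j + 1, j)) ∪
      (Finset.Ioc (m - q.2) q.1).image (fun i => Sum.inr (i, q.2)), ?_, ?_⟩
    · intro e he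
      rcases Finset.mem_union.1 he with he | he
      · rcases Finset.mem_union.1 he with he | he
        · obtain ⟨j, hj, rfl⟩ := Finset.mem_image.1 he
          refine ⟨?_, ?_⟩
          · show m ≤ m - j + 1 + j; omega
          · show m ≤ m - j + 1 + (j - 1); omega
        · obtain ⟨j, hj, rfl⟩ := Finset.mem_image.1 he
          refine ⟨?_, ?_⟩
          · show m ≤ m - j + 1 + j; omega
          · show m ≤ m - j + 1 - 1 + j; omega
      · obtain ⟨i, hi, rfl⟩ := Finset.mem_image.1 he
        rw [Finset.mem_Ioc] at hi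
        refine ⟨?_, ?_⟩
        · show m ≤ i + q.2; omega
        · show m ≤ i - 1 + q.2; omega
    · intro ω ω' h
      congr 1
      · refine anti_congr (fun i hi => ?_)
        rw [h (Sum.inl (m - i + 1, i)) (Finset.mem_union_left _ (Finset.mem_union_left _
            (Finset.mem_image_of_mem (fun j => (Sum.inl (m - j + 1, j) : Edge (ℤ × ℤ)))
              (Finset.mem_Icc.2 (abs_le.1 hi))))),
          h (Sum.inr (m - i + 1, i)) (Finset.mem_union_left _ (Finset.mem_union_right _
            (Finset.mem_image_of_mem (fun j => (Sum.inr (m - j + 1, j) : Edge (ℤ × ℤ)))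
              (Finset.mem_Icc.2 (abs_le.1 hi)))))]
      · refine Finset.sum_congr rfl (fun i hi => ?_)
        rw [h _ (Finset.mem_union_right _ (Finset.mem_image_of_mem _ hi))]
  hH := by
    intro ω h hh q hq
    obtain ⟨x, y⟩ := q
    have hq' : m ≤ x + y := hq
    have e1 : h (m - y, y) - h (m - 0, 0) = anti (fun j => sgb (ω (Sum.inl (m - j + 1, j))) +
        sgb (ω (Sum.inr (m - j + 1, j)))) y :=
      anti_unique (F := fun y => h (m - y, y)) (fun n => by
        have h1 := (isHeight_iff.1 hh (m - n + 1) n).1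
        have h2 := (isHeight_iff.1 hh (m - n + 1) n).2
        rw [add_sub_cancel_right] at h2
        show h (m - n, n) - h (m - (n - 1), n - 1) = _
        rw [show m - (n - 1) = m - n + 1 by ring]
        linarith) y
    rw [sub_zero] at e1
    have e2 : ∑ i ∈ Finset.Ioc (m - y) x, sgb (ω (Sum.inr (i, y))) = - h (x, y) - - h (m - y, y) :=
      sum_Ioc_tel (G := fun x => - h (x, y)) (fun i => by
        have := (isHeight_iff.1 hh i y).2
        linarith) (by omega)
    show anti _ y - ∑ i ∈ Finset.Ioc (m - y) x, sgb (ω (Sum.inr (i, y))) = h (x, y) - h (m, 0)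
    rw [← e1, e2]; ring
  hR := by
    intro ω h hh
    rw [isHeight_iff] at hh ⊢
    intro x y
    refine ⟨?_, ?_⟩
    · show h (m - y, m - x) - h (m - (y - 1), m - x) = sgb (ω (Sum.inr (m - y + 1, m - x)))
      rw [← (hh (m - y + 1) (m - x)).2, show m - (y - 1) = m - y + 1 by ring,
        add_sub_cancel_right]
    · show h (m - y, m - (x - 1)) - h (m - y, m - x) = sgb (ω (Sum.inl (m - y, m - x + 1)))
      rw [← (hh (m - y) (m - x + 1)).1, show m - (x - 1) = m - x + 1 by ring,
        add_sub_cancel_right]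

/-- R4, from M1. -/
theorem s_rp_of (hbase : S_base) : S_rp := fun _ _ hP =>
  ⟨rp_of_grp hbase hP dX RX liftX, rp_of_grp hbase hP dY RY liftY,
    rp_of_grp hbase hP dD RD liftD, rp_of_grp hbase hP dA RA liftA⟩

end Vale.Agent.P145.FA
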