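import Vale.Agent.P145.FA.RpSum
import Vale.Agent.P152.GFF.B3.SymP

/-!
# P145, block F-A: reflection positivity of the six-vertex boxes with free arrows
-/

namespace Vale.Agent.P145.FA

open Finset Vale.Agent.P152 Vale.Agent.P152.GFF.B3

/-! ### Mirror = middle face column -/

/-- The right half of a box (with the arrows on the middle face column). -/
def RH (m r : ℕ) : BE m r → Prop
  | Sum.inl v => m ≤ 2 * v.1.val
  | Sum.inr v => m ≤ 2 * v.1.val

instance (m r : ℕ) : DecidablePred (RH m r) := fun e => by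
  rcases e with v | v
  · exact inferInstanceAs (Decidable (m ≤ 2 * v.1.val))
  · exact inferInstanceAs (Decidable (m ≤ 2 * v.1.val))

theorem box_col {w : Pairing → ℝ} (hw : w Pairing.t1 = w Pairing.t2) {m : ℕ} (hm : Even m) (r : ℕ)
    (F : (BE m r → ZMod 2) → ℝ) (hF : ∀ k k', (∀ e, RH m r e → k e = k' e) → F k = F k') :
    0 ≤ (boxNet m r).ar w (fun k => F k * F (syK m r k)) := by
  obtain ⟨n, hn⟩ := hm
  unfold Net.ar
  set W : (BE m r → ZMod 2) → ℝ := fun k => ∏ v ∈ univ.filter (fun v : Fin m × Fin r =>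
    m ≤ 2 * v.1.val), w6 w (k ((boxNet m r).l v)) (k ((boxNet m r).r v))
      (k ((boxNet m r).b v)) (k ((boxNet m r).a v)) with hW
  have hW6 : ∀ k, (boxNet m r).W6 w k = W k * W (syK m r k) := by
    intro k
    unfold Net.W6
    rw [← Finset.prod_filter_mul_prod_filter_not univ (fun v : Fin m × Fin r => m ≤ 2 * v.1.val)]
    congr 1
    rw [hW]
    simp only [sy_w6_box hw]
    refine Finset.prod_bij' (fun v _ => syV m r v) (fun v _ => syV m r v) ?_ ?_ ?_ ?_ ?_
    · intro v hv
      simp only [mem_filter, mem_univ, true_and, not_le] at hv ⊢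
      show m ≤ 2 * (v.1.rev).val
      rw [Fin.val_rev]
      omega
    · intro v hv
      simp only [mem_filter, mem_univ, true_and] at hv ⊢
      show ¬ m ≤ 2 * (v.1.rev).val
      rw [Fin.val_rev]
      have := v.1.2
      omega
    · intro v _
      simp [syV]
    · intro v _
      simp [syV]
    · intro v _
      have : syV m r (syV m r v) = v := by simp [syV]
      rw [this]
  have hWloc : ∀ k k', (∀ e, RH m r e → k e = k' e) → W k = W k' := by
    intro k k' h
    refine Finset.prod_congr rfl (fun v hv => ?_)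
    simp only [mem_filter, mem_univ, true_and] at hv
    rw [h ((boxNet m r).l v) (by show m ≤ 2 * v.1.castSucc.val; simpa using hv),
      h ((boxNet m r).r v) (by show m ≤ 2 * v.1.succ.val; simp; omega),
      h ((boxNet m r).b v) (by show m ≤ 2 * v.1.val; exact hv),
      h ((boxNet m r).a v) (by show m ≤ 2 * v.1.val; exact hv)]
  have h1 : ∀ k : BE m r → ZMod 2, F k * F (syK m r k) * (boxNet m r).W6 w k =
      (F k * W k) * (F (fun e => k (syR m r e) + syD m r e) *
        W (fun e => k (syR m r e) + syD m r e)) := by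
    intro k
    rw [hW6, syK_apply]
    ring
  simp_rw [h1]
  refine rp_sum (syR m r) (syR_syR m r) (syD m r) (syD_syR m r) (RH m r)
    ?_ ?_ (fun k => F k * W k) ?_
  · rintro (⟨i, j⟩ | ⟨i, j⟩)
    · show m ≤ 2 * i.val ∨ m ≤ 2 * i.rev.val
      rw [Fin.val_rev]
      omega
    · show m ≤ 2 * i.val ∨ m ≤ 2 * i.rev.val
      rw [Fin.val_rev]
      omega
  · rintro (⟨i, j⟩ | ⟨i, j⟩) h1 h2
    · have h1' : m ≤ 2 * i.val := h1
      have h2' : m ≤ 2 * i.rev.val := h2
      rw [Fin.val_rev] at h2'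
      have h3 : i.rev = i := Fin.ext (by rw [Fin.val_rev]; omega)
      refine ⟨?_, rfl⟩
      show Sum.inl (i.rev, j) = Sum.inl (i, j)
      rw [h3]
    · have h1' : m ≤ 2 * i.val := h1
      have h2' : m ≤ 2 * i.rev.val := h2
      rw [Fin.val_rev] at h2'
      have := i.2
      omega
  · intro k k' h
    show F k * W k = F k' * W k'
    rw [hF k k' h, hWloc k k' h]

/-! ### Mirror = diagonal -/

/-- Diagonal reflection of the arrows of a square box (`(x,y) ↦ (y,x)` for the heights). -/
def dgK (m : ℕ) (k : BE m m → ZMod 2) : BE m m → ZMod 2 := fun e => k (sw m m e) + 1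

/-- The lower right half. -/
def DH (m : ℕ) : BE m m → Prop
  | Sum.inl v => v.2.val < v.1.val
  | Sum.inr v => v.2.val ≤ v.1.val

instance (m : ℕ) : DecidablePred (DH m) := fun e => by
  rcases e with v | v
  · exact inferInstanceAs (Decidable (v.2.val < v.1.val))
  · exact inferInstanceAs (Decidable (v.2.val ≤ v.1.val))

lemma sw_sw' (m : ℕ) (e : BE m m) : sw m m (sw m m e) = e := by
  rcases e with e | e <;> rfl

lemma w6_transp {w : Pairing → ℝ} (hw : w Pairing.t1 = w Pairing.t2) (l r b a : ZMod 2) :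
    w6 w (b + 1) (a + 1) (l + 1) (r + 1) = w6 w l r b a := by
  have hz : ∀ x : ZMod 2, x = 0 ∨ x = 1 := by decide
  have h11 : (1 : ZMod 2) + 1 = 0 := by decide
  have h01 : ¬ ((0 : ZMod 2) = 1) := by decide
  have h10 : ¬ ((1 : ZMod 2) = 0) := by decide
  rcases hz l with rfl | rfl <;> rcases hz r with rfl | rfl <;> rcases hz b with rfl | rfl <;>
    rcases hz a with rfl | rfl <;> simp [w6_val, hw, h11, h01, h10]

/-- The coupling of the two sides at a vertex on the diagonal. -/
noncomputable def dgG (c : ℝ) : Fin 5 → (ZMod 2 × ZMod 2) → ℝ :=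
  ![fun u => if u.1 = u.2 then 1 else 0,
    fun u => if u = (0, 0) then √(c - 1) else 0,
    fun u => if u = (1, 1) then √(c - 1) else 0,
    fun u => if u = (0, 1) then 1 else 0,
    fun u => if u = (1, 0) then 1 else 0]

lemma dgG_eq {c : ℝ} (hc : 1 ≤ c) (x y : ZMod 2 × ZMod 2) :
    w6 (wc c) (y.2 + 1) x.1 x.2 (y.1 + 1) = ∑ α, dgG c α x * dgG c α y := by
  have hz : ∀ x : ZMod 2, x = 0 ∨ x = 1 := by decide
  have h11 : (1 : ZMod 2) + 1 = 0 := by decide
  have h01 : ¬ ((0 : ZMod 2) = 1) := by decide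
  have h10 : ¬ ((1 : ZMod 2) = 0) := by decide
  have hs : √(c - 1) * √(c - 1) = c - 1 := Real.mul_self_sqrt (by linarith)
  obtain ⟨x1, x2⟩ := x
  obtain ⟨y1, y2⟩ := y
  rcases hz x1 with rfl | rfl <;> rcases hz x2 with rfl | rfl <;> rcases hz y1 with rfl | rfl <;>
    rcases hz y2 with rfl | rfl <;>
    simp [Fin.sum_univ_five, dgG, w6_val, wc, h11, h01, h10, hs]

theorem box_diag {c : ℝ} (hc : 1 ≤ c) (m : ℕ)
    (F : (BE m m → ZMod 2) → ℝ) (hF : ∀ k k', (∀ e, DH m e → k e = k' e) → F k = F k') :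
    0 ≤ (boxNet m m).ar (wc c) (fun k => F k * F (dgK m k)) := by
  have hw : wc c Pairing.t1 = wc c Pairing.t2 := rfl
  have hzz : ∀ x : ZMod 2, x + 1 + 1 = x := by decide
  unfold Net.ar
  set g : (BE m m → ZMod 2) → Fin m × Fin m → ℝ := fun k v =>
    w6 (wc c) (k ((boxNet m m).l v)) (k ((boxNet m m).r v)) (k ((boxNet m m).b v))
      (k ((boxNet m m).a v)) with hg
  set W : (BE m m → ZMod 2) → ℝ := fun k => ∏ v ∈ univ.filter (fun v : Fin m × Fin m =>
    v.2 < v.1), g k v with hW
  have hgT : ∀ (k : BE m m → ZMod 2) (v : Fin m × Fin m), g (dgK m k) v = g k (v.2, v.1) := by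
    intro k v
    show w6 (wc c) (k ((boxNet m m).b (v.2, v.1)) + 1) (k ((boxNet m m).a (v.2, v.1)) + 1)
      (k ((boxNet m m).l (v.2, v.1)) + 1) (k ((boxNet m m).r (v.2, v.1)) + 1) = _
    exact w6_transp hw _ _ _ _
  have hWT : ∀ k : BE m m → ZMod 2, W (dgK m k) =
      ∏ v ∈ univ.filter (fun v : Fin m × Fin m => v.1 < v.2), g k v := by
    intro k
    rw [hW]
    simp only [hgT]
    refine Finset.prod_bij' (fun v _ => (v.2, v.1)) (fun v _ => (v.2, v.1)) ?_ ?_ ?_ ?_ ?_
    · intro v hv
      simpa using hv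
    · intro v hv
      simpa using hv
    · intro v _; rfl
    · intro v _; rfl
    · intro v _; rfl
  set u : Fin m → (BE m m → ZMod 2) → ZMod 2 × ZMod 2 := fun i k =>
    (k ((boxNet m m).r (i, i)), k ((boxNet m m).b (i, i))) with hu
  set K : ZMod 2 × ZMod 2 → ZMod 2 × ZMod 2 → ℝ := fun x y =>
    w6 (wc c) (y.2 + 1) x.1 x.2 (y.1 + 1) with hK
  have hD : ∀ k : BE m m → ZMod 2, ∏ v ∈ univ.filter (fun v : Fin m × Fin m => v.1 = v.2), g k v =
      ∏ i, K (u i k) (u i (dgK m k)) := by
    intro k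
    symm
    refine Finset.prod_bij' (fun i _ => (i, i)) (fun v _ => v.1) ?_ ?_ ?_ ?_ ?_
    · intro i _
      simp
    · intro v _
      exact mem_univ _
    · intro i _; rfl
    · intro v hv
      simp only [mem_filter, mem_univ, true_and] at hv
      exact Prod.ext rfl hv
    · intro i _
      show w6 (wc c) (k ((boxNet m m).l (i, i)) + 1 + 1) (k ((boxNet m m).r (i, i)))
        (k ((boxNet m m).b (i, i))) (k ((boxNet m m).a (i, i)) + 1 + 1) = _
      rw [hzz, hzz]
  have hW6 : ∀ k, (boxNet m m).W6 (wc c) k = W k * W (dgK m k) * ∏ i, K (u i k) (u i (dgK m k)) := by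
    intro k
    unfold Net.W6
    rw [← hD, hWT]
    rw [← Finset.prod_filter_mul_prod_filter_not univ (fun v : Fin m × Fin m => v.2 < v.1)]
    rw [← Finset.prod_filter_mul_prod_filter_not (univ.filter (fun v : Fin m × Fin m =>
      ¬ v.2 < v.1)) (fun v : Fin m × Fin m => v.1 < v.2), Finset.filter_filter,
      Finset.filter_filter, mul_assoc]
    have e1 : (univ.filter fun v : Fin m × Fin m => ¬ v.2 < v.1 ∧ v.1 < v.2) =
        univ.filter fun v : Fin m × Fin m => v.1 < v.2 := by
      refine Finset.filter_congr (fun v _ => ?_)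
      constructor
      · exact fun h => h.2
      · exact fun h => ⟨not_lt.2 h.le, h⟩
    have e2 : (univ.filter fun v : Fin m × Fin m => ¬ v.2 < v.1 ∧ ¬ v.1 < v.2) =
        univ.filter fun v : Fin m × Fin m => v.1 = v.2 := by
      refine Finset.filter_congr (fun v _ => ?_)
      constructor
      · exact fun h => le_antisymm (not_lt.1 h.1) (not_lt.1 h.2)
      · exact fun h => ⟨h ▸ lt_irrefl _, h ▸ lt_irrefl _⟩
    rw [e1, e2]
  have hWloc : ∀ k k', (∀ e, DH m e → k e = k' e) → W k = W k' := by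
    intro k k' h
    refine Finset.prod_congr rfl (fun v hv => ?_)
    simp only [mem_filter, mem_univ, true_and] at hv
    have hv' : v.2.val < v.1.val := hv
    show w6 (wc c) (k ((boxNet m m).l v)) (k ((boxNet m m).r v)) (k ((boxNet m m).b v))
      (k ((boxNet m m).a v)) = w6 (wc c) (k' ((boxNet m m).l v)) (k' ((boxNet m m).r v))
      (k' ((boxNet m m).b v)) (k' ((boxNet m m).a v))
    rw [h ((boxNet m m).l v) (by show v.2.val < v.1.castSucc.val; simpa using hv'),
      h ((boxNet m m).r v) (by show v.2.val < v.1.succ.val; simp; omega),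
      h ((boxNet m m).b v) (by show v.2.castSucc.val ≤ v.1.val; simp; omega),
      h ((boxNet m m).a v) (by show v.2.succ.val ≤ v.1.val; simp; omega)]
  have h1 : ∀ k : BE m m → ZMod 2, F k * F (dgK m k) * (boxNet m m).W6 (wc c) k =
      (F k * W k) * (F (fun e => k (sw m m e) + 1) * W (fun e => k (sw m m e) + 1)) *
        ∏ i, K (u i k) (u i (fun e => k (sw m m e) + 1)) := by
    intro k
    rw [hW6]
    show F k * F (dgK m k) * (W k * W (dgK m k) * ∏ i, K (u i k) (u i (dgK m k))) =
      (F k * W k) * (F (dgK m k) * W (dgK m k)) * ∏ i, K (u i k) (u i (dgK m k))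
    ring
  simp_rw [h1]
  refine rp_sum_kernel (sw m m) (sw_sw' m) (fun _ => 1) (fun _ => rfl) (DH m) ?_ ?_
    (fun k => F k * W k) ?_ u ?_ K (dgG c) (fun x y => dgG_eq hc x y)
  · rintro (⟨i, j⟩ | ⟨i, j⟩)
    · show j.val < i.val ∨ i.val ≤ j.val
      omega
    · show j.val ≤ i.val ∨ i.val < j.val
      omega
  · rintro (⟨i, j⟩ | ⟨i, j⟩) h1 h2
    · have h1' : j.val < i.val := h1
      have h2' : i.val ≤ j.val := h2
      omega
    · have h1' : j.val ≤ i.val := h1
      have h2' : i.val < j.val := h2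
      omega
  · intro k k' h
    show F k * W k = F k' * W k'
    rw [hF k k' h, hWloc k k' h]
  · intro i k k' h
    show (k ((boxNet m m).r (i, i)), k ((boxNet m m).b (i, i))) =
      (k' ((boxNet m m).r (i, i)), k' ((boxNet m m).b (i, i)))
    rw [h ((boxNet m m).r (i, i)) (by show i.val < i.succ.val; simp),
      h ((boxNet m m).b (i, i)) (by show i.castSucc.val ≤ i.val; simp)]

end Vale.Agent.P145.FA
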