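import Vale.Agent.P145.FA.RpBox
import Vale.Agent.P145.FA.Defs
import Vale.Agent.P152.GFF.B3.Main

/-!
# P145, block F-A: reflection positivity of the arrows in the plane, `c ^ 2 ≤ 2`
-/

namespace Vale.Agent.P145.FA

open Finset Filter Topology MeasureTheory
open Vale.Agent.P152 Vale.Agent.P152.GFF.B3

/-! ### From boxes to the infinite-volume state -/

lemma W6_nonneg {c : ℝ} (hc : 0 < c) (hc2 : c ^ 2 ≤ 2) {V E : Type} [Fintype V] (N : Net V E)
    (k : E → ZMod 2) : 0 ≤ N.W6 (wc c) k := by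
  have h0 : c < 2 := by nlinarith
  refine Finset.prod_nonneg (fun v _ => ?_)
  rw [w6_val]
  have h1 : 0 ≤ wc c Pairing.str := by
    show 0 ≤ 1 - c / 2
    linarith
  have h2 : 0 ≤ wc c Pairing.t1 := by
    show 0 ≤ c / 2
    linarith
  have h3 : 0 ≤ wc c Pairing.t2 := by
    show 0 ≤ c / 2
    linarith
  split_ifs <;> positivity

lemma mu_nonneg {c : ℝ} (hc : 0 < c) (hc2 : c ^ 2 ≤ 2) (m r : ℕ) (hm : 1 ≤ m) (hr : 1 ≤ r)
    (φ : (BE m r → ZMod 2) → ℝ)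
    (h : ∀ q : ℕ, 0 ≤ (boxNet (q + m + q) (q + r + q)).ar (wc c)
      (fun k => φ (fun e => k (bxg q q (by omega) (by omega) e)))) : 0 ≤ mu (wc c) m r φ := by
  by_contra hneg
  push Not at hneg
  set ε := - mu (wc c) m r φ / 2 with hε
  have hε0 : 0 < ε := by rw [hε]; linarith
  obtain ⟨q0, hq0⟩ := m_muI (wc c) (wc_good hc hc2) m r hm hr
    (fun x => φ x * (boxNet m r).W6 (wc c) x) ε hε0
  have h1 := hq0 (q0 + m + q0) (q0 + r + q0) q0 q0 (by omega) (by omega) le_rfl le_rfl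
    (by omega) (by omega)
  rw [← m_loc _ _ _ _ _ _ _ _ _ (m_emb.2.2.1 m r (q0 + m + q0) (q0 + r + q0) q0 q0 (by omega)
    (by omega)) φ] at h1
  have h2 : 0 ≤ (boxNet (q0 + m + q0) (q0 + r + q0)).ar (wc c) (fun _ => 1) := by
    unfold Net.ar
    exact Finset.sum_nonneg (fun k _ => by rw [one_mul]; exact W6_nonneg hc hc2 _ _)
  have h3 := div_nonneg (h q0) h2
  have h4 := (abs_le.1 h1).2
  have h5 : muI (wc c) m r (fun x => φ x * (boxNet m r).W6 (wc c) x) = mu (wc c) m r φ := rfl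
  rw [h5] at h4
  linarith

/-! ### Windows -/

/-- The orientation with prescribed arrows in a window. -/
noncomputable def ofW (m r : ℕ) (x0 y0 : ℤ) (x : BE m r → ZMod 2) : Ori (ℤ × ℤ) := by
  classical
  exact fun e => if h : ∃ e', lc m r x0 y0 e' = e then bz.symm (x h.choose) else true

lemma window_rep (m r : ℕ) (x0 y0 : ℤ) (H : BE m r → Prop) (f : Ori (ℤ × ℤ) → ℝ)
    (Λ : Finset (Edge (ℤ × ℤ))) (hf : ∀ ω ω', (∀ e ∈ Λ, ω e = ω' e) → f ω = f ω')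
    (hΛ : ∀ e ∈ Λ, (∃ e', lc m r x0 y0 e' = e) ∧ ∀ e', lc m r x0 y0 e' = e → H e') :
    (∀ ω, f ω = f (ofW m r x0 y0 (rd m r x0 y0 ω))) ∧
    ∀ x x' : BE m r → ZMod 2, (∀ e, H e → x e = x' e) →
      f (ofW m r x0 y0 x) = f (ofW m r x0 y0 x') := by
  constructor
  · intro ω
    refine hf _ _ (fun e he => ?_)
    obtain ⟨h1, -⟩ := hΛ e he
    unfold ofW
    rw [dif_pos h1, rd_eq]
    show ω e = bz.symm (bz (ω (lc m r x0 y0 h1.choose)))
    rw [h1.choose_spec, Equiv.symm_apply_apply]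
  · intro x x' hx
    refine hf _ _ (fun e he => ?_)
    obtain ⟨h1, h2⟩ := hΛ e he
    unfold ofW
    rw [dif_pos h1, dif_pos h1, hx _ (h2 _ h1.choose_spec)]

lemma edges_bdd (Λ : Finset (Edge (ℤ × ℤ))) : ∃ N : ℕ, ∀ e ∈ Λ,
    Sum.elim (fun v : ℤ × ℤ => |v.1| ≤ N ∧ |v.2| ≤ N) (fun v : ℤ × ℤ => |v.1| ≤ N ∧ |v.2| ≤ N) e := by
  classical
  induction Λ using Finset.induction_on with
  | empty => exact ⟨0, by simp⟩
  | insert a s _ ih =>
    obtain ⟨N, hN⟩ := ih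
    have h1 : ∃ K : ℕ, Sum.elim (fun v : ℤ × ℤ => |v.1| ≤ K ∧ |v.2| ≤ K)
        (fun v : ℤ × ℤ => |v.1| ≤ K ∧ |v.2| ≤ K) a := by
      rcases a with v | v
      · refine ⟨v.1.natAbs + v.2.natAbs, ?_⟩
        show |v.1| ≤ _ ∧ |v.2| ≤ _
        have h1 := Int.natCast_natAbs v.1
        have h2 := Int.natCast_natAbs v.2
        have h3 := abs_nonneg v.1
        have h4 := abs_nonneg v.2
        constructor <;> push_cast <;> linarith
      · refine ⟨v.1.natAbs + v.2.natAbs, ?_⟩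
        show |v.1| ≤ _ ∧ |v.2| ≤ _
        have h1 := Int.natCast_natAbs v.1
        have h2 := Int.natCast_natAbs v.2
        have h3 := abs_nonneg v.1
        have h4 := abs_nonneg v.2
        constructor <;> push_cast <;> linarith
    obtain ⟨K, hK⟩ := h1
    refine ⟨N + K, fun e he => ?_⟩
    rcases Finset.mem_insert.1 he with rfl | he
    · rcases e with v | v
      · obtain ⟨h2, h3⟩ : |v.1| ≤ (K : ℤ) ∧ |v.2| ≤ (K : ℤ) := hK
        show |v.1| ≤ ((N + K : ℕ) : ℤ) ∧ |v.2| ≤ ((N + K : ℕ) : ℤ)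
        push_cast
        constructor <;> omega
      · obtain ⟨h2, h3⟩ : |v.1| ≤ (K : ℤ) ∧ |v.2| ≤ (K : ℤ) := hK
        show |v.1| ≤ ((N + K : ℕ) : ℤ) ∧ |v.2| ≤ ((N + K : ℕ) : ℤ)
        push_cast
        constructor <;> omega
    · have := hN e he
      rcases e with v | v
      · obtain ⟨h2, h3⟩ : |v.1| ≤ (N : ℤ) ∧ |v.2| ≤ (N : ℤ) := this
        show |v.1| ≤ ((N + K : ℕ) : ℤ) ∧ |v.2| ≤ ((N + K : ℕ) : ℤ)
        push_cast
        constructor <;> omega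
      · obtain ⟨h2, h3⟩ : |v.1| ≤ (N : ℤ) ∧ |v.2| ≤ (N : ℤ) := this
        show |v.1| ≤ ((N + K : ℕ) : ℤ) ∧ |v.2| ≤ ((N + K : ℕ) : ℤ)
        push_cast
        constructor <;> omega

/-! ### Columns -/

lemma rd_RX (n r : ℕ) (y0 : ℤ) (ω : Ori (ℤ × ℤ)) :
    rd (n + n) r (-(n : ℤ) + 1) y0 (RX 0 ω) = syK (n + n) r (rd (n + n) r (-(n : ℤ) + 1) y0 ω) := by
  funext e
  rw [sy_rd, syK_apply]
  show syB (RX 0 ω (syE (n + n) r (-(n : ℤ) + 1) y0 e)) =
    rd (n + n) r (-(n : ℤ) + 1) y0 ω (syR (n + n) r e) + syD (n + n) r e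
  rw [sy_rd]
  rcases e with ⟨i, j⟩ | ⟨i, j⟩
  · have h1 : ((i.rev : Fin (n + n + 1)) : ℤ) = n + n - i := by
      rw [Fin.val_rev]
      have := i.2
      omega
    show syB (ω (Sum.inl (2 * 0 - (-(n : ℤ) + 1 + (i : ℤ) - 1), y0 + (j : ℤ)))) =
      syB (ω (Sum.inl (-(n : ℤ) + 1 + ((i.rev : Fin (n + n + 1)) : ℤ) - 1, y0 + (j : ℤ)))) + 0
    rw [h1, show 2 * 0 - (-(n : ℤ) + 1 + i - 1) = -(n : ℤ) + 1 + (n + n - i) - 1 by ring, add_zero]
  · have h1 : ((i.rev : Fin (n + n)) : ℤ) = n + n - 1 - i := by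
      rw [Fin.val_rev]
      have := i.2
      omega
    show syB (!(ω (Sum.inr (2 * 0 - (-(n : ℤ) + 1 + (i : ℤ)) + 1, y0 + (j : ℤ) - 1)))) =
      syB (ω (Sum.inr (-(n : ℤ) + 1 + ((i.rev : Fin (n + n)) : ℤ), y0 + (j : ℤ) - 1))) + 1
    rw [h1, show 2 * 0 - (-(n : ℤ) + 1 + i) + 1 = -(n : ℤ) + 1 + (n + n - 1 - i) by ring, syB_not]

lemma P_col {c : ℝ} (hc : 0 < c) (hc2 : c ^ 2 ≤ 2) {P : Measure (Ori (ℤ × ℤ))} (hP : IsP c P)
    (f : Ori (ℤ × ℤ) → ℝ) (Λ : Finset (Edge (ℤ × ℤ))) (hΛ : ∀ e ∈ Λ, e ∈ Half dX 0)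
    (hf : ∀ ω ω', (∀ e ∈ Λ, ω e = ω' e) → f ω = f ω') : 0 ≤ ∫ ω, f ω * f (RX 0 ω) ∂P := by
  obtain ⟨N, hN⟩ := edges_bdd Λ
  set n : ℕ := N + 1 with hn
  set r : ℕ := 2 * N + 2 with hr
  set x0 : ℤ := -(n : ℤ) + 1 with hx0
  set y0 : ℤ := -(N : ℤ) with hy0
  have hrep := window_rep (n + n) r x0 y0 (RH (n + n) r) f Λ hf (by
    intro e he
    have h1 := hN e he
    have h2 := hΛ e he
    rcases e with ⟨X, Y⟩ | ⟨X, Y⟩
    · obtain ⟨h3, h4⟩ : |X| ≤ (N : ℤ) ∧ |Y| ≤ (N : ℤ) := h1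
      have h5 : (0 : ℤ) ≤ X := h2.1
      rw [abs_le] at h3 h4
      constructor
      · refine ⟨Sum.inl (⟨(X + n).toNat, by omega⟩, ⟨(Y + N).toNat, by omega⟩), ?_⟩
        show Sum.inl (x0 + ((X + n).toNat : ℤ) - 1, y0 + ((Y + N).toNat : ℤ)) = _
        congr 1
        refine Prod.ext ?_ ?_
        · show x0 + ((X + n).toNat : ℤ) - 1 = X
          omega
        · show y0 + ((Y + N).toNat : ℤ) = Y
          omega
      · rintro (⟨i, j⟩ | ⟨i, j⟩) h
        · have h6 : (x0 + (i : ℤ) - 1, y0 + (j : ℤ)) = (X, Y) := Sum.inl.inj h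
          have h7 := congrArg Prod.fst h6
          show n + n ≤ 2 * i.val
          simp only at h7
          omega
        · exact absurd h (by simp [lc])
    · obtain ⟨h3, h4⟩ : |X| ≤ (N : ℤ) ∧ |Y| ≤ (N : ℤ) := h1
      have h5 : (0 : ℤ) ≤ X - 1 := h2.2
      rw [abs_le] at h3 h4
      constructor
      · refine ⟨Sum.inr (⟨(X + n - 1).toNat, by omega⟩, ⟨(Y + N + 1).toNat, by omega⟩), ?_⟩
        show Sum.inr (x0 + ((X + n - 1).toNat : ℤ), y0 + ((Y + N + 1).toNat : ℤ) - 1) = _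
        congr 1
        refine Prod.ext ?_ ?_
        · show x0 + ((X + n - 1).toNat : ℤ) = X
          omega
        · show y0 + ((Y + N + 1).toNat : ℤ) - 1 = Y
          omega
      · rintro (⟨i, j⟩ | ⟨i, j⟩) h
        · exact absurd h (by simp [lc])
        · have h6 : (x0 + (i : ℤ), y0 + (j : ℤ) - 1) = (X, Y) := Sum.inr.inj h
          have h7 := congrArg Prod.fst h6
          show n + n ≤ 2 * i.val
          simp only at h7
          omega)
  obtain ⟨hr1, hr2⟩ := hrep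
  set φ : (BE (n + n) r → ZMod 2) → ℝ := fun x => f (ofW (n + n) r x0 y0 x) with hφ
  have h1 : ∀ ω, f ω * f (RX 0 ω) =
      (fun x => φ x * φ (syK (n + n) r x)) (rd (n + n) r x0 y0 ω) := by
    intro ω
    show f ω * f (RX 0 ω) = f (ofW (n + n) r x0 y0 (rd (n + n) r x0 y0 ω)) *
      f (ofW (n + n) r x0 y0 (syK (n + n) r (rd (n + n) r x0 y0 ω)))
    rw [← rd_RX n r y0 ω, ← hr1, ← hr1]
  have h3 : ∫ ω, f ω * f (RX 0 ω) ∂P = mu (wc c) (n + n) r
      (fun x => φ x * φ (syK (n + n) r x)) := by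
    rw [← hP.2.2 (n + n) r (by omega) (by omega) _ x0 y0]
    exact integral_congr_ae (Eventually.of_forall h1)
  rw [h3]
  refine mu_nonneg hc hc2 _ _ (by omega) (by omega) _ (fun q => ?_)
  have h2 := box_col (w := wc c) rfl (m := q + (n + n) + q) ⟨q + n, by ring⟩ (q + r + q)
    (fun k => φ (fun e => k (bxg q q (by omega) (by omega) e))) (by
      intro k k' h
      refine hr2 _ _ (fun e he => h _ ?_)
      rcases e with ⟨i, j⟩ | ⟨i, j⟩
      · have he' : n + n ≤ 2 * i.val := he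
        show q + (n + n) + q ≤ 2 * (q + i.val)
        omega
      · have he' : n + n ≤ 2 * i.val := he
        show q + (n + n) + q ≤ 2 * (q + i.val)
        omega)
  convert h2 using 4 with k
  refine congrArg φ ?_
  funext e
  rw [syK_apply, syK_apply]
  simp only [sy_R_bxg, sy_D_bxg]

/-! ### Diagonal -/

lemma rd_RD (m : ℕ) (a : ℤ) (ω : Ori (ℤ × ℤ)) :
    rd m m a a (RD 0 ω) = dgK m (rd m m a a ω) := by
  funext e
  rw [sy_rd]
  show syB (RD 0 ω (syE m m a a e)) = rd m m a a ω (sw m m e) + 1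
  rw [sy_rd]
  rcases e with ⟨i, j⟩ | ⟨i, j⟩
  · show syB (!(ω (Sum.inr (a + (j : ℤ) + 0, a + (i : ℤ) - 1 - 0)))) =
      syB (ω (Sum.inr (a + (j : ℤ), a + (i : ℤ) - 1))) + 1
    rw [add_zero, sub_zero, syB_not]
  · show syB (!(ω (Sum.inl (a + (j : ℤ) - 1 + 0, a + (i : ℤ) - 0)))) =
      syB (ω (Sum.inl (a + (j : ℤ) - 1, a + (i : ℤ)))) + 1
    rw [add_zero, sub_zero, syB_not]

lemma P_diag {c : ℝ} (hc : 1 ≤ c) (hc2 : c ^ 2 ≤ 2) {P : Measure (Ori (ℤ × ℤ))} (hP : IsP c P)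
    (f : Ori (ℤ × ℤ) → ℝ) (Λ : Finset (Edge (ℤ × ℤ))) (hΛ : ∀ e ∈ Λ, e ∈ Half dD 0)
    (hf : ∀ ω ω', (∀ e ∈ Λ, ω e = ω' e) → f ω = f ω') : 0 ≤ ∫ ω, f ω * f (RD 0 ω) ∂P := by
  obtain ⟨N, hN⟩ := edges_bdd Λ
  set r : ℕ := 2 * N + 2 with hr
  set y0 : ℤ := -(N : ℤ) with hy0
  have hrep := window_rep r r y0 y0 (DH r) f Λ hf (by
    intro e he
    have h1 := hN e he
    have h2 := hΛ e he
    rcases e with ⟨X, Y⟩ | ⟨X, Y⟩
    · obtain ⟨h3, h4⟩ : |X| ≤ (N : ℤ) ∧ |Y| ≤ (N : ℤ) := h1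
      have h5 : (0 : ℤ) ≤ X - Y := h2.1
      rw [abs_le] at h3 h4
      constructor
      · refine ⟨Sum.inl (⟨(X + N + 1).toNat, by omega⟩, ⟨(Y + N).toNat, by omega⟩), ?_⟩
        show Sum.inl (y0 + ((X + N + 1).toNat : ℤ) - 1, y0 + ((Y + N).toNat : ℤ)) = _
        congr 1
        refine Prod.ext ?_ ?_
        · show y0 + ((X + N + 1).toNat : ℤ) - 1 = X
          omega
        · show y0 + ((Y + N).toNat : ℤ) = Y
          omega
      · rintro (⟨i, j⟩ | ⟨i, j⟩) h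
        · have h6 : (y0 + (i : ℤ) - 1, y0 + (j : ℤ)) = (X, Y) := Sum.inl.inj h
          have h7 := congrArg Prod.fst h6
          have h8 := congrArg Prod.snd h6
          show j.val < i.val
          simp only at h7 h8
          omega
        · exact absurd h (by simp [lc])
    · obtain ⟨h3, h4⟩ : |X| ≤ (N : ℤ) ∧ |Y| ≤ (N : ℤ) := h1
      have h5 : (0 : ℤ) ≤ X - 1 - Y := h2.2
      rw [abs_le] at h3 h4
      constructor
      · refine ⟨Sum.inr (⟨(X + N).toNat, by omega⟩, ⟨(Y + N + 1).toNat, by omega⟩), ?_⟩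
        show Sum.inr (y0 + ((X + N).toNat : ℤ), y0 + ((Y + N + 1).toNat : ℤ) - 1) = _
        congr 1
        refine Prod.ext ?_ ?_
        · show y0 + ((X + N).toNat : ℤ) = X
          omega
        · show y0 + ((Y + N + 1).toNat : ℤ) - 1 = Y
          omega
      · rintro (⟨i, j⟩ | ⟨i, j⟩) h
        · exact absurd h (by simp [lc])
        · have h6 : (y0 + (i : ℤ), y0 + (j : ℤ) - 1) = (X, Y) := Sum.inr.inj h
          have h7 := congrArg Prod.fst h6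
          have h8 := congrArg Prod.snd h6
          show j.val ≤ i.val
          simp only at h7 h8
          omega)
  obtain ⟨hr1, hr2⟩ := hrep
  set φ : (BE r r → ZMod 2) → ℝ := fun x => f (ofW r r y0 y0 x) with hφ
  have h1 : ∀ ω, f ω * f (RD 0 ω) =
      (fun x => φ x * φ (dgK r x)) (rd r r y0 y0 ω) := by
    intro ω
    show f ω * f (RD 0 ω) = f (ofW r r y0 y0 (rd r r y0 y0 ω)) *
      f (ofW r r y0 y0 (dgK r (rd r r y0 y0 ω)))
    rw [← rd_RD r y0 ω, ← hr1, ← hr1]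
  have h3 : ∫ ω, f ω * f (RD 0 ω) ∂P = mu (wc c) r r (fun x => φ x * φ (dgK r x)) := by
    rw [← hP.2.2 r r (by omega) (by omega) _ y0 y0]
    exact integral_congr_ae (Eventually.of_forall h1)
  rw [h3]
  refine mu_nonneg (by linarith) hc2 _ _ (by omega) (by omega) _ (fun q => ?_)
  have h2 := box_diag hc (q + r + q)
    (fun k => φ (fun e => k (bxg q q (by omega) (by omega) e))) (by
      intro k k' h
      refine hr2 _ _ (fun e he => h _ ?_)
      rcases e with ⟨i, j⟩ | ⟨i, j⟩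
      · have he' : j.val < i.val := he
        show q + j.val < q + i.val
        omega
      · have he' : j.val ≤ i.val := he
        show q + j.val ≤ q + i.val
        omega)
  convert h2 using 4 with k
  refine congrArg φ ?_
  funext e
  rcases e with ⟨i, j⟩ | ⟨i, j⟩ <;> rfl

/-! ### All lines -/

/-- Change of variables by a measurable map preserving `P`. -/
lemma int_map {P : Measure (Ori (ℤ × ℤ))} (S : Ori (ℤ × ℤ) → Ori (ℤ × ℤ)) (hS : Measurable S)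
    (hP : P.map S = P) (f g : Ori (ℤ × ℤ) → ℝ) (hf : Measurable f) (hg : Measurable g) :
    ∫ ω, f ω * g ω ∂P = ∫ ω, f (S ω) * g (S ω) ∂P := by
  conv_lhs => rw [← hP]
  exact integral_map hS.aemeasurable (hf.mul hg).aestronglyMeasurable

lemma meas_shO (a b : ℤ) : Measurable (shO a b) := by
  refine measurable_pi_lambda _ (fun e => ?_)
  rcases e with e | e
  · exact measurable_pi_apply _
  · exact measurable_pi_apply _

lemma meas_trO : Measurable trO := by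
  refine measurable_pi_lambda _ (fun e => ?_)
  rcases e with e | e
  · exact measurable_pi_apply _
  · exact measurable_pi_apply _

lemma meas_reO : Measurable reO := by
  refine measurable_pi_lambda _ (fun e => ?_)
  rcases e with e | e
  · exact measurable_pi_apply _
  · exact (measurable_of_countable (fun x : Bool => !x)).comp (measurable_pi_apply _)

lemma meas_RX (m : ℤ) : Measurable (RX m : Ori (ℤ × ℤ) → Ori (ℤ × ℤ)) := by
  refine measurable_pi_lambda _ (fun e => ?_)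
  rcases e with e | e
  · exact measurable_pi_apply _
  · exact (measurable_of_countable (fun x : Bool => !x)).comp (measurable_pi_apply _)

lemma meas_RD (m : ℤ) : Measurable (RD m : Ori (ℤ × ℤ) → Ori (ℤ × ℤ)) := by
  refine measurable_pi_lambda _ (fun e => ?_)
  rcases e with e | e
  · exact (measurable_of_countable (fun x : Bool => !x)).comp (measurable_pi_apply _)
  · exact (measurable_of_countable (fun x : Bool => !x)).comp (measurable_pi_apply _)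

theorem grp_X {c : ℝ} (hc : 0 < c) (hc2 : c ^ 2 ≤ 2) {P : Measure (Ori (ℤ × ℤ))} (hP : IsP c P) :
    GRP P dX RX := by
  intro m f Λ hΛ hf
  have hsh := (m_symP c hc hc2 P hP).1 (-m) 0
  have hfm := local_measurable Λ hf
  rw [int_map (shO (-m) 0) (meas_shO _ _) hsh f (fun ω => f (RX m ω)) hfm
    (hfm.comp (meas_RX m))]
  have h1 : ∀ ω : Ori (ℤ × ℤ), RX m (shO (-m) 0 ω) = shO (-m) 0 (RX 0 ω) := by
    intro ω
    funext e
    rcases e with ⟨x, y⟩ | ⟨x, y⟩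
    · show ω (Sum.inl (2 * m - x + -m, y + 0)) = ω (Sum.inl (2 * 0 - (x + -m), y + 0))
      rw [show 2 * m - x + -m = 2 * 0 - (x + -m) by ring]
    · show (!(ω (Sum.inr (2 * m - x + 1 + -m, y + 0)))) =
        (!(ω (Sum.inr (2 * 0 - (x + -m) + 1, y + 0))))
      rw [show 2 * m - x + 1 + -m = 2 * 0 - (x + -m) + 1 by ring]
  simp_rw [h1]
  let tr : Edge (ℤ × ℤ) → Edge (ℤ × ℤ) := Sum.map (fun v => (v.1 + -m, v.2 + 0))
    (fun v => (v.1 + -m, v.2 + 0))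
  refine P_col hc hc2 hP (fun ω => f (shO (-m) 0 ω)) (Λ.image tr) ?_ ?_
  · intro e he
    obtain ⟨e', he', rfl⟩ := Finset.mem_image.1 he
    have h2 := hΛ e' he'
    rcases e' with ⟨x, y⟩ | ⟨x, y⟩
    · obtain ⟨h3, h4⟩ : m ≤ x ∧ m ≤ x := h2
      show (0 : ℤ) ≤ x + -m ∧ (0 : ℤ) ≤ x + -m
      constructor <;> omega
    · obtain ⟨h3, h4⟩ : m ≤ x ∧ m ≤ x - 1 := h2
      show (0 : ℤ) ≤ x + -m ∧ (0 : ℤ) ≤ x + -m - 1
      constructor <;> omega
  · intro ω ω' h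
    refine hf _ _ (fun e he => ?_)
    have h2 := h (tr e) (Finset.mem_image_of_mem _ he)
    rcases e with v | v
    · exact h2
    · exact h2

theorem grp_D {c : ℝ} (hc : 1 ≤ c) (hc2 : c ^ 2 ≤ 2) {P : Measure (Ori (ℤ × ℤ))} (hP : IsP c P) :
    GRP P dD RD := by
  intro m f Λ hΛ hf
  have hsh := (m_symP c (by linarith) hc2 P hP).1 (-m) 0
  have hfm := local_measurable Λ hf
  rw [int_map (shO (-m) 0) (meas_shO _ _) hsh f (fun ω => f (RD m ω)) hfm
    (hfm.comp (meas_RD m))]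
  have h1 : ∀ ω : Ori (ℤ × ℤ), RD m (shO (-m) 0 ω) = shO (-m) 0 (RD 0 ω) := by
    intro ω
    funext e
    rcases e with ⟨x, y⟩ | ⟨x, y⟩
    · show (!(ω (Sum.inr (y + m + -m, x - m + 0)))) = (!(ω (Sum.inr (y + 0 + 0, x + -m - 0))))
      rw [show y + m + -m = y + 0 + 0 by ring, show x - m + 0 = x + -m - 0 by ring]
    · show (!(ω (Sum.inl (y + m + -m, x - m + 0)))) = (!(ω (Sum.inl (y + 0 + 0, x + -m - 0))))
      rw [show y + m + -m = y + 0 + 0 by ring, show x - m + 0 = x + -m - 0 by ring]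
  simp_rw [h1]
  let tr : Edge (ℤ × ℤ) → Edge (ℤ × ℤ) := Sum.map (fun v => (v.1 + -m, v.2 + 0))
    (fun v => (v.1 + -m, v.2 + 0))
  refine P_diag hc hc2 hP (fun ω => f (shO (-m) 0 ω)) (Λ.image tr) ?_ ?_
  · intro e he
    obtain ⟨e', he', rfl⟩ := Finset.mem_image.1 he
    have h2 := hΛ e' he'
    rcases e' with ⟨x, y⟩ | ⟨x, y⟩
    · obtain ⟨h3, h4⟩ : m ≤ x - y ∧ m ≤ x - (y - 1) := h2
      show (0 : ℤ) ≤ x + -m - (y + 0) ∧ (0 : ℤ) ≤ x + -m - (y + 0 - 1)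
      constructor <;> omega
    · obtain ⟨h3, h4⟩ : m ≤ x - y ∧ m ≤ x - 1 - y := h2
      show (0 : ℤ) ≤ x + -m - (y + 0) ∧ (0 : ℤ) ≤ x + -m - 1 - (y + 0)
      constructor <;> omega
  · intro ω ω' h
    refine hf _ _ (fun e he => ?_)
    have h2 := h (tr e) (Finset.mem_image_of_mem _ he)
    rcases e with v | v
    · exact h2
    · exact h2

theorem grp_Y {c : ℝ} (hc : 0 < c) (hc2 : c ^ 2 ≤ 2) {P : Measure (Ori (ℤ × ℤ))} (hP : IsP c P) :
    GRP P dY RY := by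
  intro m f Λ hΛ hf
  have htr := (m_symP c hc hc2 P hP).2.1
  have hfm := local_measurable Λ hf
  have h1 : ∀ ω : Ori (ℤ × ℤ), RY m ω = trO (RX m (trO ω)) := by
    intro ω
    funext e
    rcases e with ⟨x, y⟩ | ⟨x, y⟩
    · rfl
    · rfl
  have htt : ∀ ω : Ori (ℤ × ℤ), trO (trO ω) = ω := by
    intro ω
    funext e
    rcases e with ⟨x, y⟩ | ⟨x, y⟩
    · rfl
    · rfl
  have hRY : Measurable (RY m : Ori (ℤ × ℤ) → Ori (ℤ × ℤ)) := by
    have : (RY m : Ori (ℤ × ℤ) → Ori (ℤ × ℤ)) = fun ω => trO (RX m (trO ω)) := funext h1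
    rw [this]
    exact meas_trO.comp ((meas_RX m).comp meas_trO)
  rw [int_map trO meas_trO htr f (fun ω => f (RY m ω)) hfm (hfm.comp hRY)]
  simp_rw [h1, htt]
  let tr : Edge (ℤ × ℤ) → Edge (ℤ × ℤ) := Sum.elim (fun v => Sum.inr (v.2, v.1))
    (fun v => Sum.inl (v.2, v.1))
  refine grp_X hc hc2 hP m (fun ω => f (trO ω)) (Λ.image tr) ?_ ?_
  · intro e he
    obtain ⟨e', he', rfl⟩ := Finset.mem_image.1 he
    have h2 := hΛ e' he'
    rcases e' with ⟨x, y⟩ | ⟨x, y⟩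
    · obtain ⟨h3, h4⟩ : m ≤ y ∧ m ≤ y - 1 := h2
      show m ≤ y ∧ m ≤ y - 1
      exact ⟨h3, h4⟩
    · obtain ⟨h3, h4⟩ : m ≤ y ∧ m ≤ y := h2
      show m ≤ y ∧ m ≤ y
      exact ⟨h3, h4⟩
  · intro ω ω' h
    refine hf _ _ (fun e he => ?_)
    have h2 := h (tr e) (Finset.mem_image_of_mem _ he)
    rcases e with v | v
    · exact h2
    · exact h2

theorem grp_A {c : ℝ} (hc : 1 ≤ c) (hc2 : c ^ 2 ≤ 2) {P : Measure (Ori (ℤ × ℤ))} (hP : IsP c P) :
    GRP P dA RA := by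
  intro m f Λ hΛ hf
  have hre := (m_symP c (by linarith) hc2 P hP).2.2.2
  have hfm := local_measurable Λ hf
  have h1 : ∀ ω : Ori (ℤ × ℤ), RA m ω = reO (RD (-m - 1) (reO ω)) := by
    intro ω
    funext e
    rcases e with ⟨x, y⟩ | ⟨x, y⟩
    · show ω (Sum.inr (m - y + 1, m - x)) =
        (!(!(ω (Sum.inr (-(y + (-m - 1)), -x - 1 - (-m - 1))))))
      rw [Bool.not_not, show m - y + 1 = -(y + (-m - 1)) by ring,
        show m - x = -x - 1 - (-m - 1) by ring]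
    · show ω (Sum.inl (m - y, m - x + 1)) =
        (!(!(ω (Sum.inl (-(y + (-m - 1)) - 1, -x - (-m - 1))))))
      rw [Bool.not_not, show m - y = -(y + (-m - 1)) - 1 by ring,
        show m - x + 1 = -x - (-m - 1) by ring]
  have hrr : ∀ ω : Ori (ℤ × ℤ), reO (reO ω) = ω := by
    intro ω
    funext e
    rcases e with ⟨x, y⟩ | ⟨x, y⟩
    · show ω (Sum.inl (-(-x - 1) - 1, y)) = _
      rw [show -(-x - 1) - 1 = x by ring]
    · show (!(!(ω (Sum.inr (- -x, y))))) = _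
      rw [Bool.not_not, neg_neg]
  have hdd : ∀ ω : Ori (ℤ × ℤ), RD (-m - 1) (RD (-m - 1) ω) = ω := by
    intro ω
    funext e
    rcases e with ⟨x, y⟩ | ⟨x, y⟩
    · show (!(!(ω (Sum.inl (x - (-m - 1) + (-m - 1), y + (-m - 1) - (-m - 1)))))) = _
      rw [Bool.not_not, sub_add_cancel, add_sub_cancel_right]
    · show (!(!(ω (Sum.inr (x - (-m - 1) + (-m - 1), y + (-m - 1) - (-m - 1)))))) = _
      rw [Bool.not_not, sub_add_cancel, add_sub_cancel_right]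
  have hRA : Measurable (RA m : Ori (ℤ × ℤ) → Ori (ℤ × ℤ)) := by
    have : (RA m : Ori (ℤ × ℤ) → Ori (ℤ × ℤ)) = fun ω => reO (RD (-m - 1) (reO ω)) := funext h1
    rw [this]
    exact meas_reO.comp ((meas_RD _).comp meas_reO)
  rw [int_map reO meas_reO hre f (fun ω => f (RA m ω)) hfm (hfm.comp hRA)]
  simp_rw [h1, hrr]
  have h2 : ∀ ω : Ori (ℤ × ℤ), f (reO ω) * f (reO (RD (-m - 1) ω)) =
      f (reO (RD (-m - 1) ω)) * f (reO (RD (-m - 1) (RD (-m - 1) ω))) := by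
    intro ω
    rw [hdd, mul_comm]
  rw [integral_congr_ae (Eventually.of_forall h2)]
  let tr : Edge (ℤ × ℤ) → Edge (ℤ × ℤ) := Sum.elim
    (fun v => Sum.inr (v.2 + (-m - 1), -v.1 - 1 - (-m - 1)))
    (fun v => Sum.inl (v.2 + (-m - 1), -v.1 - (-m - 1)))
  refine grp_D hc hc2 hP (-m - 1) (fun ω => f (reO (RD (-m - 1) ω))) (Λ.image tr) ?_ ?_
  · intro e he
    obtain ⟨e', he', rfl⟩ := Finset.mem_image.1 he
    have h2 := hΛ e' he'
    rcases e' with ⟨x, y⟩ | ⟨x, y⟩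
    · obtain ⟨h3, h4⟩ : m ≤ x + y ∧ m ≤ x + (y - 1) := h2
      show -m - 1 ≤ y + (-m - 1) - (-x - 1 - (-m - 1)) ∧
        -m - 1 ≤ y + (-m - 1) - 1 - (-x - 1 - (-m - 1))
      constructor <;> omega
    · obtain ⟨h3, h4⟩ : m ≤ x + y ∧ m ≤ x - 1 + y := h2
      show -m - 1 ≤ y + (-m - 1) - (-x - (-m - 1)) ∧
        -m - 1 ≤ y + (-m - 1) - (-x - (-m - 1) - 1)
      constructor <;> omega
  · intro ω ω' h
    refine hf _ _ (fun e he => ?_)
    have h2 := h (tr e) (Finset.mem_image_of_mem _ he)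
    rcases e with v | v
    · show (!(ω (tr (Sum.inl v)))) = (!(ω' (tr (Sum.inl v))))
      rw [h2]
    · show (!(!(ω (tr (Sum.inr v))))) = (!(!(ω' (tr (Sum.inr v)))))
      rw [h2]

/-- R3 for `c ^ 2 ≤ 2`. -/
theorem grp_all {c : ℝ} (hc : 1 ≤ c) (hc2 : c ^ 2 ≤ 2) {P : Measure (Ori (ℤ × ℤ))}
    (hP : IsP c P) : GRP P dX RX ∧ GRP P dY RY ∧ GRP P dD RD ∧ GRP P dA RA :=
  ⟨grp_X (by linarith) hc2 hP, grp_Y (by linarith) hc2 hP, grp_D hc hc2 hP, grp_A hc hc2 hP⟩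

end Vale.Agent.P145.FA
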