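import Mathlib

/-!
# P145, block F-A: reflection positivity of finite sums
-/

open Finset

namespace Vale.Agent.P145.FA

theorem sq_sum_fiber {X Y : Type*} [Fintype X] [Fintype Y] [DecidableEq Y] (ρ : X → Y)
    (f : X → ℝ) : 0 ≤ ∑ p : X × X, if ρ p.1 = ρ p.2 then f p.1 * f p.2 else 0 := by
  have h : (∑ p : X × X, if ρ p.1 = ρ p.2 then f p.1 * f p.2 else 0) =
      ∑ s : Y, (∑ x : X, if ρ x = s then f x else 0) ^ 2 := by
    simp_rw [sq, Finset.sum_mul_sum]
    rw [Fintype.sum_prod_type, Finset.sum_comm' (s := univ) (t := fun _ => univ) (t' := univ)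
      (s' := fun _ => univ) (by simp)]
    rw [Finset.sum_comm]
    symm
    rw [Finset.sum_comm]
    refine Finset.sum_congr rfl (fun x _ => ?_)
    rw [Finset.sum_comm]
    refine Finset.sum_congr rfl (fun y _ => ?_)
    have : ∀ s : Y, ((if ρ x = s then f x else 0) * if ρ y = s then f y else 0) =
        if ρ x = s then (if ρ y = s then f x * f y else 0) else 0 := by
      intro s
      by_cases h1 : ρ x = s <;> by_cases h2 : ρ y = s <;> simp [h1, h2]
    simp_rw [this]
    rw [Finset.sum_ite_eq]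
    simp only [mem_univ, if_true]
    by_cases h1 : ρ x = ρ y
    · rw [if_pos h1, if_pos h1.symm]
    · rw [if_neg h1, if_neg (Ne.symm h1)]
  rw [h]
  exact Finset.sum_nonneg (fun s _ => sq_nonneg _)

variable {E : Type*} [Fintype E] [DecidableEq E]

/-- Reflection positivity: `σ` is the reflection of the edges, `d` the flip, `A` one half (with the
edges on the mirror). -/
theorem rp_sum (σ : E → E) (hσ : ∀ e, σ (σ e) = e)
    (d : E → ZMod 2) (hd : ∀ e, d (σ e) = d e) (A : E → Prop) [DecidablePred A]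
    (hA : ∀ e, A e ∨ A (σ e))
    (hC : ∀ e, A e → A (σ e) → σ e = e ∧ d e = 0)
    (R : (E → ZMod 2) → ℝ) (hR : ∀ k k', (∀ e, A e → k e = k' e) → R k = R k') :
    0 ≤ ∑ k : E → ZMod 2, R k * R (fun e => k (σ e) + d e) := by
  classical
  have hz : ∀ x y : ZMod 2, x + y + y = x := by decide
  -- extension by zero
  let ex : ({e // A e} → ZMod 2) → (E → ZMod 2) := fun x e => if h : A e then x ⟨e, h⟩ else 0
  let ρ : ({e // A e} → ZMod 2) → ({e : {e // A e} // A (σ e)} → ZMod 2) := fun x c => x c.1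
  let f : ({e // A e} → ZMod 2) → ℝ := fun x => R (ex x)
  have key : (∑ k : E → ZMod 2, R k * R (fun e => k (σ e) + d e)) =
      ∑ p : ({e // A e} → ZMod 2) × ({e // A e} → ZMod 2),
        if ρ p.1 = ρ p.2 then f p.1 * f p.2 else 0 := by
    rw [← Finset.sum_filter]
    refine Finset.sum_bij' (fun k _ => (fun e => k e.1, fun e => k (σ e.1) + d e.1))
      (fun p _ => fun e => if h : A e then p.1 ⟨e, h⟩ else
        if h' : A (σ e) then p.2 ⟨σ e, h'⟩ + d e else 0) ?_ ?_ ?_ ?_ ?_
    · intro k _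
      simp only [mem_filter, mem_univ, true_and]
      funext c
      show k c.1.1 = k (σ c.1.1) + d c.1.1
      obtain ⟨h1, h2⟩ := hC c.1.1 c.1.2 c.2
      rw [h1, h2, add_zero]
    · intro p _
      exact mem_univ _
    · intro k _
      funext e
      by_cases h : A e
      · simp only [h, dif_pos]
      · have h' : A (σ e) := (hA e).resolve_left h
        simp only [h, h', dif_pos, dif_neg, not_false_eq_true, hσ, hd, hz]
    · intro p hp
      simp only [mem_filter, mem_univ, true_and] at hp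
      refine Prod.ext ?_ ?_
      · funext e
        simp only [e.2, dif_pos]
      · funext e
        show (if h : A (σ e.1) then p.1 ⟨σ e.1, h⟩ else
          if h' : A (σ (σ e.1)) then p.2 ⟨σ (σ e.1), h'⟩ + d (σ e.1) else 0) + d e.1 = p.2 e
        by_cases h : A (σ e.1)
        · obtain ⟨h1, h2⟩ := hC e.1 e.2 h
          rw [dif_pos h, h2, add_zero]
          have h3 := congrFun hp ⟨e, h⟩
          have h4 : (⟨σ e.1, h⟩ : {e // A e}) = e := Subtype.ext h1
          rw [h4]
          exact h3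
        · rw [dif_neg h]
          have h5 : A (σ (σ e.1)) := by rw [hσ]; exact e.2
          have h6 : (⟨σ (σ e.1), h5⟩ : {e // A e}) = e := Subtype.ext (hσ e.1)
          rw [dif_pos h5, hd, hz, h6]
    · intro k _
      show R k * R (fun e => k (σ e) + d e) = R (ex _) * R (ex _)
      congr 1
      · refine hR _ _ (fun e he => ?_)
        simp only [ex, he, dif_pos]
      · refine hR _ _ (fun e he => ?_)
        simp only [ex, he, dif_pos]
  rw [key]
  exact sq_sum_fiber ρ f

/-- The kernel coupling the two sides of a diagonal mirror. -/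
theorem rp_sum_kernel {ι U : Type*} [Fintype ι] [DecidableEq ι] {a : ℕ} (σ : E → E)
    (hσ : ∀ e, σ (σ e) = e)
    (d : E → ZMod 2) (hd : ∀ e, d (σ e) = d e) (A : E → Prop) [DecidablePred A]
    (hA : ∀ e, A e ∨ A (σ e))
    (hC : ∀ e, A e → A (σ e) → σ e = e ∧ d e = 0)
    (R : (E → ZMod 2) → ℝ) (hR : ∀ k k', (∀ e, A e → k e = k' e) → R k = R k')
    (u : ι → (E → ZMod 2) → U) (hu : ∀ i k k', (∀ e, A e → k e = k' e) → u i k = u i k')
    (K : U → U → ℝ) (g : Fin a → U → ℝ) (hK : ∀ x y, K x y = ∑ α, g α x * g α y) :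
    0 ≤ ∑ k : E → ZMod 2, R k * R (fun e => k (σ e) + d e) *
      ∏ i, K (u i k) (u i (fun e => k (σ e) + d e)) := by
  have h1 : ∀ k : E → ZMod 2, R k * R (fun e => k (σ e) + d e) *
      ∏ i, K (u i k) (u i (fun e => k (σ e) + d e)) =
      ∑ α : ι → Fin a, (R k * ∏ i, g (α i) (u i k)) *
        (R (fun e => k (σ e) + d e) * ∏ i, g (α i) (u i (fun e => k (σ e) + d e))) := by
    intro k
    simp_rw [hK]
    rw [Finset.prod_univ_sum, Finset.mul_sum]
    simp only [Fintype.piFinset_univ]
    refine Finset.sum_congr rfl (fun α _ => ?_)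
    rw [Finset.prod_mul_distrib]
    ring
  simp_rw [h1]
  rw [Finset.sum_comm]
  refine Finset.sum_nonneg (fun α _ => ?_)
  refine rp_sum σ hσ d hd A hA hC (fun k => R k * ∏ i, g (α i) (u i k)) ?_
  intro k k' h
  show R k * ∏ i, g (α i) (u i k) = R k' * ∏ i, g (α i) (u i k')
  rw [hR k k' h]
  congr 1
  exact Finset.prod_congr rfl (fun i _ => by rw [hu i k k' h])

end Vale.Agent.P145.FA
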