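import Vale.Agent.P153.RP.Hausdorff

/-!
# P145, block F-A: the leg lemma

Abstract reflection positive shift `S` on a real vector space with a positive semidefinite form `B`:
the value `B (S x) y` is controlled by finitely many far values `B (S ^ j x) y`, `j > s`.
-/

open MeasureTheory Polynomial Filter Topology
open scoped unitInterval

namespace Vale.Agent.P145.FA

/-- A symmetric positive semidefinite form `B` and a symmetric positive shift `S` with bounded
orbits. -/
structure RPS {V : Type*} [AddCommGroup V] [Module ℝ V] (B : V →ₗ[ℝ] V →ₗ[ℝ] ℝ)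
    (S : V →ₗ[ℝ] V) : Prop where
  symm : ∀ x y, B x y = B y x
  shift : ∀ x y, B (S x) y = B x (S y)
  pos : ∀ x, 0 ≤ B x x
  pos1 : ∀ x, 0 ≤ B (S x) x
  bdd : ∀ x, ∃ C : ℝ, ∀ k : ℕ, |B ((S ^ k) x) x| ≤ C

variable {V : Type*} [AddCommGroup V] [Module ℝ V] {B : V →ₗ[ℝ] V →ₗ[ℝ] ℝ} {S : V →ₗ[ℝ] V}

theorem RPS.shiftpow (h : RPS B S) (k : ℕ) (x y : V) : B ((S ^ k) x) y = B x ((S ^ k) y) := by
  induction k generalizing x y with
  | zero => simp
  | succ k ih =>
    rw [pow_succ, Module.End.mul_apply, ih (S x) y, h.shift, ← Module.End.mul_apply, ← pow_succ']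
    rw [pow_succ]

theorem RPS.aeval_symm (h : RPS B S) (p : ℝ[X]) (x y : V) :
    B (aeval S p x) y = B x (aeval S p y) := by
  induction p using Polynomial.induction_on' with
  | add p q hp hq => simp [map_add, LinearMap.add_apply, hp, hq]
  | monomial n a =>
    simp only [aeval_monomial, Module.End.mul_apply, Module.algebraMap_end_apply, map_smul,
      LinearMap.smul_apply, h.shiftpow]

/-- the spectral measure of `x` -/
theorem RPS.meas (h : RPS B S) (x : V) : ∃ μ : FiniteMeasure I,
    ∀ p : ℝ[X], ∫ t : I, p.eval (t : ℝ) ∂(μ : Measure I) = B (aeval S p x) x := by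
  let L : ℝ[X] →ₗ[ℝ] ℝ :=
    { toFun := fun p => B (aeval S p x) x
      map_add' := by intro p q; simp
      map_smul' := by intro a p; simp }
  have hL : Vale.Agent.P153.RP.PosL L := by
    refine ⟨fun q => ?_, fun q => ?_, ?_⟩
    · show 0 ≤ B (aeval S (q * q) x) x
      rw [map_mul, Module.End.mul_apply, h.aeval_symm]
      exact h.pos _
    · show 0 ≤ B (aeval S (X * (q * q)) x) x
      rw [show (X : ℝ[X]) * (q * q) = q * (X * q) by ring, map_mul, Module.End.mul_apply,
        h.aeval_symm, map_mul, Module.End.mul_apply, aeval_X]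
      exact h.pos1 _
    · obtain ⟨C, hC⟩ := h.bdd x
      refine ⟨C, fun n => ?_⟩
      show |B (aeval S (X ^ n) x) x| ≤ C
      rw [map_pow, aeval_X]
      exact hC n
  obtain ⟨μ, hμ⟩ := hL.exists_measure
  refine ⟨μ, fun p => ?_⟩
  show _ = L p
  have hint : ∀ q : ℝ[X], Integrable (fun t : I => q.eval (t : ℝ)) (μ : Measure I) := fun q => by
    have hc : Continuous (fun t : I => q.eval (t : ℝ)) := q.continuous.comp continuous_subtype_val
    exact hc.integrable_of_hasCompactSupport (HasCompactSupport.of_compactSpace _)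
  induction p using Polynomial.induction_on' with
  | add p q hp hq =>
    simp only [eval_add]
    rw [integral_add (hint p) (hint q), hp, hq, map_add]
  | monomial n a =>
    simp only [eval_monomial]
    rw [integral_const_mul, hμ n, ← smul_eq_mul, ← map_smul, ← C_mul_X_pow_eq_monomial,
      smul_eq_C_mul]

theorem RPS.quad (h : RPS B S) (p : ℝ[X]) (M : ℝ)
    (hM : ∀ t : ℝ, 0 ≤ t → t ≤ 1 → |p.eval t| ≤ M) (x : V) :
    |B (aeval S p x) x| ≤ M * B x x := by
  obtain ⟨μ, hμ⟩ := h.meas x
  have h1 : ∫ t : I, (1 : ℝ[X]).eval (t : ℝ) ∂(μ : Measure I) = B x x := by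
    rw [hμ]; simp
  have h2 : ∫ _t : I, (1 : ℝ) ∂(μ : Measure I) = B x x := by
    rw [← h1]; simp
  rw [← hμ, ← h2, ← integral_const_mul]
  rw [← Real.norm_eq_abs]
  refine (norm_integral_le_integral_norm (fun t : I => p.eval (t : ℝ))).trans ?_
  refine integral_mono_of_nonneg (Eventually.of_forall fun _ => norm_nonneg _)
    (by simp) (Eventually.of_forall fun t => ?_)
  simpa using hM t t.2.1 t.2.2

/-- Cauchy-Schwarz form of `quad`. -/
theorem RPS.cs (h : RPS B S) (p : ℝ[X]) (M : ℝ) (hM0 : 0 ≤ M)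
    (hM : ∀ t : ℝ, 0 ≤ t → t ≤ 1 → |p.eval t| ≤ M) (x y : V) :
    |B (aeval S p x) y| ≤ M * √(B x x * B y y) := by
  have key : ∀ r : ℝ, 0 < r → |B (aeval S p x) y| ≤ M / 2 * (r ^ 2 * B x x + (r ^ 2)⁻¹ * B y y) := by
    intro r hr
    have hs : B (aeval S p y) x = B (aeval S p x) y := by
      rw [h.symm, ← h.aeval_symm]
    have h1 := h.quad p M hM (r • x + r⁻¹ • y)
    have h2 := h.quad p M hM (r • x - r⁻¹ • y)
    have hr0 : r ≠ 0 := hr.ne'
    have e1 : B (aeval S p (r • x + r⁻¹ • y)) (r • x + r⁻¹ • y)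
        - B (aeval S p (r • x - r⁻¹ • y)) (r • x - r⁻¹ • y) = 4 * B (aeval S p x) y := by
      simp only [map_add, map_sub, map_smul, LinearMap.add_apply, LinearMap.sub_apply,
        LinearMap.smul_apply, smul_eq_mul, hs]
      field_simp
      ring
    have e2 : B (r • x + r⁻¹ • y) (r • x + r⁻¹ • y) + B (r • x - r⁻¹ • y) (r • x - r⁻¹ • y)
        = 2 * (r ^ 2 * B x x + (r ^ 2)⁻¹ * B y y) := by
      simp only [map_add, map_sub, map_smul, LinearMap.add_apply, LinearMap.sub_apply,
        LinearMap.smul_apply, smul_eq_mul, h.symm y x]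
      field_simp
      ring
    have h3 : |4 * B (aeval S p x) y| ≤ M * (2 * (r ^ 2 * B x x + (r ^ 2)⁻¹ * B y y)) := by
      rw [← e1, ← e2, mul_add]
      exact (abs_sub _ _).trans (add_le_add h1 h2)
    rw [abs_mul, abs_of_pos (by norm_num : (0 : ℝ) < 4)] at h3
    linarith
  have hx := h.pos x
  have hy := h.pos y
  rcases eq_or_lt_of_le hx with hx0 | hx0
  · -- `B x x = 0`
    rw [← hx0] at key ⊢
    rw [zero_mul, Real.sqrt_zero, mul_zero]
    by_contra hcon
    push Not at hcon
    set a := |B (aeval S p x) y| with ha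
    have hb : 0 < M * B y y + 1 := by positivity
    obtain ⟨r, hr, hr2⟩ : ∃ r : ℝ, 0 < r ∧ r ^ 2 = (M * B y y + 1) / a :=
      ⟨√((M * B y y + 1) / a), Real.sqrt_pos.2 (by positivity), Real.sq_sqrt (by positivity)⟩
    have := key r hr
    rw [hr2, mul_zero, zero_add, inv_div] at this
    have h5 : M / 2 * (a / (M * B y y + 1) * B y y) < a := by
      rw [show M / 2 * (a / (M * B y y + 1) * B y y) = a * ((M * B y y / 2) / (M * B y y + 1)) by
        ring]
      have : (M * B y y / 2) / (M * B y y + 1) < 1 := by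
        rw [div_lt_one hb]
        have : 0 ≤ M * B y y := by positivity
        linarith
      exact mul_lt_of_lt_one_right hcon this
    linarith
  rcases eq_or_lt_of_le hy with hy0 | hy0
  · rw [← hy0] at key ⊢
    rw [mul_zero, Real.sqrt_zero, mul_zero]
    by_contra hcon
    push Not at hcon
    set a := |B (aeval S p x) y| with ha
    have hb : 0 < M * B x x + 1 := by positivity
    obtain ⟨r, hr, hr2⟩ : ∃ r : ℝ, 0 < r ∧ r ^ 2 = a / (M * B x x + 1) :=
      ⟨√(a / (M * B x x + 1)), Real.sqrt_pos.2 (by positivity), Real.sq_sqrt (by positivity)⟩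
    have := key r hr
    rw [hr2, mul_zero, add_zero] at this
    have h5 : M / 2 * (a / (M * B x x + 1) * B x x) < a := by
      rw [show M / 2 * (a / (M * B x x + 1) * B x x) = a * ((M * B x x / 2) / (M * B x x + 1)) by
        ring]
      have : (M * B x x / 2) / (M * B x x + 1) < 1 := by
        rw [div_lt_one hb]
        have : 0 ≤ M * B x x := by positivity
        linarith
      exact mul_lt_of_lt_one_right hcon this
    linarith
  · obtain ⟨r, hr, hr2⟩ : ∃ r : ℝ, 0 < r ∧ r ^ 2 = √(B y y / B x x) :=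
      ⟨√√(B y y / B x x), Real.sqrt_pos.2 (Real.sqrt_pos.2 (by positivity)),
        Real.sq_sqrt (Real.sqrt_nonneg _)⟩
    have := key r hr
    rw [hr2] at this
    have hsx : 0 < √(B x x) := Real.sqrt_pos.2 hx0
    have hsy : 0 < √(B y y) := Real.sqrt_pos.2 hy0
    have ex : B x x = √(B x x) ^ 2 := (Real.sq_sqrt hx).symm
    have ey : B y y = √(B y y) ^ 2 := (Real.sq_sqrt hy).symm
    have e3 : √(B y y / B x x) * B x x + (√(B y y / B x x))⁻¹ * B y y
        = 2 * √(B x x * B y y) := by
      rw [Real.sqrt_div hy, Real.sqrt_mul hx, inv_div]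
      set u := √(B x x)
      set v := √(B y y)
      rw [ex, ey]
      field_simp
      ring
    rw [e3] at this
    linarith

end Vale.Agent.P145.FA
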