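import Vale.Agent.P145.FA.Stmt
import Vale.Agent.P145.FA.Leg

/-!
P145, block F-A: proof of `S_leg` (reflection positivity of the height law in a direction implies
the leg inequality and the extrapolation along that direction).
-/

namespace Vale.Agent.P145.FA

open Finset Filter Topology MeasureTheory Polynomial
open Vale.Agent.P152

/-! ### sequences -/

theorem leg_limit_seq (F : ℕ → ℕ → ℝ) (N : ℕ → ℕ) (C : ℝ)
    (hF : ∀ n, ∃ H : ℕ → ℝ, PolyBdd H C ∧ ∀ i, F n i = H (N n + i))
    (k0 : ℕ) (hlarge : ∀ k, k0 ≤ k → Tendsto (fun n => F n (k * N n)) atTop (𝓝 0)) :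
    Tendsto (fun n => F n 0) atTop (𝓝 0) := by
  rw [Metric.tendsto_atTop]
  intro ε hε
  obtain ⟨D, K, hK, hD⟩ := extrap 1 k0 (ε / (4 * (|C| + 1))) (by positivity)
  have h1 : ∀ k : ℕ, ∀ᶠ n : ℕ in atTop, |F n ((k0 + k) * N n)| ≤ ε / (4 * (K + 1)) := by
    intro k
    have := hlarge (k0 + k) (Nat.le_add_right _ _)
    rw [Metric.tendsto_atTop] at this
    obtain ⟨M, hM⟩ := this (ε / (4 * (K + 1))) (by positivity)
    filter_upwards [eventually_ge_atTop M] with n hn
    have := hM n hn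
    rw [Real.dist_eq, sub_zero] at this
    exact this.le
  have h2 : ∀ᶠ n : ℕ in atTop, ∀ k ∈ Finset.range (D + 1),
      |F n ((k0 + k) * N n)| ≤ ε / (4 * (K + 1)) := by
    rw [Filter.eventually_all_finset]
    exact fun k _ => h1 k
  obtain ⟨M, hM⟩ := eventually_atTop.mp h2
  refine ⟨M, fun n hn => ?_⟩
  obtain ⟨H, hH, hFH⟩ := hF n
  have h3 := hD H C (ε / (4 * (K + 1))) (by positivity) hH (N n) (N n) (by omega) (fun k hk => by
    rw [← hFH]
    exact hM n hn k (Finset.mem_range.mpr (Nat.lt_succ_of_le hk)))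
  rw [Real.dist_eq, sub_zero, hFH 0, add_zero]
  refine lt_of_le_of_lt h3 ?_
  have h4 : ε / (4 * (|C| + 1)) * C ≤ ε / 4 := by
    rw [div_mul_eq_mul_div, div_le_div_iff₀ (by positivity) (by positivity)]
    have := le_abs_self C
    nlinarith
  have h5 : K * (ε / (4 * (K + 1))) ≤ ε / 4 := by
    rw [mul_div_assoc', div_le_div_iff₀ (by positivity) (by positivity)]
    nlinarith
  linarith

theorem Lf_add (H H' : ℕ → ℝ) (p : ℝ[X]) :
    P153.RP.Lf (fun i => H i + H' i) p = P153.RP.Lf H p + P153.RP.Lf H' p := by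
  simp only [P153.RP.Lf_apply, Polynomial.sum_def, add_mul, Finset.sum_add_distrib]

theorem Lf_sub (H H' : ℕ → ℝ) (p : ℝ[X]) :
    P153.RP.Lf (fun i => H i - H' i) p = P153.RP.Lf H p - P153.RP.Lf H' p := by
  simp only [P153.RP.Lf_apply, Polynomial.sum_def, sub_mul, Finset.sum_sub_distrib]

theorem PolyBdd.add {H H' : ℕ → ℝ} {C C' : ℝ} (h : PolyBdd H C) (h' : PolyBdd H' C') :
    PolyBdd (fun i => H i + H' i) (C + C') := by
  intro p M hM
  rw [Lf_add, mul_add]
  exact (abs_add_le _ _).trans (add_le_add (h p M hM) (h' p M hM))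

theorem PolyBdd.sub {H H' : ℕ → ℝ} {C C' : ℝ} (h : PolyBdd H C) (h' : PolyBdd H' C') :
    PolyBdd (fun i => H i - H' i) (C + C') := by
  intro p M hM
  rw [Lf_sub, mul_add]
  exact (abs_sub _ _).trans (add_le_add (h p M hM) (h' p M hM))

/-! ### local functionals -/

theorem measurable_pbS (g : ℤ × ℤ → ℤ × ℤ) : Measurable (pb g) := by
  unfold pb
  exact measurable_pi_lambda _ fun x => measurable_pi_apply _

theorem Loc.monoS {R : Type} {A A' : Set (ℤ × ℤ)} {F : Hgt → R} (h : Loc A F) (hA : A ⊆ A') :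
    Loc A' F := by
  obtain ⟨Λ, h1, h2⟩ := h
  exact ⟨Λ, fun q hq => hA (h1 q hq), h2⟩

theorem Loc.measS {A : Set (ℤ × ℤ)} {F : Hgt → ℝ} (h : Loc A F) : Measurable F := by
  classical
  obtain ⟨s, -, hs⟩ := h
  let g : (s → ℤ) → ℝ := fun y => F (fun x => if hx : x ∈ s then y ⟨x, hx⟩ else 0)
  have hg : Measurable g := measurable_of_countable g
  have hF : F = g ∘ (fun h : Hgt => fun x : s => h x) := by
    funext ω
    apply hs
    intro x hx
    simp [hx]
  rw [hF]
  exact hg.comp (measurable_pi_lambda _ fun x => measurable_pi_apply _)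

theorem Loc.comp₂ {R S U : Type} {A : Set (ℤ × ℤ)} {F : Hgt → R} {G : Hgt → S} (hF : Loc A F)
    (hG : Loc A G) (f : R → S → U) : Loc A (fun h => f (F h) (G h)) := by
  classical
  obtain ⟨s, hs, hds⟩ := hF
  obtain ⟨t, ht, hdt⟩ := hG
  refine ⟨s ∪ t, fun x hx => ?_, fun a b hab => ?_⟩
  · rcases Finset.mem_union.mp hx with h | h
    · exact hs x h
    · exact ht x h
  · have e1 : F a = F b := hds a b fun i hi => hab i (Finset.mem_union_left _ hi)
    have e2 : G a = G b := hdt a b fun i hi => hab i (Finset.mem_union_right _ hi)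
    show f (F a) (G a) = f (F b) (G b)
    rw [e1, e2]

theorem Loc.comp {R S : Type} {A : Set (ℤ × ℤ)} {F : Hgt → R} (hF : Loc A F)
    (f : R → S) : Loc A (fun h => f (F h)) :=
  hF.comp₂ hF (fun a _ => f a)

theorem Loc.pull {R : Type} {A A' : Set (ℤ × ℤ)} {F : Hgt → R} (hF : Loc A F)
    {r : ℤ × ℤ → ℤ × ℤ} (hr : ∀ x ∈ A, r x ∈ A') : Loc A' (fun h => F (pb r h)) := by
  classical
  obtain ⟨s, hs, hds⟩ := hF
  refine ⟨s.image r, fun x hx => ?_, fun a b hab => ?_⟩
  · obtain ⟨y, hy, rfl⟩ := Finset.mem_image.mp hx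
    exact hr y (hs y hy)
  · apply hds
    intro i hi
    exact hab _ (Finset.mem_image_of_mem r hi)

variable {P : Measure (Ori (ℤ × ℤ))}

theorem Adm.mono {R : Type} [NormedAddCommGroup R] {A A' : Set (ℤ × ℤ)} {F : Hgt → R}
    (h : Adm P A F) (hA : A ⊆ A') : Adm P A' F :=
  ⟨h.loc.monoS hA, h.bdd, h.int⟩

theorem Adm.measurable {A : Set (ℤ × ℤ)} {F : Hgt → ℝ} (h : Adm P A F) : Measurable F :=
  h.loc.measS

theorem Adm.sq_int {R : Type} [NormedAddCommGroup R] {A : Set (ℤ × ℤ)} {F : Hgt → R}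
    (h : Adm P A F) : Integrable (fun x => ‖F x‖ ^ 2) (mu0 P) := by
  obtain ⟨C, hC⟩ := h.bdd
  refine (h.int.norm.const_mul C).mono (h.int.norm.aestronglyMeasurable.pow 2) ?_
  refine Filter.Eventually.of_forall fun x => ?_
  rw [Real.norm_eq_abs, Real.norm_eq_abs, abs_of_nonneg (by positivity), sq,
    abs_of_nonneg (mul_nonneg ((norm_nonneg _).trans (hC x)) (norm_nonneg _))]
  exact mul_le_mul_of_nonneg_right (hC x) (norm_nonneg _)

theorem Adm.memLp {A : Set (ℤ × ℤ)} {F : Hgt → ℝ} (h : Adm P A F) : MemLp F 2 (mu0 P) := by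
  rw [memLp_two_iff_integrable_sq h.int.aestronglyMeasurable]
  have := h.sq_int
  simpa using this

theorem Adm.pull {A A' : Set (ℤ × ℤ)} {F : Hgt → ℝ} (hF : Adm P A F) {r : ℤ × ℤ → ℤ × ℤ}
    (hr : ∀ x ∈ A, r x ∈ A') (hm : (mu0 P).map (pb r) = mu0 P) :
    Adm P A' (fun h => F (pb r h)) := by
  obtain ⟨C, hC⟩ := hF.bdd
  refine ⟨hF.loc.pull hr, ⟨C, fun h => hC _⟩, ?_⟩
  have := hF.int
  rw [← hm] at this
  exact this.comp_measurable (measurable_pbS r)

theorem Adm.reS {A : Set (ℤ × ℤ)} {F : Hgt → ℂ} (h : Adm P A F) :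
    Adm P A (fun x => (F x).re) := by
  obtain ⟨C, hC⟩ := h.bdd
  exact ⟨h.loc.comp _, ⟨C, fun x => (Complex.abs_re_le_norm _).trans (hC x)⟩, h.int.re⟩

theorem Adm.imS {A : Set (ℤ × ℤ)} {F : Hgt → ℂ} (h : Adm P A F) :
    Adm P A (fun x => (F x).im) := by
  obtain ⟨C, hC⟩ := h.bdd
  exact ⟨h.loc.comp _, ⟨C, fun x => (Complex.abs_im_le_norm _).trans (hC x)⟩, h.int.im⟩

theorem int_pull {r : ℤ × ℤ → ℤ × ℤ} (hm : (mu0 P).map (pb r) = mu0 P) {F : Hgt → ℝ}
    (hF : Measurable F) : ∫ h, F (pb r h) ∂(mu0 P) = ∫ h, F h ∂(mu0 P) := by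
  have := integral_map (μ := mu0 P) (measurable_pbS r).aemeasurable (f := F)
    hF.aestronglyMeasurable
  rw [hm] at this
  exact this.symm

theorem int_mul_le {F G : Hgt → ℝ} (hF : MemLp F 2 (mu0 P)) (hG : MemLp G 2 (mu0 P)) :
    ∫ h, F h * G h ∂(mu0 P) ≤ ((∫ h, F h ^ 2 ∂(mu0 P)) + ∫ h, G h ^ 2 ∂(mu0 P)) / 2 := by
  rw [← integral_add hF.integrable_sq hG.integrable_sq, ← integral_div]
  apply integral_mono
  · exact hF.integrable_mul hG
  · exact (hF.integrable_sq.add hG.integrable_sq).div_const 2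
  · intro h
    simp only
    nlinarith [sq_nonneg (F h - G h)]

/-! ### the form of a direction -/

variable {D : Dir}

theorem Dir.Good.θ_pred (hD : D.Good) (m : ℤ) (q : ℤ × ℤ) :
    D.θ m q - D.s = D.θ (m - 1) q := by
  have := hD.θ_succ (m - 1) q
  rw [sub_add_cancel] at this
  rw [this, add_sub_cancel_right]

theorem pb_pbS (g g' : ℤ × ℤ → ℤ × ℤ) (h : Hgt) : pb g (pb g' h) = pb (fun q => g' (g q)) h := rfl

/-- the space of functionals above the line `l = m` -/
def Vsp (P : Measure (Ori (ℤ × ℤ))) (D : Dir) (m : ℤ) : Submodule ℝ (Hgt → ℝ) where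
  carrier := {F | Adm P {q | m ≤ D.l q} F}
  add_mem' := by
    intro F G hF hG
    obtain ⟨C, hC⟩ := hF.bdd
    obtain ⟨E, hE⟩ := hG.bdd
    exact ⟨hF.loc.comp₂ hG.loc (fun a b => a + b),
      ⟨C + E, fun h => (norm_add_le _ _).trans (add_le_add (hC h) (hE h))⟩, hF.int.add hG.int⟩
  zero_mem' := ⟨⟨∅, by simp, fun _ _ _ => rfl⟩, ⟨0, fun h => by simp⟩, integrable_zero _ _ _⟩
  smul_mem' := by
    intro c F hF
    obtain ⟨C, hC⟩ := hF.bdd
    refine ⟨hF.loc.comp (fun a => c • a), ⟨‖c‖ * C, fun h => ?_⟩, hF.int.smul c⟩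
    rw [Pi.smul_apply, norm_smul]
    exact mul_le_mul_of_nonneg_left (hC h) (norm_nonneg _)

/-- the shift on `Vsp` -/
noncomputable def Tsp (hD : D.Good) (hI : Inv P D) (m : ℤ) : Vsp P D m →ₗ[ℝ] Vsp P D m where
  toFun F := ⟨fun h => F.1 (pb (fun q => q + D.s) h),
    F.2.pull (fun x hx => by
      show m ≤ D.l (x + D.s)
      rw [hD.l_add, hD.l_s]
      have : m ≤ D.l x := hx
      linarith) hI.2⟩
  map_add' F G := by ext h; rfl
  map_smul' c F := by ext h; rfl

/-- the reflection form -/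
noncomputable def Bsp (hI : Inv P D) (m : ℤ) : Vsp P D m →ₗ[ℝ] Vsp P D m →ₗ[ℝ] ℝ :=
  have hmem : ∀ G : Vsp P D m, MemLp (fun h => G.1 (pb (D.θ m) h)) 2 (mu0 P) := fun G =>
    (G.2.pull (A' := Set.univ) (fun _ _ => trivial) (hI.1 m)).memLp
  LinearMap.mk₂ ℝ (fun F G => ∫ h, F.1 h * G.1 (pb (D.θ m) h) ∂(mu0 P))
    (by
      intro F F' G
      rw [← integral_add]
      · congr 1; ext h
        simp only [Submodule.coe_add, Pi.add_apply]; ring
      · exact F.2.memLp.integrable_mul (hmem G)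
      · exact F'.2.memLp.integrable_mul (hmem G))
    (by
      intro c F G
      rw [smul_eq_mul, ← integral_const_mul]
      congr 1; ext h
      simp only [Submodule.coe_smul, Pi.smul_apply, smul_eq_mul]; ring)
    (by
      intro F G G'
      rw [← integral_add]
      · congr 1; ext h
        simp only [Submodule.coe_add, Pi.add_apply]; ring
      · exact F.2.memLp.integrable_mul (hmem G)
      · exact F.2.memLp.integrable_mul (hmem G'))
    (by
      intro c F G
      rw [smul_eq_mul, ← integral_const_mul]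
      congr 1; ext h
      simp only [Submodule.coe_smul, Pi.smul_apply, smul_eq_mul]; ring)

theorem Bsp_apply (hI : Inv P D) (m : ℤ) (F G : Vsp P D m) :
    Bsp hI m F G = ∫ h, F.1 h * G.1 (pb (D.θ m) h) ∂(mu0 P) := rfl

theorem Bsp_le (hI : Inv P D) (m : ℤ) (F G : Vsp P D m) :
    Bsp hI m F G ≤ ((∫ h, F.1 h ^ 2 ∂(mu0 P)) + ∫ h, G.1 h ^ 2 ∂(mu0 P)) / 2 := by
  rw [Bsp_apply]
  refine (int_mul_le F.2.memLp
    (G.2.pull (A' := Set.univ) (fun _ _ => trivial) (hI.1 m)).memLp).trans ?_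
  have : ∫ h, G.1 (pb (D.θ m) h) ^ 2 ∂(mu0 P) = ∫ h, G.1 h ^ 2 ∂(mu0 P) :=
    int_pull (hI.1 m) (F := fun h => G.1 h ^ 2) (G.2.measurable.pow_const 2)
  rw [this]

theorem Tsp_pow_apply (hD : D.Good) (hI : Inv P D) (m : ℤ) (F : Vsp P D m) (n : ℕ) (h : Hgt) :
    ((Tsp hD hI m ^ n) F).1 h = tr D n F.1 h := by
  induction n generalizing h with
  | zero =>
    show F.1 h = F.1 (pb (fun q => q + 0 • D.s) h)
    exact congrArg F.1 (by funext q; simp [pb])
  | succ n ih =>
    rw [pow_succ', Module.End.mul_apply]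
    show ((Tsp hD hI m ^ n) F).1 (pb (fun q => q + D.s) h) = _
    rw [ih]
    refine congrArg F.1 ?_
    funext q
    show h (q + n • D.s + D.s) = h (q + (n + 1) • D.s)
    rw [add_smul, one_smul, add_assoc]

theorem Tsp_sq (hD : D.Good) (hI : Inv P D) (m : ℤ) (F : Vsp P D m) (n : ℕ) :
    ∫ h, ((Tsp hD hI m ^ n) F).1 h ^ 2 ∂(mu0 P) = ∫ h, F.1 h ^ 2 ∂(mu0 P) := by
  induction n with
  | zero => simp
  | succ n ih =>
    rw [pow_succ', Module.End.mul_apply]
    have h1 := int_pull hI.2 (F := fun h => ((Tsp hD hI m ^ n) F).1 h ^ 2)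
      (((Tsp hD hI m ^ n) F).2.measurable.pow_const 2)
    rw [← ih, ← h1]
    rfl

/-- the reflection form with the shift is a leg -/
theorem legForm (hD : D.Good) (hI : Inv P D) (hR : RP P D) (m : ℤ) :
    LegForm (Bsp hI m) (Tsp hD hI m) where
  symm F G := by
    rw [Bsp_apply, Bsp_apply]
    have hm : Measurable (fun h => F.1 h * G.1 (pb (D.θ m) h)) :=
      F.2.measurable.mul (G.2.measurable.comp (measurable_pbS _))
    rw [← int_pull (hI.1 m) hm]
    congr 1; ext h
    have : pb (D.θ m) (pb (D.θ m) h) = h := by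
      funext q
      simp only [pb, hD.θθ]
    simp only [this]; ring
  nonneg F := hR m F.1 F.2
  shift F G := by
    rw [Bsp_apply, Bsp_apply]
    have hm : Measurable (fun h => F.1 h * G.1 (pb (fun q => D.θ m q - D.s) h)) :=
      F.2.measurable.mul (G.2.measurable.comp (measurable_pbS _))
    have e : ∫ h, F.1 (pb (fun q => q + D.s) h) * G.1 (pb (D.θ m) h) ∂(mu0 P) =
        ∫ h, F.1 h * G.1 (pb (fun q => D.θ m q - D.s) h) ∂(mu0 P) := by
      rw [← int_pull hI.2 hm]
      congr 1; ext h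
      have e3 : pb (D.θ m) h = pb (fun q => D.θ m q - D.s) (pb (fun q => q + D.s) h) := by
        funext q
        show h (D.θ m q) = h (D.θ m q - D.s + D.s)
        rw [sub_add_cancel]
      rw [← e3]
    have e2 : ∀ h, (Tsp hD hI m G).1 (pb (D.θ m) h) = G.1 (pb (fun q => D.θ m q - D.s) h) := by
      intro h
      show G.1 (pb (fun q => q + D.s) (pb (D.θ m) h)) = _
      rw [pb_pbS]
      simp only [hD.θ_s]
    simp only [e2]
    exact e
  shift_nonneg F := by
    rw [Bsp_apply]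
    have e2 : ∀ h, (Tsp hD hI m F).1 (pb (D.θ m) h) = F.1 (pb (D.θ (m - 1)) h) := by
      intro h
      show F.1 (pb (fun q => q + D.s) (pb (D.θ m) h)) = _
      rw [pb_pbS]
      simp only [hD.θ_s, hD.θ_pred]
    simp only [e2]
    exact hR (m - 1) F.1 (F.2.mono fun x hx => by
      have : m ≤ D.l x := hx
      show m - 1 ≤ D.l x
      linarith)
  bdd F := ⟨∫ h, F.1 h ^ 2 ∂(mu0 P), fun n => by
    refine (Bsp_le hI m F ((Tsp hD hI m ^ n) F)).trans ?_
    rw [Tsp_sq]
    linarith⟩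

/-- correlations of `F` above and `G` below the line `l = m` -/
theorem legSeq (hD : D.Good) (hI : Inv P D) (hR : RP P D) {m : ℤ} {F G : Hgt → ℝ}
    (hF : Adm P {q | m ≤ D.l q} F) (hG : Adm P {q | D.l q ≤ m} G) :
    PolyBdd (fun i => ∫ h, G h * tr D i F h ∂(mu0 P))
      (√(∫ h, F h ^ 2 ∂(mu0 P)) * √(∫ h, G h ^ 2 ∂(mu0 P))) := by
  have hG' : Adm P {q | m ≤ D.l q} (fun h => G (pb (D.θ m) h)) :=
    hG.pull (fun x hx => by
      have : D.l x ≤ m := hx
      show m ≤ D.l (D.θ m x)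
      rw [hD.l_θ]
      linarith) (hI.1 m)
  let x : Vsp P D m := ⟨_, hG'⟩
  let y : Vsp P D m := ⟨_, hF⟩
  have hL := legForm hD hI hR m
  have b1 : Bsp hI m x x ≤ ∫ h, G h ^ 2 ∂(mu0 P) := by
    refine (Bsp_le hI m x x).trans ?_
    have e : ∫ h, x.1 h ^ 2 ∂(mu0 P) = ∫ h, G h ^ 2 ∂(mu0 P) :=
      int_pull (hI.1 m) (F := fun h => G h ^ 2) (hG.measurable.pow_const 2)
    rw [e]; linarith
  have b2 : Bsp hI m y y ≤ ∫ h, F h ^ 2 ∂(mu0 P) := by
    refine (Bsp_le hI m y y).trans ?_
    show (_ + _) / 2 ≤ _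
    linarith
  have key := hL.polyBdd x y (C := √(∫ h, F h ^ 2 ∂(mu0 P)) * √(∫ h, G h ^ 2 ∂(mu0 P))) (by
    rw [mul_comm]
    gcongr)
  have e : (fun i => ∫ h, G h * tr D i F h ∂(mu0 P)) =
      fun i => Bsp hI m x ((Tsp hD hI m ^ i) y) := by
    funext i
    rw [Bsp_apply]
    have hm2 : Measurable (fun h => G h * tr D i F h) :=
      hG.measurable.mul (hF.measurable.comp (measurable_pbS _))
    rw [← int_pull (hI.1 m) hm2]
    congr 1; ext h
    rw [Tsp_pow_apply]
  rw [e]
  exact key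

theorem map_tr (hI : Inv P D) (n : ℕ) :
    (mu0 P).map (pb (fun q => q + n • D.s)) = mu0 P := by
  induction n with
  | zero =>
    have : pb (fun q => q + 0 • D.s) = id := by
      funext h q; simp [pb]
    rw [this, Measure.map_id]
  | succ n ih =>
    have : pb (fun q => q + (n + 1) • D.s) = pb (fun q => q + n • D.s) ∘ pb (fun q => q + D.s) := by
      funext h q
      simp only [pb, Function.comp]
      congr 1
      rw [add_smul, one_smul, add_assoc]
    rw [this, ← Measure.map_map (measurable_pbS _) (measurable_pbS _), hI.2, ih]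

theorem map_tr_neg (hI : Inv P D) (n : ℕ) :
    (mu0 P).map (pb (fun q => q - n • D.s)) = mu0 P := by
  conv_lhs => rw [← map_tr hI n]
  rw [Measure.map_map (measurable_pbS _) (measurable_pbS _)]
  have : pb (fun q => q - n • D.s) ∘ pb (fun q => q + n • D.s) = id := by
    funext h q; simp [pb, Function.comp]
  rw [this, Measure.map_id]

/-- the same with a strip of width `2 N` -/
theorem legSeq' (hD : D.Good) (hI : Inv P D) (hR : RP P D) {m : ℤ} {N : ℕ} {F G : Hgt → ℝ}
    {C : ℝ} (hF : Adm P {q | m + 2 * N ≤ D.l q} F) (hG : Adm P {q | D.l q ≤ m} G)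
    (h1 : ∫ h, F h ^ 2 ∂(mu0 P) ≤ C) (h2 : ∫ h, G h ^ 2 ∂(mu0 P) ≤ C) :
    ∃ H : ℕ → ℝ, PolyBdd H C ∧ ∀ i, ∫ h, G h * tr D i F h ∂(mu0 P) = H (N + i) := by
  have hls : ∀ n : ℕ, D.l (n • D.s) = 2 * n := by
    intro n
    induction n with
    | zero =>
      have h0 := hD.l_add 0 0
      rw [add_zero] at h0
      have : D.l 0 = 0 := by linarith
      simpa using this
    | succ n ih =>
      rw [add_smul, one_smul, hD.l_add, ih, hD.l_s]
      push_cast; ring
  have hF' : Adm P {q | m ≤ D.l q} (fun h => F (pb (fun q => q - N • D.s) h)) :=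
    hF.pull (fun x hx => by
      have h3 : m + 2 * N ≤ D.l x := hx
      have h4 := hD.l_add (x - N • D.s) (N • D.s)
      rw [sub_add_cancel, hls] at h4
      show m ≤ D.l (x - N • D.s)
      linarith) (map_tr_neg hI N)
  have hC : 0 ≤ C := le_trans (integral_nonneg fun h => sq_nonneg _) h1
  refine ⟨fun i => ∫ h, G h * tr D i (fun h => F (pb (fun q => q - N • D.s) h)) h ∂(mu0 P),
    fun p M hM => ?_, fun i => ?_⟩
  · have hM0 : 0 ≤ M := (abs_nonneg _).trans (hM 0 (by simp))
    refine (legSeq hD hI hR hF' hG p M hM).trans ?_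
    have e : ∫ h, F (pb (fun q => q - N • D.s) h) ^ 2 ∂(mu0 P) = ∫ h, F h ^ 2 ∂(mu0 P) :=
      int_pull (map_tr_neg hI N) (F := fun h => F h ^ 2) (hF.measurable.pow_const 2)
    rw [e]
    have : √(∫ h, F h ^ 2 ∂(mu0 P)) * √(∫ h, G h ^ 2 ∂(mu0 P)) ≤ C := by
      calc _ ≤ √C * √C := by gcongr
        _ = C := Real.mul_self_sqrt hC
    gcongr
  · congr 1; ext h
    have e3 : pb (fun q => q + i • D.s) h =
        pb (fun q => q - N • D.s) (pb (fun q => q + (N + i) • D.s) h) := by
      funext q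
      show h (q + i • D.s) = h (q - N • D.s + (N + i) • D.s)
      rw [add_smul]
      congr 1
      abel
    show G h * F (pb (fun q => q + i • D.s) h) = G h * F (pb (fun q => q - N • D.s)
      (pb (fun q => q + (N + i) • D.s) h))
    rw [← e3]

theorem norm_sq_int_re {A : Set (ℤ × ℤ)} {F : Hgt → ℂ} (hF : Adm P A F) {C : ℝ}
    (h : ∫ x, ‖F x‖ ^ 2 ∂(mu0 P) ≤ C) : ∫ x, (F x).re ^ 2 ∂(mu0 P) ≤ C := by
  refine le_trans (integral_mono hF.reS.memLp.integrable_sq hF.sq_int fun x => ?_) h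
  have := Complex.abs_re_le_norm (F x)
  show (F x).re ^ 2 ≤ ‖F x‖ ^ 2
  rw [← sq_abs]
  gcongr

theorem norm_sq_int_im {A : Set (ℤ × ℤ)} {F : Hgt → ℂ} (hF : Adm P A F) {C : ℝ}
    (h : ∫ x, ‖F x‖ ^ 2 ∂(mu0 P) ≤ C) : ∫ x, (F x).im ^ 2 ∂(mu0 P) ≤ C := by
  refine le_trans (integral_mono hF.imS.memLp.integrable_sq hF.sq_int fun x => ?_) h
  have := Complex.abs_im_le_norm (F x)
  show (F x).im ^ 2 ≤ ‖F x‖ ^ 2
  rw [← sq_abs]
  gcongr

theorem s_leg : S_leg := by
  intro P _ D hD hI hR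
  refine ⟨?_, ?_⟩
  · intro m F G hF hG p c hc
    have := legSeq hD hI hR hF hG p c hc
    rw [P153.RP.Lf_apply, Polynomial.sum_def] at this
    rw [mul_assoc]
    refine le_trans (le_of_eq ?_) this
    congr 1
    exact Finset.sum_congr rfl fun _ _ => mul_comm _ _
  · intro N m F G C hF hG h1 h2 hlarge _
    obtain ⟨k0, hk⟩ := hlarge
    -- integrability of the product of two real admissible functionals
    have hprod : ∀ {A B : Set (ℤ × ℤ)} {f g : Hgt → ℝ}, Adm P A f → Adm P B g →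
        Integrable (fun h => f h * g h) (mu0 P) := fun ha hb =>
      ha.memLp.integrable_mul hb.memLp
    have htr : ∀ (n i : ℕ) {A : Set (ℤ × ℤ)} {f : Hgt → ℝ}, Adm P A f →
        Adm P Set.univ (tr D i f) := fun n i A f ha =>
      ha.pull (fun _ _ => trivial) (map_tr hI i)
    have hre : ∀ n i, (∫ h, G n h * tr D i (F n) h ∂(mu0 P)).re =
        (∫ h, (G n h).re * tr D i (fun h => (F n h).re) h ∂(mu0 P)) -
        ∫ h, (G n h).im * tr D i (fun h => (F n h).im) h ∂(mu0 P) := by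
      intro n i
      have hI1 : Integrable (fun h => (G n h).re * tr D i (fun h => (F n h).re) h) (mu0 P) :=
        hprod (hG n).reS (htr n i (hF n).reS)
      have hI2 : Integrable (fun h => (G n h).im * tr D i (fun h => (F n h).im) h) (mu0 P) :=
        hprod (hG n).imS (htr n i (hF n).imS)
      have hI3 : Integrable (fun h => (G n h).re * tr D i (fun h => (F n h).im) h) (mu0 P) :=
        hprod (hG n).reS (htr n i (hF n).imS)
      have hI4 : Integrable (fun h => (G n h).im * tr D i (fun h => (F n h).re) h) (mu0 P) :=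
        hprod (hG n).imS (htr n i (hF n).reS)
      have e : (fun h => G n h * tr D i (F n) h) = fun h =>
          (((G n h).re * tr D i (fun h => (F n h).re) h -
            (G n h).im * tr D i (fun h => (F n h).im) h : ℝ) : ℂ) +
          (((G n h).re * tr D i (fun h => (F n h).im) h +
            (G n h).im * tr D i (fun h => (F n h).re) h : ℝ) : ℂ) * Complex.I := by
        funext h
        apply Complex.ext <;> simp [tr, Complex.mul_re, Complex.mul_im]
      rw [e, integral_add (hI1.sub hI2).ofReal ((hI3.add hI4).ofReal.mul_const _),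
        integral_mul_const, integral_complex_ofReal, integral_complex_ofReal,
        integral_sub hI1 hI2]
      simp
    have him : ∀ n i, (∫ h, G n h * tr D i (F n) h ∂(mu0 P)).im =
        (∫ h, (G n h).re * tr D i (fun h => (F n h).im) h ∂(mu0 P)) +
        ∫ h, (G n h).im * tr D i (fun h => (F n h).re) h ∂(mu0 P) := by
      intro n i
      have hI1 : Integrable (fun h => (G n h).re * tr D i (fun h => (F n h).re) h) (mu0 P) :=
        hprod (hG n).reS (htr n i (hF n).reS)
      have hI2 : Integrable (fun h => (G n h).im * tr D i (fun h => (F n h).im) h) (mu0 P) :=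
        hprod (hG n).imS (htr n i (hF n).imS)
      have hI3 : Integrable (fun h => (G n h).re * tr D i (fun h => (F n h).im) h) (mu0 P) :=
        hprod (hG n).reS (htr n i (hF n).imS)
      have hI4 : Integrable (fun h => (G n h).im * tr D i (fun h => (F n h).re) h) (mu0 P) :=
        hprod (hG n).imS (htr n i (hF n).reS)
      have e : (fun h => G n h * tr D i (F n) h) = fun h =>
          (((G n h).re * tr D i (fun h => (F n h).re) h -
            (G n h).im * tr D i (fun h => (F n h).im) h : ℝ) : ℂ) +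
          (((G n h).re * tr D i (fun h => (F n h).im) h +
            (G n h).im * tr D i (fun h => (F n h).re) h : ℝ) : ℂ) * Complex.I := by
        funext h
        apply Complex.ext <;> simp [tr, Complex.mul_re, Complex.mul_im]
      rw [e, integral_add (hI1.sub hI2).ofReal ((hI3.add hI4).ofReal.mul_const _),
        integral_mul_const, integral_complex_ofReal, integral_complex_ofReal,
        integral_add hI3 hI4]
      simp
    have tr0 : ∀ n h, tr D 0 (F n) h = F n h := by
      intro n h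
      exact congrArg (F n) (by funext q; simp [pb])
    have key1 : Tendsto (fun n => (∫ h, G n h * tr D 0 (F n) h ∂(mu0 P)).re) atTop (𝓝 0) := by
      refine leg_limit_seq (fun n i => (∫ h, G n h * tr D i (F n) h ∂(mu0 P)).re) N (C + C)
        (fun n => ?_) k0 (fun k hk0 => ?_)
      · obtain ⟨H, hH, e⟩ := legSeq' hD hI hR (hF n).reS (hG n).reS
          (norm_sq_int_re (hF n) (h1 n)) (norm_sq_int_re (hG n) (h2 n))
        obtain ⟨H', hH', e'⟩ := legSeq' hD hI hR (hF n).imS (hG n).imS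
          (norm_sq_int_im (hF n) (h1 n)) (norm_sq_int_im (hG n) (h2 n))
        exact ⟨_, hH.sub hH', fun i => by rw [hre, e, e']⟩
      · exact (Complex.continuous_re.tendsto _).comp (hk k hk0)
    have key2 : Tendsto (fun n => (∫ h, G n h * tr D 0 (F n) h ∂(mu0 P)).im) atTop (𝓝 0) := by
      refine leg_limit_seq (fun n i => (∫ h, G n h * tr D i (F n) h ∂(mu0 P)).im) N (C + C)
        (fun n => ?_) k0 (fun k hk0 => ?_)
      · obtain ⟨H, hH, e⟩ := legSeq' hD hI hR (hF n).imS (hG n).reS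
          (norm_sq_int_im (hF n) (h1 n)) (norm_sq_int_re (hG n) (h2 n))
        obtain ⟨H', hH', e'⟩ := legSeq' hD hI hR (hF n).reS (hG n).imS
          (norm_sq_int_re (hF n) (h1 n)) (norm_sq_int_im (hG n) (h2 n))
        exact ⟨_, hH.add hH', fun i => by rw [him, e, e']⟩
      · exact (Complex.continuous_im.tendsto _).comp (hk k hk0)
    simp only [tr0] at key1 key2
    have key3 := (Complex.continuous_ofReal.tendsto _).comp key1
    have key4 := (Complex.continuous_ofReal.tendsto _).comp key2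
    have := key3.add (key4.mul_const Complex.I)
    simp only [Function.comp_def, Complex.re_add_im, Complex.ofReal_zero, zero_mul,
      add_zero] at this
    exact this

end Vale.Agent.P145.FA
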