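import Vale.Agent.P145.FA.Hp1
import Vale.Agent.P145.FP.ConvB
import Vale.Agent.P152.GFF.S.Final

/-!
P145, block F-A: lattice approximations of linear functionals on the even faces and their
characteristic functions in the plane.
-/

namespace Vale.Agent.P145.FA

open Finset Filter Topology MeasureTheory
open Vale.Agent.P152
open Vale.Agent.P152.GFF.S (hcell hbox hint Test gffCov)

/-- Lattice functionals that approximate `∫ h f` by `2 δ² ∑ h(q) f(δ q)` over the even faces. -/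
def App (δ : ℕ → ℝ) (f : ℝ × ℝ → ℝ) (w : ℕ → (ℤ × ℤ) →₀ ℝ) : Prop :=
  ∃ R C : ℝ, 0 < R ∧ 0 ≤ C ∧ ∀ n, (∀ q : ℤ × ℤ, w n q ≠ 0 → |δ n * q.1| ≤ R ∧ |δ n * q.2| ≤ R) ∧
    ∀ q : ℤ × ℤ, |w n q - 2 * δ n ^ 2 * (FP.ev q * f (δ n * q.1, δ n * q.2))| ≤ C * δ n ^ 3

section App

variable {δ : ℕ → ℝ} {f g : ℝ × ℝ → ℝ} {w v : ℕ → (ℤ × ℤ) →₀ ℝ}

lemma App.add (hw : App δ f w) (hv : App δ g v) :
    App δ (fun x => f x + g x) (fun n => w n + v n) := by
  obtain ⟨R, C, hR, hC, h⟩ := hw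
  obtain ⟨R', C', hR', hC', h'⟩ := hv
  refine ⟨max R R', C + C', lt_max_of_lt_left hR, by positivity, fun n => ⟨fun q hq => ?_, fun q => ?_⟩⟩
  · rw [Finsupp.add_apply] at hq
    by_cases h0 : w n q = 0
    · have h1 : v n q ≠ 0 := by
        intro h1
        rw [h0, h1, add_zero] at hq
        exact hq rfl
      have h2 := (h' n).1 q h1
      exact ⟨h2.1.trans (le_max_right _ _), h2.2.trans (le_max_right _ _)⟩
    · have h2 := (h n).1 q h0
      exact ⟨h2.1.trans (le_max_left _ _), h2.2.trans (le_max_left _ _)⟩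
  · have h1 := (h n).2 q
    have h2 := (h' n).2 q
    rw [Finsupp.add_apply]
    have e : w n q + v n q - 2 * δ n ^ 2 * (FP.ev q * (f (δ n * q.1, δ n * q.2) +
        g (δ n * q.1, δ n * q.2))) = (w n q - 2 * δ n ^ 2 * (FP.ev q * f (δ n * q.1, δ n * q.2))) +
        (v n q - 2 * δ n ^ 2 * (FP.ev q * g (δ n * q.1, δ n * q.2))) := by ring
    rw [e]
    refine (abs_add_le _ _).trans ?_
    rw [add_mul]
    exact add_le_add h1 h2

lemma App.smul (c : ℝ) (hw : App δ f w) : App δ (fun x => c * f x) (fun n => c • w n) := by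
  obtain ⟨R, C, hR, hC, h⟩ := hw
  refine ⟨R, |c| * C, hR, by positivity, fun n => ⟨fun q hq => (h n).1 q ?_, fun q => ?_⟩⟩
  · intro h0
    rw [Finsupp.smul_apply, h0, smul_zero] at hq
    exact hq rfl
  · rw [Finsupp.smul_apply, smul_eq_mul]
    have e : c * w n q - 2 * δ n ^ 2 * (FP.ev q * (c * f (δ n * q.1, δ n * q.2))) =
        c * (w n q - 2 * δ n ^ 2 * (FP.ev q * f (δ n * q.1, δ n * q.2))) := by ring
    rw [e, abs_mul, show |c| * C * δ n ^ 3 = |c| * (C * δ n ^ 3) by ring]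
    exact mul_le_mul_of_nonneg_left ((h n).2 q) (abs_nonneg _)

lemma App.sub (hw : App δ f w) (hv : App δ g v) :
    App δ (fun x => f x - g x) (fun n => w n - v n) := by
  have h := hw.add (hv.smul (-1))
  have e1 : (fun x => f x + -1 * g x) = fun x => f x - g x := by funext x; ring
  have e2 : (fun n => w n + (-1 : ℝ) • v n) = fun n => w n - v n := by
    funext n; ext q; simp [sub_eq_add_neg]
  rwa [e1, e2] at h

lemma rf_apply (w : (ℤ × ℤ) →₀ ℝ) (q : ℤ × ℤ) : rf w q = w (q.1, -q.2) := by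
  unfold rf
  have hinj : Function.Injective (fun q : ℤ × ℤ => (q.1, -q.2)) := by
    intro a b hab
    simp only [Prod.mk.injEq, neg_inj] at hab
    exact Prod.ext hab.1 hab.2
  have h := Finsupp.mapDomain_apply hinj w (q.1, -q.2)
  simpa using h

lemma App.rf (hw : App δ f w) : App δ (fun x => f (x.1, -x.2)) (fun n => FA.rf (w n)) := by
  obtain ⟨R, C, hR, hC, h⟩ := hw
  refine ⟨R, C, hR, hC, fun n => ⟨fun q hq => ?_, fun q => ?_⟩⟩
  · rw [rf_apply] at hq
    have := (h n).1 _ hq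
    simp only [Int.cast_neg, mul_neg, abs_neg] at this
    exact this
  · rw [rf_apply]
    have h1 := (h n).2 (q.1, -q.2)
    have e : FP.ev (q.1, -q.2) = FP.ev q := by
      unfold FP.ev
      by_cases hq : (q.1 + q.2) % 2 = 0
      · rw [if_pos hq, if_pos (by simp only; omega)]
      · rw [if_neg hq, if_neg (by simp only; omega)]
    rw [e] at h1
    simp only [Int.cast_neg, mul_neg] at h1
    exact h1

end App

variable {P : Measure (Ori (ℤ × ℤ))} [IsProbabilityMeasure P]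

lemma EA0 (S : Finset (ℤ × ℤ)) (K : ℤ × ℤ → ℝ) {k M : ℝ} (hk : ∀ q ∈ S, |K q| ≤ k)
    (hS : ∀ q ∈ S, ∫ ω, |(pth ω q : ℝ)| ∂P ≤ M) :
    ∫ ω, |∑ q ∈ S, K q * (pth ω q : ℝ)| ∂P ≤ S.card * (M * k) := by
  have hint : ∀ q ∈ S, Integrable (fun ω => |K q| * |(pth ω q : ℝ)|) P := fun q _ =>
    (pth_integrable q).abs.const_mul _
  have i1 : Integrable (fun ω => |∑ q ∈ S, K q * (pth ω q : ℝ)|) P :=
    (integrable_finsetSum _ (fun q _ => (pth_integrable q).const_mul _)).abs
  calc ∫ ω, |∑ q ∈ S, K q * (pth ω q : ℝ)| ∂P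
      ≤ ∫ ω, ∑ q ∈ S, |K q| * |(pth ω q : ℝ)| ∂P := by
        refine integral_mono i1 (integrable_finsetSum _ hint) (fun ω => ?_)
        refine (Finset.abs_sum_le_sum_abs _ _).trans (Finset.sum_le_sum (fun q _ => ?_))
        rw [abs_mul]
    _ = ∑ q ∈ S, |K q| * ∫ ω, |(pth ω q : ℝ)| ∂P := by
        rw [integral_finsetSum _ hint]
        exact Finset.sum_congr rfl (fun q _ => integral_const_mul _ _)
    _ ≤ ∑ q ∈ S, M * k := Finset.sum_le_sum (fun q hq => by
        have h1 := hk q hq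
        have h2 := hS q hq
        have h3 : 0 ≤ ∫ ω, |(pth ω q : ℝ)| ∂P := integral_nonneg fun ω => abs_nonneg _
        have h4 : |K q| * ∫ ω, |(pth ω q : ℝ)| ∂P ≤ k * M :=
          mul_le_mul h1 h2 h3 ((abs_nonneg _).trans h1)
        linarith)
    _ = S.card * (M * k) := by rw [Finset.sum_const, nsmul_eq_mul]

/-- The lattice functional is close to the integral. -/
theorem app_close (hP : FP.Hyp P) {δ : ℕ → ℝ} (hδ : Tendsto δ atTop (𝓝[>] 0)) {g : ℝ × ℝ → ℝ}
    {v : ℕ → (ℤ × ℤ) →₀ ℝ} (hv : App δ g v) (hg : Integrable g) {R0 F L : ℝ} (hR0 : 0 < R0)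
    (hR : ∀ x : ℝ × ℝ, g x ≠ 0 → |x.1| ≤ R0 ∧ |x.2| ≤ R0) (hF : ∀ x, |g x| ≤ F) (hL0 : 0 ≤ L)
    (hL : ∀ x y, |g x - g y| ≤ L * ‖x - y‖) :
    Tendsto (fun n => ∫ ω, |ev (v n) (pth ω) - hint (pth ω) (δ n) g| ∂P) atTop (𝓝 0) := by
  obtain ⟨R1, C0, hR1, hC0, hv⟩ := hv
  set R : ℝ := max R0 R1 with hRd
  have hRpos : 0 < R := lt_max_of_lt_left hR0
  have hR' : ∀ x : ℝ × ℝ, g x ≠ 0 → |x.1| ≤ R ∧ |x.2| ≤ R := fun x hx =>
    ⟨(hR x hx).1.trans (le_max_left _ _), (hR x hx).2.trans (le_max_left _ _)⟩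
  have hxs := (FP.xs_close hP hg hRpos hR' hF hL0 hL).comp hδ
  obtain ⟨C, hC, hmom⟩ := FP.pth_moment hP
  set A0 : ℝ := 2 * R + 7 with hA0
  have hA0' : 7 < A0 := by linarith
  -- the error
  have t1 : Tendsto (fun δ : ℝ => A0 ^ 2 * C0 * (δ * ((1 + C + C * Real.log A0) / 2) -
      C / 2 * (Real.log δ * δ))) (𝓝[>] 0) (𝓝 0) := by
    have a1 : Tendsto (fun δ : ℝ => δ * ((1 + C + C * Real.log A0) / 2)) (𝓝[>] 0) (𝓝 0) := by
      have := (tendsto_id (x := 𝓝 (0 : ℝ))).mul_const ((1 + C + C * Real.log A0) / 2)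
      rw [zero_mul] at this
      exact this.mono_left nhdsWithin_le_nhds
    have a2 : Tendsto (fun δ : ℝ => Real.log δ * δ) (𝓝[>] 0) (𝓝 0) := by
      have := tendsto_log_mul_rpow_nhdsGT_zero zero_lt_one
      simpa only [Real.rpow_one] using this
    have := (a1.sub (a2.const_mul (C / 2))).const_mul (A0 ^ 2 * C0)
    simpa using this
  have t2 := (t1.comp hδ).add hxs
  rw [add_zero] at t2
  have hpos : ∀ᶠ n in atTop, 0 < δ n := hδ.eventually self_mem_nhdsWithin
  have hle : ∀ᶠ n in atTop, δ n ≤ 1 := hδ.eventually (mem_nhdsWithin_of_mem_nhds (Iic_mem_nhds one_pos))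
  refine squeeze_zero' (Eventually.of_forall fun n => integral_nonneg fun ω => abs_nonneg _) ?_ t2
  filter_upwards [hpos, hle] with n hn hn1
  simp only [Function.comp_apply]
  set d := δ n with hd
  set N := FP.NN R d with hN
  have hNb := FP.NN_le hRpos hn hn1
  rw [← hN] at hNb
  have hNge := FP.NN_ge R d
  rw [← hN] at hNge
  set Y : ℝ := 2 * ((N + 1 : ℕ) : ℝ) + 1 with hY
  have hY0 : 0 < Y := by positivity
  have hlog : Real.log (2 * ((N + 1 : ℕ) : ℝ)) ≤ Real.log A0 - Real.log d := by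
    rw [← Real.log_div (by linarith) hn.ne']
    refine Real.log_le_log (by positivity) ?_
    rw [le_div_iff₀ hn]
    nlinarith
  -- the difference as a sum
  have hmem : ∀ q : ℤ × ℤ, |d * q.1| ≤ R ∧ |d * q.2| ≤ R → q ∈ hbox (N + 1) := by
    intro q hq
    have key : ∀ a : ℤ, |d * a| ≤ R → a ∈ Finset.Icc (-((N + 1 : ℕ) : ℤ)) ((N + 1 : ℕ) : ℤ) := by
      intro a ha
      rw [abs_mul, abs_of_pos hn] at ha
      have h1 : |(a : ℝ)| ≤ R / d := by rw [le_div_iff₀ hn]; linarith [mul_comm d |(a : ℝ)|]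
      have h2 : |(a : ℝ)| ≤ ((N + 1 : ℕ) : ℝ) := by push_cast; linarith
      have h3 : |a| ≤ ((N + 1 : ℕ) : ℤ) := by exact_mod_cast h2
      rw [Finset.mem_Icc]
      exact abs_le.1 h3
    exact Finset.mem_product.2 ⟨key _ hq.1, key _ hq.2⟩
  set K : ℤ × ℤ → ℝ := fun q => v n q - 2 * d ^ 2 * (FP.ev q * g (d * q.1, d * q.2)) with hK
  have hdiff : ∀ ω : Ori (ℤ × ℤ), ev (v n) (pth ω) - FP.xs (pth ω) d g (N + 1) =
      ∑ q ∈ hbox (N + 1), K q * (pth ω q : ℝ) := by
    intro ω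
    have e1 : ev (v n) (pth ω) = ∑ q ∈ hbox (N + 1), v n q * (pth ω q : ℝ) := by
      unfold ev
      refine Finsupp.sum_of_support_subset _ (fun q hq => ?_) _ (fun q _ => by simp)
      rw [Finsupp.mem_support_iff] at hq
      have := (hv n).1 q hq
      exact hmem q ⟨this.1.trans (le_max_right _ _), this.2.trans (le_max_right _ _)⟩
    rw [e1]
    unfold FP.xs
    rw [Finset.mul_sum, ← Finset.sum_sub_distrib]
    refine Finset.sum_congr rfl fun q _ => ?_
    rw [hK]; ring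
  have hlog0 : 0 ≤ Real.log (2 * ((N + 1 : ℕ) : ℝ)) := by
    refine Real.log_nonneg ?_
    have : (1 : ℝ) ≤ ((N + 1 : ℕ) : ℝ) := by push_cast; linarith [Nat.cast_nonneg (α := ℝ) N]
    linarith
  have hA := EA0 (P := P) (hbox (N + 1)) K (k := C0 * d ^ 3)
    (M := (1 + C * (1 + (Real.log A0 - Real.log d))) / 2) (fun q _ => (hv n).2 q)
    (fun q hq => by
      refine (FP.abs_pth_int q).trans ?_
      have h1 := hmom (N + 1) q hq (by omega)
      have h2 : C * (1 + Real.log (2 * ((N + 1 : ℕ) : ℝ))) ≤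
          C * (1 + (Real.log A0 - Real.log d)) := mul_le_mul_of_nonneg_left (by linarith) hC
      linarith)
  have hcard : (((hbox (N + 1)).card : ℕ) : ℝ) = Y ^ 2 := FP.hbox_card _
  have hA' : ∫ ω, |∑ q ∈ hbox (N + 1), K q * (pth ω q : ℝ)| ∂P ≤
      A0 ^ 2 * C0 * (d * ((1 + C + C * Real.log A0) / 2) - C / 2 * (Real.log d * d)) := by
    refine hA.trans ?_
    rw [hcard]
    have h1 : 0 ≤ d * ((1 + C * (1 + (Real.log A0 - Real.log d))) / 2) := by
      refine mul_nonneg hn.le ?_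
      have h3 : 0 ≤ C * (1 + (Real.log A0 - Real.log d)) := mul_nonneg hC (by linarith)
      linarith
    have h4 : (d * Y) ^ 2 ≤ A0 ^ 2 := pow_le_pow_left₀ (by positivity) hNb 2
    calc Y ^ 2 * ((1 + C * (1 + (Real.log A0 - Real.log d))) / 2 * (C0 * d ^ 3))
        = (d * Y) ^ 2 * (C0 * (d * ((1 + C * (1 + (Real.log A0 - Real.log d))) / 2))) := by
          ring
      _ ≤ A0 ^ 2 * (C0 * (d * ((1 + C * (1 + (Real.log A0 - Real.log d))) / 2))) :=
          mul_le_mul_of_nonneg_right h4 (mul_nonneg hC0 h1)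
      _ = _ := by ring
  have i1 : Integrable (fun ω => |∑ q ∈ hbox (N + 1), K q * (pth ω q : ℝ)|) P :=
    (integrable_finsetSum _ (fun q _ => (pth_integrable q).const_mul _)).abs
  have i2 : Integrable (fun ω => |FP.xs (pth ω) d g (N + 1) - hint (pth ω) d g|) P := by
    have e : ∀ ω : Ori (ℤ × ℤ), FP.xs (pth ω) d g (N + 1) - hint (pth ω) d g =
        ∑ q ∈ hbox (N + 1), (2 * d ^ 2 * (FP.ev q * g (d * q.1, d * q.2)) - FP.cI g d q) *
          (pth ω q : ℝ) := by
      intro ω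
      have hN' : R / d + 1 ≤ ((N + 1 : ℕ) : ℝ) := by push_cast; linarith
      rw [P152.GFF.S.hint_cells (pth ω) hn hg hR' hN']
      unfold FP.xs
      rw [Finset.mul_sum, ← Finset.sum_sub_distrib]
      refine Finset.sum_congr rfl fun q _ => ?_
      unfold FP.cI
      ring
    simp only [e]
    exact (integrable_finsetSum _ (fun q _ => (pth_integrable q).const_mul _)).abs
  calc ∫ ω, |ev (v n) (pth ω) - hint (pth ω) d g| ∂P
      ≤ ∫ ω, (|∑ q ∈ hbox (N + 1), K q * (pth ω q : ℝ)| +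
          |FP.xs (pth ω) d g (N + 1) - hint (pth ω) d g|) ∂P := by
        refine integral_mono_of_nonneg (Eventually.of_forall (fun ω => abs_nonneg _))
          (i1.add i2) (Eventually.of_forall fun ω => ?_)
        simp only
        rw [← hdiff]
        refine le_trans (le_of_eq ?_) (abs_add_le _ _)
        congr 1
        ring
    _ = _ := integral_add i1 i2
    _ ≤ _ := add_le_add hA' le_rfl

/-- Comparison of characteristic functions in `L¹`. -/
lemma char_close1 {X Y : Ori (ℤ × ℤ) → ℝ} (hX : AEStronglyMeasurable X P)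
    (hY : AEStronglyMeasurable Y P) (hi : Integrable (fun ω => |X ω - Y ω|) P) :
    ‖∫ ω, Complex.exp (Complex.I * (X ω : ℂ)) ∂P - ∫ ω, Complex.exp (Complex.I * (Y ω : ℂ)) ∂P‖
      ≤ ∫ ω, |X ω - Y ω| ∂P := by
  have hmX : AEStronglyMeasurable (fun ω => Complex.exp (Complex.I * (X ω : ℂ))) P :=
    (Complex.continuous_exp.comp (continuous_const.mul
      Complex.continuous_ofReal)).comp_aestronglyMeasurable hX
  have hmY : AEStronglyMeasurable (fun ω => Complex.exp (Complex.I * (Y ω : ℂ))) P :=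
    (Complex.continuous_exp.comp (continuous_const.mul
      Complex.continuous_ofReal)).comp_aestronglyMeasurable hY
  have hn : ∀ x : ℝ, ‖Complex.exp (Complex.I * (x : ℂ))‖ = 1 := by
    intro x
    rw [mul_comm]
    exact Complex.norm_exp_ofReal_mul_I x
  have iX : Integrable (fun ω => Complex.exp (Complex.I * (X ω : ℂ))) P :=
    Integrable.of_bound hmX 1 (Eventually.of_forall (fun ω => (hn _).le))
  have iY : Integrable (fun ω => Complex.exp (Complex.I * (Y ω : ℂ))) P :=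
    Integrable.of_bound hmY 1 (Eventually.of_forall (fun ω => (hn _).le))
  rw [← integral_sub iX iY]
  refine (norm_integral_le_integral_norm _).trans (integral_mono (iX.sub iY).norm hi fun ω => ?_)
  simp only
  have e : Complex.exp (Complex.I * (X ω : ℂ)) - Complex.exp (Complex.I * (Y ω : ℂ))
      = Complex.exp (Complex.I * (Y ω : ℂ)) *
        (Complex.exp (Complex.I * ((X ω - Y ω : ℝ) : ℂ)) - 1) := by
    rw [mul_sub, ← Complex.exp_add, mul_one]
    congr 2
    push_cast; ring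
  rw [e, norm_mul, hn, one_mul]
  have := Real.norm_exp_I_mul_ofReal_sub_one_le (x := X ω - Y ω)
  rw [Real.norm_eq_abs] at this
  exact this

end Vale.Agent.P145.FA
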