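import Vale.Agent.P145.FA.Sd2

/-!
P145, block F-A: the lattice functionals `Wd δ f a`, `∑ 2 δ² h(q) f(δ (q + a))` over the even
faces `q`; normalised functionals of mass one and of mass zero.
-/

namespace Vale.Agent.P145.FA

open Finset Filter Topology MeasureTheory
open Vale.Agent.P152
open Vale.Agent.P152.GFF.S (hcell hbox hint Test gffCov)
open Vale.Agent.P145.PT (Sm TestOn lap)

/-- Value of the lattice functional. -/
noncomputable def wd (δ : ℝ) (f : ℝ × ℝ → ℝ) (a q : ℤ × ℤ) : ℝ :=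
  2 * δ ^ 2 * (FP.ev q * f (δ * ((q.1 + a.1 : ℤ) : ℝ), δ * ((q.2 + a.2 : ℤ) : ℝ)))

open Classical in
/-- The lattice functional `2 δ² ∑ h(q) f(δ (q + a))` over the even faces. -/
noncomputable def Wd (δ : ℝ) (f : ℝ × ℝ → ℝ) (a : ℤ × ℤ) : (ℤ × ℤ) →₀ ℝ :=
  if h : {q | wd δ f a q ≠ 0}.Finite then
    Finsupp.onFinset h.toFinset (wd δ f a) (fun q hq => by simpa using hq)
  else 0

lemma abs_int_le {δ R : ℝ} (hδ : 0 < δ) {a : ℤ} (h : |δ * (a : ℝ)| ≤ R) :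
    |(a : ℝ)| ≤ R / δ := by
  rw [abs_mul, abs_of_pos hδ] at h
  rw [le_div_iff₀ hδ]
  linarith [mul_comm δ |(a : ℝ)|]

lemma mem_hbox_of {δ R : ℝ} (hδ : 0 < δ) {N : ℕ} (hN : R / δ ≤ N) {q : ℤ × ℤ}
    (h : |δ * (q.1 : ℝ)| ≤ R ∧ |δ * (q.2 : ℝ)| ≤ R) : q ∈ hbox N := by
  have key : ∀ a : ℤ, |δ * (a : ℝ)| ≤ R → a ∈ Finset.Icc (-(N : ℤ)) (N : ℤ) := by
    intro a ha
    have h2 : |(a : ℝ)| ≤ (N : ℝ) := (abs_int_le hδ ha).trans hN
    have h3 : |a| ≤ (N : ℤ) := by exact_mod_cast h2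
    rw [Finset.mem_Icc]
    exact abs_le.1 h3
  exact Finset.mem_product.2 ⟨key _ h.1, key _ h.2⟩

lemma wd_fin {δ : ℝ} (hδ : 0 < δ) {f : ℝ × ℝ → ℝ} (cf : HasCompactSupport f) (a : ℤ × ℤ) :
    {q | wd δ f a q ≠ 0}.Finite := by
  obtain ⟨R, hR, h⟩ := P152.GFF.S.bound_of_compact cf
  obtain ⟨N, hN⟩ := exists_nat_ge (R / δ)
  have h1 : {q : ℤ × ℤ | q + a ∈ hbox N}.Finite := by
    refine ((hbox N).finite_toSet.image (fun q => q - a)).subset fun q hq => ?_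
    exact ⟨q + a, hq, by simp⟩
  refine h1.subset fun q hq => ?_
  have h2 : f (δ * ((q.1 + a.1 : ℤ) : ℝ), δ * ((q.2 + a.2 : ℤ) : ℝ)) ≠ 0 := by
    intro h0
    apply hq
    unfold wd
    rw [h0]
    ring
  exact mem_hbox_of hδ hN (h _ h2)

lemma Wd_apply {δ : ℝ} (hδ : 0 < δ) {f : ℝ × ℝ → ℝ} (cf : HasCompactSupport f) (a q : ℤ × ℤ) :
    Wd δ f a q =
      2 * δ ^ 2 * (FP.ev q * f (δ * ((q.1 + a.1 : ℤ) : ℝ), δ * ((q.2 + a.2 : ℤ) : ℝ))) := by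
  unfold Wd
  rw [dif_pos (wd_fin hδ cf a), Finsupp.onFinset_apply]
  rfl

lemma Wd_supp {δ : ℝ} (hδ : 0 < δ) {f : ℝ × ℝ → ℝ} (cf : HasCompactSupport f) {a q : ℤ × ℤ}
    (hq : Wd δ f a q ≠ 0) : (q.1 + q.2) % 2 = 0 ∧
      f (δ * ((q.1 + a.1 : ℤ) : ℝ), δ * ((q.2 + a.2 : ℤ) : ℝ)) ≠ 0 := by
  rw [Wd_apply hδ cf] at hq
  constructor
  · by_contra h
    apply hq
    unfold FP.ev
    rw [if_neg h]
    ring
  · intro h
    apply hq
    rw [h]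
    ring

theorem app_Wd {δ : ℕ → ℝ} (hδ : ∀ n, 0 < δ n) (hδ1 : ∀ n, δ n ≤ 1) {f : ℝ × ℝ → ℝ}
    (cf : HasCompactSupport f) {L : ℝ} (hL0 : 0 ≤ L) (hL : ∀ x y, |f x - f y| ≤ L * ‖x - y‖)
    {a : ℕ → ℤ × ℤ} {x0 : ℝ × ℝ}
    (ha : ∀ n, |δ n * ((a n).1 : ℝ) - x0.1| ≤ 2 * δ n ∧ |δ n * ((a n).2 : ℝ) - x0.2| ≤ 2 * δ n) :
    App δ (fun x => f (x + x0)) (fun n => Wd (δ n) f (a n)) := by
  obtain ⟨R, hR, h⟩ := P152.GFF.S.bound_of_compact cf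
  refine ⟨R + |x0.1| + |x0.2| + 2, 4 * L, by positivity, by positivity, fun n => ⟨?_, ?_⟩⟩
  · intro q hq
    have h1 := h _ (Wd_supp (hδ n) cf hq).2
    simp only at h1
    have h2 := ha n
    have key : ∀ (q a : ℤ) (x : ℝ), |δ n * (((q + a : ℤ)) : ℝ)| ≤ R → |δ n * (a : ℝ) - x| ≤ 2 * δ n →
        |δ n * (q : ℝ)| ≤ R + |x| + 2 := by
      intro q a x h3 h4
      push_cast at h3
      have h5 : δ n * (q : ℝ) = (δ n * ((q : ℝ) + a) - (δ n * (a : ℝ) - x)) - x := by ring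
      rw [h5]
      have h6 := abs_sub (δ n * ((q : ℝ) + a) - (δ n * (a : ℝ) - x)) x
      have h7 := abs_sub (δ n * ((q : ℝ) + a)) (δ n * (a : ℝ) - x)
      linarith [hδ1 n]
    have h3 := key _ _ _ h1.1 h2.1
    have h4 := key _ _ _ h1.2 h2.2
    constructor
    · linarith [abs_nonneg x0.2]
    · linarith [abs_nonneg x0.1]
  · intro q
    rw [Wd_apply (hδ n) cf]
    have e : ∀ A B E d : ℝ, 2 * d ^ 2 * (E * A) - 2 * d ^ 2 * (E * B) = 2 * d ^ 2 * (E * (A - B)) :=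
      fun A B E d => by ring
    rw [e, abs_mul (2 * δ n ^ 2), abs_mul (FP.ev q),
      abs_of_nonneg (by positivity : (0 : ℝ) ≤ 2 * δ n ^ 2)]
    have h1 : |f (δ n * (((q.1 + (a n).1 : ℤ)) : ℝ), δ n * (((q.2 + (a n).2 : ℤ)) : ℝ)) -
        f ((δ n * (q.1 : ℝ), δ n * (q.2 : ℝ)) + x0)| ≤ L * (2 * δ n) := by
      refine (hL _ _).trans (mul_le_mul_of_nonneg_left ?_ hL0)
      rw [Prod.norm_def, max_le_iff]
      simp only [Prod.fst_sub, Prod.snd_sub, Prod.fst_add, Prod.snd_add, Real.norm_eq_abs]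
      push_cast
      constructor
      · rw [show δ n * ((q.1 : ℝ) + ((a n).1 : ℝ)) - (δ n * (q.1 : ℝ) + x0.1) =
          δ n * ((a n).1 : ℝ) - x0.1 by ring]
        exact (ha n).1
      · rw [show δ n * ((q.2 : ℝ) + ((a n).2 : ℝ)) - (δ n * (q.2 : ℝ) + x0.2) =
          δ n * ((a n).2 : ℝ) - x0.2 by ring]
        exact (ha n).2
    have h2 := FP.ev_abs q
    have h3 : |FP.ev q| * |f (δ n * (((q.1 + (a n).1 : ℤ)) : ℝ), δ n * (((q.2 + (a n).2 : ℤ)) : ℝ)) -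
        f ((δ n * (q.1 : ℝ), δ n * (q.2 : ℝ)) + x0)| ≤ 1 * (L * (2 * δ n)) :=
      mul_le_mul h2 h1 (abs_nonneg _) zero_le_one
    calc 2 * δ n ^ 2 * (|FP.ev q| * |f (δ n * (((q.1 + (a n).1 : ℤ)) : ℝ),
          δ n * (((q.2 + (a n).2 : ℤ)) : ℝ)) - f ((δ n * (q.1 : ℝ), δ n * (q.2 : ℝ)) + x0)|)
        ≤ 2 * δ n ^ 2 * (1 * (L * (2 * δ n))) :=
          mul_le_mul_of_nonneg_left h3 (by positivity)
      _ = 4 * L * δ n ^ 3 := by ring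

/-! ### Translations -/

lemma ev_even_shift {a : ℤ × ℤ} (ha : (2 : ℤ) ∣ a.1 + a.2) (q : ℤ × ℤ) : FP.ev (q + a) = FP.ev q := by
  unfold FP.ev
  have h1 : (q + a).1 + (q + a).2 = (q.1 + q.2) + (a.1 + a.2) := by
    simp only [Prod.fst_add, Prod.snd_add]; ring
  rw [h1]
  by_cases h : (q.1 + q.2) % 2 = 0
  · rw [if_pos h, if_pos (by omega)]
  · rw [if_neg h, if_neg (by omega)]

lemma Wd_shift {δ : ℝ} (hδ : 0 < δ) {f : ℝ × ℝ → ℝ} (cf : HasCompactSupport f) {a b : ℤ × ℤ}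
    (ha : (2 : ℤ) ∣ a.1 + a.2) (q : ℤ × ℤ) : Wd δ f b (q + a) = Wd δ f (a + b) q := by
  rw [Wd_apply hδ cf, Wd_apply hδ cf, ev_even_shift ha]
  simp only [Prod.fst_add, Prod.snd_add, add_assoc]

lemma Wd_shift0 {δ : ℝ} (hδ : 0 < δ) {f : ℝ × ℝ → ℝ} (cf : HasCompactSupport f) {a : ℤ × ℤ}
    (ha : (2 : ℤ) ∣ a.1 + a.2) (q : ℤ × ℤ) : Wd δ f 0 (q + a) = Wd δ f a q := by
  rw [Wd_shift hδ cf ha, add_zero]

lemma ev_tsum (w : (ℤ × ℤ) →₀ ℝ) (h : Hgt) : ev w h = ∑' q, w q * (h q : ℝ) := by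
  unfold ev Finsupp.sum
  symm
  refine tsum_eq_sum fun q hq => ?_
  rw [Finsupp.notMem_support_iff.1 hq, zero_mul]

lemma mass_tsum (w : (ℤ × ℤ) →₀ ℝ) : mass w = ∑' q, w q := by
  unfold mass Finsupp.sum
  symm
  exact tsum_eq_sum fun q hq => Finsupp.notMem_support_iff.1 hq

/-- The functional `Wd δ f a` of the height function seen from `a`. -/
theorem ev_Wd_pb {δ : ℝ} (hδ : 0 < δ) {f : ℝ × ℝ → ℝ} (cf : HasCompactSupport f) {a : ℤ × ℤ}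
    (ha : (2 : ℤ) ∣ a.1 + a.2) (h : Hgt) :
    ev (Wd δ f a) (pb (fun q => q + a) h) = ev (Wd δ f 0) h := by
  rw [ev_tsum, ev_tsum, ← (Equiv.addRight a).tsum_eq (fun q => Wd δ f 0 q * (h q : ℝ))]
  refine tsum_congr fun q => ?_
  rw [Equiv.coe_addRight, Wd_shift0 hδ cf ha]
  rfl

theorem mass_Wd_shift {δ : ℝ} (hδ : 0 < δ) {f : ℝ × ℝ → ℝ} (cf : HasCompactSupport f) {a : ℤ × ℤ}
    (ha : (2 : ℤ) ∣ a.1 + a.2) : mass (Wd δ f a) = mass (Wd δ f 0) := by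
  rw [mass_tsum, mass_tsum, ← (Equiv.addRight a).tsum_eq (fun q => Wd δ f 0 q)]
  refine tsum_congr fun q => ?_
  rw [Equiv.coe_addRight, Wd_shift0 hδ cf ha]

/-- Linearity in the test function. -/
lemma Wd_add {δ : ℝ} (hδ : 0 < δ) {f g : ℝ × ℝ → ℝ} (cf : HasCompactSupport f)
    (cg : HasCompactSupport g) (a : ℤ × ℤ) :
    Wd δ (fun x => f x + g x) a = Wd δ f a + Wd δ g a := by
  have c : HasCompactSupport (fun x => f x + g x) := cf.add cg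
  ext q
  rw [Finsupp.add_apply, Wd_apply hδ cf, Wd_apply hδ cg, Wd_apply hδ c]
  ring

lemma Wd_smul {δ : ℝ} (hδ : 0 < δ) {f : ℝ × ℝ → ℝ} (cf : HasCompactSupport f) (r : ℝ)
    (a : ℤ × ℤ) : Wd δ (fun x => r * f x) a = r • Wd δ f a := by
  have c : HasCompactSupport (fun x => r * f x) := cf.mul_left
  ext q
  rw [Finsupp.smul_apply, smul_eq_mul, Wd_apply hδ cf, Wd_apply hδ c]
  ring

/-! ### The mass -/

/-- Sum over the even faces against the integral. -/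
theorem mass_Wd {f : ℝ × ℝ → ℝ} (cf : HasCompactSupport f) (hc : Continuous f) {L : ℝ}
    (hL0 : 0 ≤ L) (hL : ∀ x y, |f x - f y| ≤ L * ‖x - y‖) :
    ∃ C : ℝ, 0 ≤ C ∧ ∀ δ : ℝ, 0 < δ → δ ≤ 1 → ∀ a : ℤ × ℤ, (2 : ℤ) ∣ a.1 + a.2 →
      |mass (Wd δ f a) - ∫ x, f x| ≤ C * δ := by
  obtain ⟨R, hR, h⟩ := P152.GFF.S.bound_of_compact cf
  have hf : Integrable f := hc.integrable_of_hasCompactSupport cf
  refine ⟨3 * L * (2 * R + 7) ^ 2, by positivity, fun δ hδ hδ1 a ha => ?_⟩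
  rw [mass_Wd_shift hδ cf ha]
  set N := FP.NN R δ with hN
  have hNge := FP.NN_ge R δ
  have hNle := FP.NN_le hR hδ hδ1
  rw [← hN] at hNge hNle
  -- the integral
  have hN1 : R / δ + 1 ≤ ((N + 1 : ℕ) : ℝ) := by push_cast; linarith
  have h1 : ∫ x, f x = ∑ q ∈ hbox (N + 1), FP.cI f δ q := by
    have h2 := P152.GFF.S.hint_cells (fun _ => 1) hδ hf h hN1
    have h3 : hint (fun _ => 1) δ f = ∫ x, f x := by
      unfold P152.GFF.S.hint P152.GFF.S.hd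
      simp
    rw [h3] at h2
    rw [h2]
    refine Finset.sum_congr rfl fun q _ => ?_
    unfold FP.cI
    simp
  have hz : ∀ v, v ∉ hbox N → FP.cI f δ v = 0 := fun v hv =>
    P152.GFF.S.cell_zero hδ hNge h hv
  set g : ℤ × ℤ → ℝ := fun q => (1 - FP.ev q) * FP.cI f δ q with hg
  have g1 : ∑' q, g q = ∑ q ∈ hbox (N + 1), g q := by
    refine tsum_eq_sum (fun q hq => ?_)
    rw [hg]
    simp only
    rw [hz q (fun h => hq (FP.hbox_mono h)), mul_zero]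
  have g2 : ∑' q : ℤ × ℤ, g (q.1, q.2 - 1) = ∑ q ∈ hbox (N + 1), g (q.1, q.2 - 1) := by
    refine tsum_eq_sum (fun q hq => ?_)
    rw [hg]
    simp only
    rw [hz _ (fun h => hq (FP.hbox_succ h)), mul_zero]
  have g3 : ∑' q : ℤ × ℤ, g (q.1, q.2 - 1) = ∑' q, g q := by
    have := (Equiv.subRight ((0, 1) : ℤ × ℤ)).tsum_eq g
    rw [← this]
    refine tsum_congr (fun q => ?_)
    rw [Equiv.subRight_apply]
    congr 1
    refine Prod.ext ?_ ?_ <;> simp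
  have h4 : ∫ x, f x = ∑ q ∈ hbox (N + 1), FP.ev q * (FP.cI f δ q + FP.cI f δ (q.1, q.2 - 1)) := by
    have e1 : ∑ q ∈ hbox (N + 1), FP.cI f δ q =
        ∑ q ∈ hbox (N + 1), FP.ev q * FP.cI f δ q + ∑ q ∈ hbox (N + 1), g q := by
      rw [← Finset.sum_add_distrib]
      refine Finset.sum_congr rfl (fun q _ => ?_)
      rw [hg]; ring
    rw [h1, e1, ← g1, ← g3, g2, ← Finset.sum_add_distrib]
    refine Finset.sum_congr rfl (fun q _ => ?_)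
    rw [hg]
    simp only
    rw [FP.ev_shift]
    ring
  have h5 : mass (Wd δ f 0) = ∑ q ∈ hbox (N + 1), FP.ev q * (2 * δ ^ 2 * f (δ * q.1, δ * q.2)) := by
    rw [mass_tsum]
    have h6 : ∀ q, Wd δ f 0 q = FP.ev q * (2 * δ ^ 2 * f (δ * q.1, δ * q.2)) := by
      intro q
      rw [Wd_apply hδ cf]
      simp only [Prod.fst_zero, Prod.snd_zero, add_zero]
      ring
    simp only [h6]
    refine tsum_eq_sum fun q hq => ?_
    by_cases h7 : f (δ * q.1, δ * q.2) = 0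
    · rw [h7]; ring
    · exfalso
      apply hq
      refine mem_hbox_of hδ ?_ (h _ h7)
      linarith
  rw [h5, h4, ← Finset.sum_sub_distrib]
  refine (Finset.abs_sum_le_sum_abs _ _).trans ?_
  have h8 : ∀ q ∈ hbox (N + 1), |FP.ev q * (2 * δ ^ 2 * f (δ * q.1, δ * q.2)) -
      FP.ev q * (FP.cI f δ q + FP.cI f δ (q.1, q.2 - 1))| ≤ 3 * L * δ ^ 3 := by
    intro q _
    have e : FP.ev q * (2 * δ ^ 2 * f (δ * q.1, δ * q.2)) -
        FP.ev q * (FP.cI f δ q + FP.cI f δ (q.1, q.2 - 1)) =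
        FP.ev q * (2 * δ ^ 2 * f (δ * q.1, δ * q.2) - FP.cI f δ q - FP.cI f δ (q.1, q.2 - 1)) := by
      ring
    rw [e, abs_mul]
    have h9 := FP.K_abs hf hL0 hL hδ q
    have h10 := mul_le_mul (FP.ev_abs q) h9 (abs_nonneg _) zero_le_one
    linarith
  refine (Finset.sum_le_sum h8).trans ?_
  rw [Finset.sum_const, nsmul_eq_mul, FP.hbox_card]
  have h11 : (δ * (2 * (((N + 1 : ℕ)) : ℝ) + 1)) ^ 2 ≤ (2 * R + 7) ^ 2 :=
    pow_le_pow_left₀ (by positivity) hNle 2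
  calc (2 * (((N + 1 : ℕ)) : ℝ) + 1) ^ 2 * (3 * L * δ ^ 3)
      = (3 * L * δ) * (δ * (2 * (((N + 1 : ℕ)) : ℝ) + 1)) ^ 2 := by ring
    _ ≤ (3 * L * δ) * (2 * R + 7) ^ 2 := mul_le_mul_of_nonneg_left h11 (by positivity)
    _ = 3 * L * (2 * R + 7) ^ 2 * δ := by ring

/-! ### Normalised functionals -/

lemma mass_smul' (r : ℝ) (w : (ℤ × ℤ) →₀ ℝ) : mass (r • w) = r * mass w := by
  rw [mass_tsum, mass_tsum, ← tsum_mul_left]
  rfl

lemma mass_sub' (w v : (ℤ × ℤ) →₀ ℝ) : mass (w - v) = mass w - mass v := by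
  have key : ∀ w : (ℤ × ℤ) →₀ ℝ, Summable fun q => w q := fun w =>
    summable_of_ne_finset_zero (s := w.support) fun q hq => Finsupp.notMem_support_iff.1 hq
  rw [mass_tsum, mass_tsum, mass_tsum, ← (key w).tsum_sub (key v)]
  rfl

/-- Normalised functional of mass one. -/
noncomputable def nW (δ : ℝ) (χ : ℝ × ℝ → ℝ) (a : ℤ × ℤ) : (ℤ × ℤ) →₀ ℝ :=
  (mass (Wd δ χ a))⁻¹ • Wd δ χ a

/-- Corrected functional of mass zero. -/
noncomputable def zW (δ : ℝ) (g χ : ℝ × ℝ → ℝ) (a : ℤ × ℤ) : (ℤ × ℤ) →₀ ℝ :=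
  Wd δ g a - mass (Wd δ g a) • nW δ χ a

lemma nW_supp {δ : ℝ} {χ : ℝ × ℝ → ℝ} {a q : ℤ × ℤ} (hq : nW δ χ a q ≠ 0) : Wd δ χ a q ≠ 0 := by
  intro h
  apply hq
  unfold nW
  rw [Finsupp.smul_apply, h, smul_zero]

lemma zW_supp {δ : ℝ} {g χ : ℝ × ℝ → ℝ} {a q : ℤ × ℤ} (hq : zW δ g χ a q ≠ 0) :
    Wd δ g a q ≠ 0 ∨ Wd δ χ a q ≠ 0 := by
  by_contra h
  push Not at h
  apply hq
  unfold zW nW
  rw [Finsupp.sub_apply, Finsupp.smul_apply, Finsupp.smul_apply, h.1, h.2]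
  simp

/-- The normalised functionals are admissible for small `δ`. -/
theorem exists_nW {χ : ℝ × ℝ → ℝ} (cχ : HasCompactSupport χ) (hχ : Continuous χ) {L : ℝ}
    (hL0 : 0 ≤ L) (hL : ∀ x y, |χ x - χ y| ≤ L * ‖x - y‖) (h1 : ∫ x, χ x = 1) :
    ∃ δ0 C : ℝ, 0 < δ0 ∧ δ0 ≤ 1 ∧ 0 ≤ C ∧ ∀ δ : ℝ, 0 < δ → δ ≤ δ0 → ∀ a : ℤ × ℤ,
      (2 : ℤ) ∣ a.1 + a.2 → mass (nW δ χ a) = 1 ∧
        (∀ q, |nW δ χ a q - Wd δ χ a q| ≤ C * δ ^ 3) ∧ ∀ q, |nW δ χ a q| ≤ C * δ ^ 2 := by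
  obtain ⟨C, hC, hm⟩ := mass_Wd cχ hχ hL0 hL
  obtain ⟨F, hF⟩ := cχ.exists_bound_of_continuous hχ
  have hF0 : 0 ≤ F := (norm_nonneg _).trans (hF 0)
  refine ⟨min 1 (1 / (2 * (C + 1))), max (4 * C * F) (4 * F), by positivity, min_le_left _ _,
    by positivity, fun δ hδ hδ0 a ha => ?_⟩
  have hd1 : δ ≤ 1 := hδ0.trans (min_le_left _ _)
  have hd2 : δ ≤ 1 / (2 * (C + 1)) := hδ0.trans (min_le_right _ _)
  have h2 := hm δ hδ hd1 a ha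
  rw [h1] at h2
  have h3 : C * δ ≤ 1 / 2 := by
    rw [le_div_iff₀ (by positivity)] at hd2
    nlinarith
  set m := mass (Wd δ χ a) with hmd
  have h4 : 1 / 2 ≤ m := by
    have := (abs_le.1 h2).1
    linarith
  have hmpos : 0 < m := by linarith
  have h5 : |m⁻¹ - 1| ≤ 2 * (C * δ) := by
    have e : m⁻¹ - 1 = -(m - 1) * m⁻¹ := by field_simp; ring
    have h6 : m⁻¹ ≤ 2 := by
      rw [inv_le_comm₀ hmpos (by norm_num)]
      linarith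
    rw [e, abs_mul, abs_neg, abs_of_pos (inv_pos.2 hmpos)]
    have := mul_le_mul h2 h6 (inv_pos.2 hmpos).le (by positivity)
    linarith
  have hW : ∀ q, |Wd δ χ a q| ≤ 2 * δ ^ 2 * F := by
    intro q
    rw [Wd_apply hδ cχ, abs_mul (2 * δ ^ 2), abs_mul (FP.ev q),
      abs_of_nonneg (by positivity : (0 : ℝ) ≤ 2 * δ ^ 2)]
    refine mul_le_mul_of_nonneg_left ?_ (by positivity)
    have := mul_le_mul (FP.ev_abs q) (hF (δ * ((q.1 + a.1 : ℤ) : ℝ), δ * ((q.2 + a.2 : ℤ) : ℝ)))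
      (norm_nonneg _) zero_le_one
    rw [Real.norm_eq_abs] at this
    linarith
  have hdiff : ∀ q, |nW δ χ a q - Wd δ χ a q| ≤ 4 * C * F * δ ^ 3 := by
    intro q
    unfold nW
    rw [Finsupp.smul_apply, smul_eq_mul, ← hmd,
      show m⁻¹ * Wd δ χ a q - Wd δ χ a q = (m⁻¹ - 1) * Wd δ χ a q by ring, abs_mul]
    calc |m⁻¹ - 1| * |Wd δ χ a q| ≤ (2 * (C * δ)) * (2 * δ ^ 2 * F) :=
          mul_le_mul h5 (hW q) (abs_nonneg _) (by positivity)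
      _ = 4 * C * F * δ ^ 3 := by ring
  refine ⟨?_, fun q => (hdiff q).trans ?_, fun q => ?_⟩
  · unfold nW
    rw [mass_smul', ← hmd]
    exact inv_mul_cancel₀ hmpos.ne'
  · exact mul_le_mul_of_nonneg_right (le_max_left _ _) (by positivity)
  · have h6 : m⁻¹ ≤ 2 := by
      rw [inv_le_comm₀ hmpos (by norm_num)]
      linarith
    unfold nW
    rw [Finsupp.smul_apply, smul_eq_mul, ← hmd, abs_mul, abs_of_pos (inv_pos.2 hmpos)]
    calc m⁻¹ * |Wd δ χ a q| ≤ 2 * (2 * δ ^ 2 * F) :=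
          mul_le_mul h6 (hW q) (abs_nonneg _) (by norm_num)
      _ = 4 * F * δ ^ 2 := by ring
      _ ≤ _ := mul_le_mul_of_nonneg_right (le_max_right _ _) (by positivity)

lemma App.of_close {δ : ℕ → ℝ} {f : ℝ × ℝ → ℝ} {w v : ℕ → (ℤ × ℤ) →₀ ℝ} (hw : App δ f w)
    {R' C' : ℝ} (hR' : 0 < R') (hC' : 0 ≤ C')
    (hs : ∀ n q, v n q ≠ 0 → |δ n * (q.1 : ℝ)| ≤ R' ∧ |δ n * (q.2 : ℝ)| ≤ R')
    (hc : ∀ n q, |v n q - w n q| ≤ C' * δ n ^ 3) : App δ f v := by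
  obtain ⟨R, C, hR, hC, h⟩ := hw
  refine ⟨R', C + C', hR', by positivity, fun n => ⟨hs n, fun q => ?_⟩⟩
  have h1 := (h n).2 q
  have h2 := hc n q
  have e : v n q - 2 * δ n ^ 2 * (FP.ev q * f (δ n * q.1, δ n * q.2)) = (v n q - w n q) +
      (w n q - 2 * δ n ^ 2 * (FP.ev q * f (δ n * q.1, δ n * q.2))) := by ring
  rw [e]
  refine (abs_add_le _ _).trans ?_
  rw [add_mul]
  linarith

/-- The hypotheses on the mesh and the translations. -/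
structure Near (δ : ℕ → ℝ) (a : ℕ → ℤ × ℤ) (x0 : ℝ × ℝ) : Prop where
  pos : ∀ n, 0 < δ n
  par : ∀ n, (2 : ℤ) ∣ (a n).1 + (a n).2
  near : ∀ n, |δ n * ((a n).1 : ℝ) - x0.1| ≤ 2 * δ n ∧ |δ n * ((a n).2 : ℝ) - x0.2| ≤ 2 * δ n

/-- The functional of mass one. -/
theorem app_nW {χ : ℝ × ℝ → ℝ} (cχ : HasCompactSupport χ) (hχ : Sm χ) (h1 : ∫ x, χ x = 1) :
    ∃ δ0 : ℝ, 0 < δ0 ∧ δ0 ≤ 1 ∧ ∀ (δ : ℕ → ℝ) (a : ℕ → ℤ × ℤ) (x0 : ℝ × ℝ), Near δ a x0 →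
      (∀ n, δ n ≤ δ0) → App δ (fun x => χ (x + x0)) (fun n => nW (δ n) χ (a n)) ∧
        ∀ n, mass (nW (δ n) χ (a n)) = 1 := by
  obtain ⟨R0, F, L, hR0, hR, hF, hL0, hL⟩ := smooth_bounds hχ cχ
  obtain ⟨δ0, C, hδ0, hδ1, hC, h⟩ := exists_nW cχ hχ.continuous hL0 hL h1
  refine ⟨δ0, hδ0, hδ1, fun δ a x0 hN hle => ⟨?_, fun n => (h _ (hN.pos n) (hle n) _ (hN.par n)).1⟩⟩
  have hA := app_Wd hN.pos (fun n => (hle n).trans hδ1) cχ hL0 hL hN.near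
  obtain ⟨R', C', hR', _, hs⟩ := id hA
  refine hA.of_close hR' hC (fun n q hq => (hs n).1 q (nW_supp hq)) fun n q => ?_
  exact (h _ (hN.pos n) (hle n) _ (hN.par n)).2.1 q

/-- The functional of mass zero. -/
theorem app_zW {χ g : ℝ × ℝ → ℝ} (cχ : HasCompactSupport χ) (hχ : Sm χ) (h1 : ∫ x, χ x = 1)
    (cg : HasCompactSupport g) (hg : Sm g) (h0 : ∫ x, g x = 0) :
    ∃ δ0 : ℝ, 0 < δ0 ∧ δ0 ≤ 1 ∧ ∀ (δ : ℕ → ℝ) (a : ℕ → ℤ × ℤ) (x0 : ℝ × ℝ), Near δ a x0 →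
      (∀ n, δ n ≤ δ0) → App δ (fun x => g (x + x0)) (fun n => zW (δ n) g χ (a n)) ∧
        ∀ n, mass (zW (δ n) g χ (a n)) = 0 := by
  obtain ⟨R0, F, L, hR0, hR, hF, hL0, hL⟩ := smooth_bounds hχ cχ
  obtain ⟨δ0, C, hδ0, hδ1, hC, h⟩ := exists_nW cχ hχ.continuous hL0 hL h1
  obtain ⟨R0', F', L', hR0', hR', hF', hL0', hL'⟩ := smooth_bounds hg cg
  obtain ⟨C2, hC2, hm2⟩ := mass_Wd cg hg.continuous hL0' hL'
  refine ⟨δ0, hδ0, hδ1, fun δ a x0 hN hle => ⟨?_, fun n => ?_⟩⟩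
  · have hA := app_Wd hN.pos (fun n => (hle n).trans hδ1) cχ hL0 hL hN.near
    have hB := app_Wd hN.pos (fun n => (hle n).trans hδ1) cg hL0' hL' hN.near
    obtain ⟨R1, C1, hR1, _, hs1⟩ := hA
    obtain ⟨R2, C3, hR2, _, hs2⟩ := id hB
    refine hB.of_close (R' := max R1 R2) (C' := C2 * C) (lt_max_of_lt_left hR1) (by positivity)
      (fun n q hq => ?_) fun n q => ?_
    · rcases zW_supp hq with h3 | h3
      · have := (hs2 n).1 q h3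
        exact ⟨this.1.trans (le_max_right _ _), this.2.trans (le_max_right _ _)⟩
      · have := (hs1 n).1 q h3
        exact ⟨this.1.trans (le_max_left _ _), this.2.trans (le_max_left _ _)⟩
    · unfold zW
      rw [Finsupp.sub_apply, Finsupp.smul_apply, smul_eq_mul,
        show Wd (δ n) g (a n) q - mass (Wd (δ n) g (a n)) * nW (δ n) χ (a n) q -
          Wd (δ n) g (a n) q = -(mass (Wd (δ n) g (a n)) * nW (δ n) χ (a n) q) by ring, abs_neg,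
        abs_mul]
      have h3 := hm2 (δ n) (hN.pos n) ((hle n).trans hδ1) (a n) (hN.par n)
      rw [h0, sub_zero] at h3
      have h4 := (h _ (hN.pos n) (hle n) _ (hN.par n)).2.2 q
      have hp := hN.pos n
      calc |mass (Wd (δ n) g (a n))| * |nW (δ n) χ (a n) q| ≤ (C2 * δ n) * (C * δ n ^ 2) :=
            mul_le_mul h3 h4 (abs_nonneg _) (by positivity)
        _ = C2 * C * δ n ^ 3 := by ring
  · unfold zW
    rw [mass_sub', mass_smul', (h _ (hN.pos n) (hle n) _ (hN.par n)).1, mul_one, sub_self]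

end Vale.Agent.P145.FA
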