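import Vale.Agent.P145.FA.UseC
import Vale.Agent.P145.PT.Moll

/-!
P145, block F-A: the Schwinger-Dyson equations for the moments under a product of four local
functionals (pinwheel).
-/

namespace Vale.Agent.P145.FA.Use

open Finset Filter Topology MeasureTheory
open Vale.Agent.P152
open Vale.Agent.P152.GFF.S (Test gffCov)
open Vale.Agent.P145.PT (Sm TestOn lap)

/-! ### A bump function away from `ψ` -/

lemma exists_chi {b : PW} (hx : b.x1 < b.x2) (hy : b.y1 < b.y2) {ψ : ℝ × ℝ → ℝ}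
    (hψ : TestOn b.box ψ) : ∃ χ : ℝ × ℝ → ℝ, TestOn b.box χ ∧ (∫ x, χ x = 1) ∧
      ∀ x, ψ x * χ x = 0 := by
  have hbo : IsOpen b.box := by
    have h1 : IsOpen {z : ℝ × ℝ | b.x1 < z.1} := isOpen_lt continuous_const continuous_fst
    have h2 : IsOpen {z : ℝ × ℝ | z.1 < b.x2} := isOpen_lt continuous_fst continuous_const
    have h3 : IsOpen {z : ℝ × ℝ | b.y1 < z.2} := isOpen_lt continuous_const continuous_snd
    have h4 : IsOpen {z : ℝ × ℝ | z.2 < b.y2} := isOpen_lt continuous_snd continuous_const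
    exact h1.inter (h2.inter (h3.inter h4))
  set O : Set (ℝ × ℝ) := b.box ∩ (tsupport ψ)ᶜ with hO
  have hOo : IsOpen O := hbo.inter (isClosed_tsupport ψ).isOpen_compl
  have hne : O.Nonempty := by
    set p : ℝ × ℝ := (b.x1, (b.y1 + b.y2) / 2) with hp
    have hpn : p ∈ (tsupport ψ)ᶜ := by
      intro h
      have := (hψ.2.2 h).1
      simp only [hp] at this
      exact lt_irrefl _ this
    obtain ⟨r, hr, hball⟩ := Metric.isOpen_iff.1 (isClosed_tsupport ψ).isOpen_compl p hpn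
    set t : ℝ := min (r / 2) ((b.x2 - b.x1) / 2) with ht
    have ht0 : 0 < t := lt_min (by linarith) (by linarith)
    refine ⟨(b.x1 + t, (b.y1 + b.y2) / 2), ⟨?_, ?_, ?_, ?_⟩, hball ?_⟩
    · simp only; linarith
    · have := min_le_right (r / 2) ((b.x2 - b.x1) / 2)
      simp only
      linarith
    · simp only; linarith
    · simp only; linarith
    · rw [Metric.mem_ball, hp, Prod.dist_eq, max_lt_iff]
      simp only [dist_self, Real.dist_eq]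
      refine ⟨?_, hr⟩
      rw [add_sub_cancel_left, abs_of_pos ht0]
      have := min_le_left (r / 2) ((b.x2 - b.x1) / 2)
      linarith
  obtain ⟨p, hp⟩ := hne
  obtain ⟨r, hr, hball⟩ := Metric.isOpen_iff.1 hOo p hp
  have hs : 0 < r / 2 := by linarith
  have hsub : Metric.closedBall p (r / 2) ⊆ O :=
    (Metric.closedBall_subset_ball (by linarith)).trans hball
  have hT : TestOn O (PT.bump (r / 2) p) := PT.bump_test hs hsub
  refine ⟨PT.bump (r / 2) p, hT.mono Set.inter_subset_left, PT.bump_int hs p, fun x => ?_⟩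
  by_cases h : ψ x = 0
  · rw [h, zero_mul]
  · have h1 : x ∈ tsupport ψ := subset_tsupport _ h
    have h2 : PT.bump (r / 2) p x = 0 := by
      by_contra h3
      exact (hT.2.2 (subset_tsupport _ h3)).2 h1
    rw [h2, mul_zero]

/-! ### Restriction of a functional to a set of faces -/

open Classical in
/-- The part of `ev w` in `A`. -/
noncomputable def evK (w : (ℤ × ℤ) →₀ ℝ) (A : Set (ℤ × ℤ)) (h : Hgt) : ℝ :=
  ∑ q ∈ w.support, if q ∈ A then w q * (h q : ℝ) else 0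

open Classical in
lemma loc_evK (w : (ℤ × ℤ) →₀ ℝ) (A : Set (ℤ × ℤ)) : Loc A (evK w A) := by
  refine ⟨w.support.filter (· ∈ A), fun q hq => (Finset.mem_filter.1 hq).2, fun h h' hh => ?_⟩
  unfold evK
  refine Finset.sum_congr rfl fun q hq => ?_
  split_ifs with hA
  · rw [hh q (Finset.mem_filter.2 ⟨hq, hA⟩)]
  · rfl

open Classical in
lemma evK_sum (w : (ℤ × ℤ) →₀ ℝ) {A1 A2 A3 A4 : Set (ℤ × ℤ)}
    (hsub : ∀ q, w q ≠ 0 → q ∈ A1 ∨ q ∈ A2 ∨ q ∈ A3 ∨ q ∈ A4)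
    (h12 : ∀ q ∈ A1, q ∉ A2) (h13 : ∀ q ∈ A1, q ∉ A3) (h14 : ∀ q ∈ A1, q ∉ A4)
    (h23 : ∀ q ∈ A2, q ∉ A3) (h24 : ∀ q ∈ A2, q ∉ A4) (h34 : ∀ q ∈ A3, q ∉ A4) (h : Hgt) :
    ev w h = evK w A1 h + evK w A2 h + evK w A3 h + evK w A4 h := by
  unfold ev Finsupp.sum evK
  rw [← Finset.sum_add_distrib, ← Finset.sum_add_distrib, ← Finset.sum_add_distrib]
  refine Finset.sum_congr rfl fun q hq => ?_
  rcases hsub q (Finsupp.mem_support_iff.1 hq) with h1 | h1 | h1 | h1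
  · rw [if_pos h1, if_neg (h12 q h1), if_neg (h13 q h1), if_neg (h14 q h1)]; ring
  · rw [if_pos h1, if_neg (fun h => h12 q h h1), if_neg (h23 q h1), if_neg (h24 q h1)]; ring
  · rw [if_pos h1, if_neg (fun h => h13 q h h1), if_neg (fun h => h23 q h h1),
      if_neg (h34 q h1)]; ring
  · rw [if_pos h1, if_neg (fun h => h14 q h h1), if_neg (fun h => h24 q h h1),
      if_neg (fun h => h34 q h h1)]; ring

lemma ev_arms {b : PW} (hx : b.x1 < b.x2) (hy : b.y1 < b.y2) (he : 0 < b.e) {g : ℝ × ℝ → ℝ}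
    (cg : HasCompactSupport g) (hg : ∀ x, g x ≠ 0 → x ∈ b.K1 ∨ x ∈ b.K2 ∨ x ∈ b.K3 ∨ x ∈ b.K4)
    {δ : ℝ} (hδ : 0 < δ) (h : Hgt) :
    ev (Wd δ g 0) h = evK (Wd δ g 0) (lat δ b.K1) h + evK (Wd δ g 0) (lat δ b.K2) h +
      evK (Wd δ g 0) (lat δ b.K3) h + evK (Wd δ g 0) (lat δ b.K4) h := by
  refine evK_sum _ (fun q hq => ?_) ?_ ?_ ?_ ?_ ?_ ?_ h
  · have h1 := (Wd_supp hδ cg hq).2
    have h2 := hg _ h1
    simp only [Prod.fst_zero, Prod.snd_zero, add_zero] at h2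
    exact h2
  all_goals
    intro q h1 h2
    simp only [lat, PW.K1, PW.K2, PW.K3, PW.K4, Set.mem_ofPred_eq] at h1 h2
    linarith

lemma lap_smul (ψ : ℝ × ℝ → ℝ) (hψ : Sm ψ) (s : ℝ) (z : ℝ × ℝ) :
    lap (fun x => s * ψ x) z = s * lap ψ z := by
  have e1 : PT.dx (fun x => s * ψ x) = fun x => s * PT.dx ψ x := by
    funext w
    unfold PT.dx
    rw [fderiv_const_mul (hψ.diff w)]
    rfl
  have e2 : PT.dy (fun x => s * ψ x) = fun x => s * PT.dy ψ x := by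
    funext w
    unfold PT.dy
    rw [fderiv_const_mul (hψ.diff w)]
    rfl
  unfold lap
  rw [e1, e2, mul_add]
  congr 1
  · show fderiv ℝ (fun x => s * PT.dx ψ x) z (1, 0) = s * fderiv ℝ (PT.dx ψ) z (1, 0)
    rw [fderiv_const_mul (hψ.dx.diff z)]
    rfl
  · show fderiv ℝ (fun x => s * PT.dy ψ x) z (0, 1) = s * fderiv ℝ (PT.dy ψ) z (0, 1)
    rw [fderiv_const_mul (hψ.dy.diff z)]
    rfl

/-! ### The data -/

/-- The functional of a test function. -/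
noncomputable def Lf (δ : ℝ) (f : ℝ × ℝ → ℝ) (h : Hgt) : ℝ := ev (Wd δ f 0) h

/-- Hypotheses on the four factors and on the moments. -/
structure Dat (P : Measure (Ori (ℤ × ℤ))) (δ : ℕ → ℝ) (b : PW) (D : Set (ℝ × ℝ))
    (X1 X2 X3 X4 X : ℕ → Hgt → ℝ) : Prop where
  hx : b.x1 < b.x2
  hy : b.y1 < b.y2
  he : 0 < b.e
  hbD : b.box ⊆ D
  l1 : ∀ n, Loc (lat (δ n) b.K1) (X1 n)
  l2 : ∀ n, Loc (lat (δ n) b.K2) (X2 n)
  l3 : ∀ n, Loc (lat (δ n) b.K3) (X3 n)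
  l4 : ∀ n, Loc (lat (δ n) b.K4) (X4 n)
  n1 : ∀ n h, 0 ≤ X1 n h ∧ X1 n h ≤ 1
  n2 : ∀ n h, 0 ≤ X2 n h ∧ X2 n h ≤ 1
  n3 : ∀ n h, 0 ≤ X3 n h ∧ X3 n h ≤ 1
  n4 : ∀ n h, 0 ≤ X4 n h ∧ X4 n h ≤ 1
  hX : ∀ n h, X n h = X1 n h * X2 n h * X3 n h * X4 n h
  int : ∀ᶠ n in atTop, Integrable (X n) (mu0 P)
  pos : ∃ c0 : ℝ, 0 < c0 ∧ ∀ᶠ n in atTop, c0 ≤ ∫ h, X n h ∂(mu0 P)
  mom : ∀ f, TestOn D f → ∀ k : ℕ, ∃ C : ℝ, 0 ≤ C ∧ ∀ᶠ n in atTop,
    Integrable (fun h => |Lf (δ n) f h| ^ k * X n h) (mu0 P) ∧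
    ∫ h, |Lf (δ n) f h| ^ k * X n h ∂(mu0 P) ≤ C * ∫ h, X n h ∂(mu0 P)
  r1 : ∃ ρ : ℝ × ℝ → ℝ, TestOn b.K1 ρ ∧ TestOn D ρ ∧ ∫ x, ρ x = 1
  r4 : ∃ ρ : ℝ × ℝ → ℝ, TestOn b.K4 ρ ∧ TestOn D ρ ∧ ∫ x, ρ x = 1

variable {P : Measure (Ori (ℤ × ℤ))} {δ : ℕ → ℝ} {b : PW} {D : Set (ℝ × ℝ)}
  {X1 X2 X3 X4 X : ℕ → Hgt → ℝ}

lemma Dat.X_nonneg (d : Dat P δ b D X1 X2 X3 X4 X) (n : ℕ) (h : Hgt) : 0 ≤ X n h := by
  rw [d.hX]
  exact mul_nonneg (mul_nonneg (mul_nonneg (d.n1 n h).1 (d.n2 n h).1) (d.n3 n h).1) (d.n4 n h).1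

lemma Dat.X_meas (d : Dat P δ b D X1 X2 X3 X4 X) (n : ℕ) : Measurable (X n) := by
  have e : X n = fun h => X1 n h * X2 n h * X3 n h * X4 n h := funext fun h => d.hX n h
  rw [e]
  exact (((d.l1 n).measurable.mul (d.l2 n).measurable).mul (d.l3 n).measurable).mul
    (d.l4 n).measurable

lemma measurable_Lf (δ : ℝ) (f : ℝ × ℝ → ℝ) : Measurable (Lf δ f) := measurable_ev _

/-- Comparison of the integrands. -/
lemma pt_bound {a E E' : ℂ} {α p : ℝ} (ha : ‖a‖ = 1) (hE : ‖E‖ = 1) (hp0 : 0 ≤ p) (hp1 : p ≤ 1) :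
    ‖a * (E - α) - p * (a * (E' - α))‖ ≤ ‖E - E'‖ + (1 + |α|) * (1 - p) := by
  have e : a * (E - α) - p * (a * (E' - α)) = a * (p * (E - E') + (1 - p : ℝ) * (E - α)) := by
    push_cast
    ring
  rw [e, norm_mul, ha, one_mul]
  refine (norm_add_le _ _).trans (add_le_add ?_ ?_)
  · rw [norm_mul, Complex.norm_real, Real.norm_eq_abs, abs_of_nonneg hp0]
    have := norm_nonneg (E - E')
    nlinarith
  · rw [norm_mul, Complex.norm_real, Real.norm_eq_abs, abs_of_nonneg (by linarith), mul_comm]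
    refine mul_le_mul_of_nonneg_right ?_ (by linarith)
    refine (norm_sub_le _ _).trans ?_
    rw [hE, Complex.norm_real, Real.norm_eq_abs]

lemma expI_sub (x y : ℝ) :
    ‖Complex.exp (Complex.I * (x : ℂ)) - Complex.exp (Complex.I * (y : ℂ))‖ ≤ |x - y| := by
  have e : Complex.exp (Complex.I * (x : ℂ)) - Complex.exp (Complex.I * (y : ℂ)) =
      Complex.exp (Complex.I * (y : ℂ)) * (Complex.exp (Complex.I * ((x - y : ℝ) : ℂ)) - 1) := by
    rw [mul_sub, ← Complex.exp_add, mul_one]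
    congr 2
    push_cast; ring
  rw [e, norm_mul, norm_expI, one_mul]
  exact expI_sub_one _

/-- Removal of the localisers, for one mesh. -/
lemma est {Ω : Type*} [MeasurableSpace Ω] {μ : Measure Ω} {Y U V Φ pp r1 r4 rχ : Ω → ℝ}
    {s t m α η Cχ C1 C4 I0 : ℝ} (mU : Measurable U) (mV : Measurable V) (mΦ : Measurable Φ)
    (mpp : Measurable pp) (hX0 : ∀ h, 0 ≤ Y h) (hXi : Integrable Y μ)
    (hpp01 : ∀ h, 0 ≤ pp h ∧ pp h ≤ 1) (hη : 0 ≤ η) (hΦ : ∀ h, |Φ h| ≤ 2 * |rχ h|)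
    (hpp : ∀ h, 1 - pp h ≤ 4 * η * |r1 h| ^ 2 + 4 * η * |r4 h| ^ 2)
    (wχ : Integrable (fun h => |rχ h| ^ 1 * Y h) μ ∧ ∫ h, |rχ h| ^ 1 * Y h ∂μ ≤ Cχ * I0)
    (w1 : Integrable (fun h => |r1 h| ^ 2 * Y h) μ ∧ ∫ h, |r1 h| ^ 2 * Y h ∂μ ≤ C1 * I0)
    (w4 : Integrable (fun h => |r4 h| ^ 2 * Y h) μ ∧ ∫ h, |r4 h| ^ 2 * Y h ∂μ ≤ C4 * I0) :
    ‖∫ h, (Y h : ℂ) * (Complex.exp (Complex.I * ((t * V h : ℝ) : ℂ)) *
      (Complex.exp (Complex.I * ((s * U h : ℝ) : ℂ)) - (α : ℂ))) ∂μ‖ ≤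
    ‖∫ h, (Y h : ℂ) * (((pp h : ℝ) : ℂ) * (Complex.exp (Complex.I * ((t * V h : ℝ) : ℂ)) *
        (Complex.exp (Complex.I * ((s * U h - s * m * Φ h : ℝ) : ℂ)) - (α : ℂ)))) ∂μ‖ +
      (|s| * |m| * (2 * Cχ) + (1 + |α|) * (4 * (C1 + C4)) * η) * I0 := by
  set F : Ω → ℂ := fun h => (Y h : ℂ) * (Complex.exp (Complex.I * ((t * V h : ℝ) : ℂ)) *
    (Complex.exp (Complex.I * ((s * U h : ℝ) : ℂ)) - (α : ℂ))) with hF
  set F' : Ω → ℂ := fun h => (Y h : ℂ) * (((pp h : ℝ) : ℂ) *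
    (Complex.exp (Complex.I * ((t * V h : ℝ) : ℂ)) *
      (Complex.exp (Complex.I * ((s * U h - s * m * Φ h : ℝ) : ℂ)) - (α : ℂ)))) with hF'
  have hXC : Integrable (fun h => (Y h : ℂ)) μ := hXi.ofReal
  have hFi : Integrable F μ := by
    refine hXC.mul_bdd (c := 1 + |α|) ?_ (Eventually.of_forall fun h => ?_)
    · have : Measurable fun h => Complex.exp (Complex.I * ((t * V h : ℝ) : ℂ)) *
        (Complex.exp (Complex.I * ((s * U h : ℝ) : ℂ)) - (α : ℂ)) := by fun_prop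
      exact this.aestronglyMeasurable
    · rw [norm_mul, norm_expI, one_mul]
      refine (norm_sub_le _ _).trans ?_
      rw [norm_expI, Complex.norm_real, Real.norm_eq_abs]
  have hFi' : Integrable F' μ := by
    refine hXC.mul_bdd (c := 1 + |α|) ?_ (Eventually.of_forall fun h => ?_)
    · have : Measurable fun h => ((pp h : ℝ) : ℂ) *
        (Complex.exp (Complex.I * ((t * V h : ℝ) : ℂ)) *
        (Complex.exp (Complex.I * ((s * U h - s * m * Φ h : ℝ) : ℂ)) - (α : ℂ))) := by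
        fun_prop
      exact this.aestronglyMeasurable
    · rw [norm_mul, norm_mul, norm_expI, one_mul, Complex.norm_real, Real.norm_eq_abs,
        abs_of_nonneg (hpp01 h).1]
      have h1 : ‖Complex.exp (Complex.I * ((s * U h - s * m * Φ h : ℝ) : ℂ)) - (α : ℂ)‖ ≤
          1 + |α| := by
        refine (norm_sub_le _ _).trans ?_
        rw [norm_expI, Complex.norm_real, Real.norm_eq_abs]
      exact (mul_le_mul (hpp01 h).2 h1 (norm_nonneg _) zero_le_one).trans (le_of_eq (one_mul _))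
  set B : Ω → ℝ := fun h => |s| * |m| * (2 * (|rχ h| ^ 1 * Y h)) +
    (1 + |α|) * (4 * η) * (|r1 h| ^ 2 * Y h) + (1 + |α|) * (4 * η) * (|r4 h| ^ 2 * Y h) with hB
  have hBd : ∀ h, ‖F h - F' h‖ ≤ B h := by
    intro h
    have e1 : F h - F' h = (Y h : ℂ) * (Complex.exp (Complex.I * ((t * V h : ℝ) : ℂ)) *
        (Complex.exp (Complex.I * ((s * U h : ℝ) : ℂ)) - (α : ℂ)) - ((pp h : ℝ) : ℂ) *
        (Complex.exp (Complex.I * ((t * V h : ℝ) : ℂ)) *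
      (Complex.exp (Complex.I * ((s * U h - s * m * Φ h : ℝ) : ℂ)) - (α : ℂ)))) := by
      simp only [hF, hF']
      ring
    rw [e1, norm_mul, Complex.norm_real, Real.norm_eq_abs, abs_of_nonneg (hX0 h)]
    have h1 := pt_bound (a := Complex.exp (Complex.I * ((t * V h : ℝ) : ℂ)))
      (E := Complex.exp (Complex.I * ((s * U h : ℝ) : ℂ)))
      (E' := Complex.exp (Complex.I * ((s * U h - s * m * Φ h : ℝ) : ℂ))) (α := α)
      (p := pp h) (norm_expI _) (norm_expI _) (hpp01 h).1 (hpp01 h).2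
    have h2 := expI_sub (s * U h) (s * U h - s * m * Φ h)
    have h3 : |s * U h - (s * U h - s * m * Φ h)| ≤ |s| * |m| * (2 * |rχ h|) := by
      rw [show s * U h - (s * U h - s * m * Φ h) = s * m * Φ h by ring, abs_mul, abs_mul]
      exact mul_le_mul_of_nonneg_left (hΦ h) (by positivity)
    have h5 := h1.trans (add_le_add (h2.trans h3)
      (mul_le_mul_of_nonneg_left (hpp h) (by positivity : 0 ≤ 1 + |α|)))
    refine (mul_le_mul_of_nonneg_left h5 (hX0 h)).trans (le_of_eq ?_)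
    simp only [hB]
    ring
  have iB1 : Integrable (fun h => |s| * |m| * (2 * (|rχ h| ^ 1 * Y h))) μ :=
    (wχ.1.const_mul 2).const_mul _
  have iB2 : Integrable (fun h => (1 + |α|) * (4 * η) * (|r1 h| ^ 2 * Y h)) μ :=
    w1.1.const_mul _
  have iB3 : Integrable (fun h => (1 + |α|) * (4 * η) * (|r4 h| ^ 2 * Y h)) μ :=
    w4.1.const_mul _
  have iB12 : Integrable (fun h => |s| * |m| * (2 * (|rχ h| ^ 1 * Y h)) +
      (1 + |α|) * (4 * η) * (|r1 h| ^ 2 * Y h)) μ := iB1.add iB2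
  have hBint : ∫ h, B h ∂μ ≤ (|s| * |m| * (2 * Cχ) +
      (1 + |α|) * (4 * (C1 + C4)) * η) * I0 := by
    rw [hB, integral_add iB12 iB3, integral_add iB1 iB2, integral_const_mul, integral_const_mul,
      integral_const_mul, integral_const_mul]
    have a1 : |s| * |m| * (2 * ∫ h, |rχ h| ^ 1 * Y h ∂μ) ≤ |s| * |m| * (2 * (Cχ * I0)) :=
      mul_le_mul_of_nonneg_left (mul_le_mul_of_nonneg_left wχ.2 (by norm_num)) (by positivity)
    have a2 : (1 + |α|) * (4 * η) * ∫ h, |r1 h| ^ 2 * Y h ∂μ ≤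
        (1 + |α|) * (4 * η) * (C1 * I0) := mul_le_mul_of_nonneg_left w1.2 (by positivity)
    have a3 : (1 + |α|) * (4 * η) * ∫ h, |r4 h| ^ 2 * Y h ∂μ ≤
        (1 + |α|) * (4 * η) * (C4 * I0) := mul_le_mul_of_nonneg_left w4.2 (by positivity)
    refine (add_le_add (add_le_add a1 a2) a3).trans (le_of_eq ?_)
    ring
  have e1 : ∫ h, F h ∂μ - ∫ h, F' h ∂μ = ∫ h, (F h - F' h) ∂μ := by
    rw [integral_sub hFi hFi']
  have hdiff : ‖∫ h, F h ∂μ - ∫ h, F' h ∂μ‖ ≤ (|s| * |m| * (2 * Cχ) +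
      (1 + |α|) * (4 * (C1 + C4)) * η) * I0 := by
    rw [e1]
    exact (norm_integral_le_of_norm_le (iB12.add iB3) (Eventually.of_forall hBd)).trans hBint
  have e2 : ∫ h, F h ∂μ = ∫ h, F' h ∂μ + (∫ h, F h ∂μ - ∫ h, F' h ∂μ) := by ring
  rw [e2]
  exact (norm_add_le _ _).trans (add_le_add le_rfl hdiff)

/-- Normalised functionals. -/
lemma nW_bound {f : ℝ × ℝ → ℝ} {A δ : ℝ} (hf1 : ∫ x, f x = 1)
    (h1 : |mass (Wd δ f 0) - ∫ x, f x| ≤ A * δ) (h2 : A * δ ≤ 1 / 2) (h : Hgt) :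
    |ev (nW δ f 0) h| ≤ 2 * |Lf δ f h| := by
  rw [hf1] at h1
  have h3 : 1 / 2 ≤ mass (Wd δ f 0) := by
    have := (abs_le.1 h1).1
    linarith
  have h4 : 0 < mass (Wd δ f 0) := by linarith
  unfold nW
  rw [ev_smul, abs_mul, abs_of_pos (inv_pos.2 h4)]
  refine mul_le_mul_of_nonneg_right ?_ (abs_nonneg _)
  rw [inv_le_comm₀ h4 (by norm_num)]
  linarith

lemma pp_bound {φ1 φ4 : (ℤ × ℤ) →₀ ℝ} {L η : ℝ} (hL2 : (L ^ 2)⁻¹ = η) (hη : 0 ≤ η) {h : Hgt}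
    {r1 r4 : ℝ} (v1 : |ev φ1 h| ≤ 2 * |r1|) (v4 : |ev φ4 h| ≤ 2 * |r4|) :
    1 - gl φ1 L h * gl φ4 L h ≤ 4 * η * |r1| ^ 2 + 4 * η * |r4| ^ 2 := by
  have a1 := one_sub_gl φ1 L h
  have a2 := one_sub_gl φ4 L h
  have a3 := gl_le_one φ1 L h
  have a4 := gl_le_one φ4 L h
  have key : ∀ {φ : (ℤ × ℤ) →₀ ℝ} {r : ℝ}, |ev φ h| ≤ 2 * |r| →
      (ev φ h) ^ 2 / L ^ 2 ≤ 4 * η * |r| ^ 2 := by
    intro φ r v
    rw [div_eq_mul_inv, hL2, ← sq_abs]
    have h1 := pow_le_pow_left₀ (abs_nonneg _) v 2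
    have h2 := mul_le_mul_of_nonneg_right h1 hη
    refine h2.trans (le_of_eq ?_)
    ring
  have a7 := key v1
  have a8 := key v4
  have a9 : 1 - gl φ1 L h * gl φ4 L h ≤ (1 - gl φ1 L h) + (1 - gl φ4 L h) := by
    have : 0 ≤ (1 - gl φ1 L h) * (1 - gl φ4 L h) :=
      mul_nonneg (by linarith) (by linarith)
    linarith
  linarith

/-- The exponential form of the Schwinger-Dyson equation. -/
theorem char_lim {c : ℝ} (hPl : Pl c P)
    (hG : GRP P dX RX ∧ GRP P dY RY ∧ GRP P dD RD ∧ GRP P dA RA) (hP : FP.Hyp P) {κ : ℝ}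
    (hclt : CLT P κ) (hδp : ∀ n, 0 < δ n) (hδ : Tendsto δ atTop (𝓝[>] 0))
    (d : Dat P δ b D X1 X2 X3 X4 X) {ψ f0 g : ℝ × ℝ → ℝ} (hψ : TestOn b.box ψ) (hf0 : TestOn b.box f0) (hg : TestOn D g)
    (hgK : ∀ x, g x ≠ 0 → x ∈ b.K1 ∨ x ∈ b.K2 ∨ x ∈ b.K3 ∨ x ∈ b.K4) (s t : ℝ) :
    Tendsto (fun n => (∫ h, (X n h : ℂ) * (Complex.exp (Complex.I *
      ((t * Lf (δ n) (fun x => f0 x + g x) h : ℝ) : ℂ)) *
      (Complex.exp (Complex.I * ((s * Lf (δ n) (fun x => -lap ψ x) h : ℝ) : ℂ)) -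
        ((Real.exp (-(κ * (s * t * ∫ x, ψ x * f0 x)) -
          κ / 2 * (s ^ 2 * ∫ x, ψ x * (-lap ψ x))) : ℝ) : ℂ))) ∂(mu0 P)) /
      ((∫ h, X n h ∂(mu0 P) : ℝ) : ℂ)) atTop (𝓝 0) := by
  obtain ⟨χ, hχ, iχ, hψχ⟩ := exists_chi d.hx d.hy hψ
  obtain ⟨ρ1, hρ1, hρ1D, iρ1⟩ := d.r1
  obtain ⟨ρ4, hρ4, hρ4D, iρ4⟩ := d.r4
  have hV : TestOn D (fun x => -lap ψ x) := (hψ.lap.neg).mono d.hbD
  obtain ⟨C1, hC1, m1⟩ := d.mom ρ1 hρ1D 2
  obtain ⟨C4, hC4, m4⟩ := d.mom ρ4 hρ4D 2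
  obtain ⟨Cχ, hCχ, mχ⟩ := d.mom χ (hχ.mono d.hbD) 1
  obtain ⟨c0, hc0, hpos⟩ := d.pos
  -- masses
  have hmass : ∀ {f : ℝ × ℝ → ℝ}, Sm f → HasCompactSupport f → ∃ C : ℝ, 0 ≤ C ∧ ∀ δ : ℝ, 0 < δ →
      δ ≤ 1 → |mass (Wd δ f 0) - ∫ x, f x| ≤ C * δ := by
    intro f hf cf
    obtain ⟨R0, F, L, hR0, hR, hF, hL0, hL⟩ := smooth_bounds hf cf
    obtain ⟨C, hC, h⟩ := mass_Wd cf hf.continuous hL0 hL
    exact ⟨C, hC, fun δ h1 h2 => h δ h1 h2 0 (by simp)⟩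
  obtain ⟨A1, hA1, ma1⟩ := hmass hρ1.1 hρ1.2.1
  obtain ⟨A4, hA4, ma4⟩ := hmass hρ4.1 hρ4.2.1
  obtain ⟨Aχ, hAχ, maχ⟩ := hmass hχ.1 hχ.2.1
  obtain ⟨AV, hAV, maV⟩ := hmass hV.1 hV.2.1
  have hV0 : ∫ x, -lap ψ x = 0 := by rw [integral_neg, int_lap hψ.1 hψ.2.1, neg_zero]
  set p : ℝ := ∫ x, ψ x * f0 x with hp
  set q : ℝ := ∫ x, ψ x * (-lap ψ x) with hq
  set α : ℝ := Real.exp (-(κ * (s * t * p)) - κ / 2 * (s ^ 2 * q)) with hα
  have h0 : Tendsto δ atTop (𝓝 0) := hδ.mono_right nhdsWithin_le_nhds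
  set ψ' : ℝ × ℝ → ℝ := fun x => s * ψ x with hψ'd
  set f0' : ℝ × ℝ → ℝ := fun x => t * f0 x with hf0'd
  set g' : ℝ × ℝ → ℝ := fun x => t * g x with hg'd
  have hψ' : TestOn b.box ψ' := hψ.smul s
  have hf0' : TestOn b.box f0' := hf0.smul t
  have cg' : HasCompactSupport g' := hg.2.1.mul_left
  have hg'K : ∀ x, g' x ≠ 0 → x ∈ b.K1 ∨ x ∈ b.K2 ∨ x ∈ b.K3 ∨ x ∈ b.K4 := by
    intro x hx
    refine hgK x fun h => hx ?_
    simp only [hg'd, h, mul_zero]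
  have eα : Real.exp (-(κ * ∫ x, ψ' x * f0' x) - (κ / 2) * ∫ x, ψ' x * (-lap ψ' x)) = α := by
    rw [hα]
    have e1 : ∫ x, ψ' x * f0' x = s * t * p := by
      rw [hp, ← integral_const_mul]
      refine integral_congr_ae (Eventually.of_forall fun x => ?_)
      simp only [hψ'd, hf0'd]
      ring
    have e2 : ∫ x, ψ' x * (-lap ψ' x) = s ^ 2 * q := by
      rw [hq, ← integral_const_mul]
      refine integral_congr_ae (Eventually.of_forall fun x => ?_)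
      simp only [hψ'd]
      rw [lap_smul ψ hψ.1]
      ring
    rw [e1, e2]
  have hψχ' : ∀ x, ψ' x * χ x = 0 := fun x => by
    simp only [hψ'd]; rw [mul_assoc, hψχ, mul_zero]
  refine tendsto_of_param (C := (1 + |α|) * (4 * (C1 + C4))) (h0 := 1) one_pos fun η hη hη1 => ?_
  set L : ℝ := (√η)⁻¹ with hL
  have hsη : 0 < √η := Real.sqrt_pos.2 hη
  have hL1 : 1 ≤ L := by
    rw [hL]
    refine (one_le_inv₀ hsη).2 ?_
    exact Real.sqrt_le_one.2 hη1.le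
  have hL2 : (L ^ 2)⁻¹ = η := by
    rw [hL, inv_pow, inv_inv, Real.sq_sqrt hη.le]
  set G1 : ℕ → Hgt → ℂ := fun n h => ((X1 n h * gl (nW (δ n) ρ1 0) L h : ℝ) : ℂ) *
    Complex.exp (Complex.I * ((evK (Wd (δ n) g' 0) (lat (δ n) b.K1) h : ℝ) : ℂ)) with hG1
  set G2 : ℕ → Hgt → ℂ := fun n h => ((X2 n h : ℝ) : ℂ) *
    Complex.exp (Complex.I * ((evK (Wd (δ n) g' 0) (lat (δ n) b.K2) h : ℝ) : ℂ)) with hG2
  set G3 : ℕ → Hgt → ℂ := fun n h => ((X3 n h : ℝ) : ℂ) *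
    Complex.exp (Complex.I * ((evK (Wd (δ n) g' 0) (lat (δ n) b.K3) h : ℝ) : ℂ)) with hG3
  set G4 : ℕ → Hgt → ℂ := fun n h => ((X4 n h * gl (nW (δ n) ρ4 0) L h : ℝ) : ℂ) *
    Complex.exp (Complex.I * ((evK (Wd (δ n) g' 0) (lat (δ n) b.K4) h : ℝ) : ℂ)) with hG4
  have locgl : ∀ {K : Set (ℝ × ℝ)} {ρ : ℝ × ℝ → ℝ} (n : ℕ), TestOn K ρ →
      Loc (lat (δ n) K) (gl (nW (δ n) ρ 0) L) := by
    intro K ρ n hρ
    have hl : Loc (lat (δ n) K) (ev (Wd (δ n) ρ 0)) :=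
      loc_Wd hρ.2.1 (fun x hx => hρ.2.2 (subset_tsupport _ hx)) (hδp n)
    have e : gl (nW (δ n) ρ 0) L = fun h => (fun r : ℝ => Real.exp (-(((mass (Wd (δ n) ρ 0))⁻¹ * r)
        ^ 2 / L ^ 2))) (ev (Wd (δ n) ρ 0) h) := by
      funext h
      unfold gl nW
      rw [ev_smul]
    rw [e]
    exact hl.comp (fun r : ℝ => Real.exp (-(((mass (Wd (δ n) ρ 0))⁻¹ * r) ^ 2 / L ^ 2)))
  have l1 : ∀ n, Loc (lat (δ n) b.K1) (G1 n) := fun n =>
    ((d.l1 n).comp₂ (locgl n hρ1) (fun x y => ((x * y : ℝ) : ℂ))).comp₂ (loc_evK _ _)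
      (fun x y => x * Complex.exp (Complex.I * ((y : ℝ) : ℂ)))
  have l2 : ∀ n, Loc (lat (δ n) b.K2) (G2 n) := fun n =>
    (d.l2 n).comp₂ (loc_evK _ _) (fun x y => (x : ℂ) * Complex.exp (Complex.I * ((y : ℝ) : ℂ)))
  have l3 : ∀ n, Loc (lat (δ n) b.K3) (G3 n) := fun n =>
    (d.l3 n).comp₂ (loc_evK _ _) (fun x y => (x : ℂ) * Complex.exp (Complex.I * ((y : ℝ) : ℂ)))
  have l4 : ∀ n, Loc (lat (δ n) b.K4) (G4 n) := fun n =>
    ((d.l4 n).comp₂ (locgl n hρ4) (fun x y => ((x * y : ℝ) : ℂ))).comp₂ (loc_evK _ _)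
      (fun x y => x * Complex.exp (Complex.I * ((y : ℝ) : ℂ)))
  have b2 : ∀ n h, ‖G2 n h‖ ≤ 1 := fun n h => by
    rw [hG2]
    simp only
    rw [norm_mul, norm_expI, mul_one, Complex.norm_real, Real.norm_eq_abs,
      abs_of_nonneg (d.n2 n h).1]
    exact (d.n2 n h).2
  have b3 : ∀ n h, ‖G3 n h‖ ≤ 1 := fun n h => by
    rw [hG3]
    simp only
    rw [norm_mul, norm_expI, mul_one, Complex.norm_real, Real.norm_eq_abs,
      abs_of_nonneg (d.n3 n h).1]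
    exact (d.n3 n h).2
  have b1 : ∀ n h, ‖G1 n h‖ ≤ gl (nW (δ n) ρ1 0) L h := fun n h => by
    rw [hG1]
    simp only
    have h1 := gl_pos (nW (δ n) ρ1 0) L h
    have h2 := d.n1 n h
    rw [norm_mul, norm_expI, mul_one, Complex.norm_real, Real.norm_eq_abs,
      abs_of_nonneg (mul_nonneg h2.1 h1.le)]
    nlinarith
  have b4 : ∀ n h, ‖G4 n h‖ ≤ gl (nW (δ n) ρ4 0) L h := fun n h => by
    rw [hG4]
    simp only
    have h1 := gl_pos (nW (δ n) ρ4 0) L h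
    have h2 := d.n4 n h
    rw [norm_mul, norm_expI, mul_one, Complex.norm_real, Real.norm_eq_abs,
      abs_of_nonneg (mul_nonneg h2.1 h1.le)]
    nlinarith
  have hfa := fa_box hPl hG hP hclt hδ b d.hx d.hy d.he hf0' hψ' hχ iχ hψχ' hρ1 iρ1 hρ4 iρ4 hL1
    G1 G2 G3 G4 l1 l2 l3 l4 b2 b3 b1 b4
  rw [eα] at hfa
  -- the functionals
  set V : ℕ → Hgt → ℝ := fun n h => Lf (δ n) (fun x => f0 x + g x) h with hVd
  set U : ℕ → Hgt → ℝ := fun n h => Lf (δ n) (fun x => -lap ψ x) h with hUd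
  set m : ℕ → ℝ := fun n => mass (Wd (δ n) (fun x => -lap ψ x) 0) with hm
  set Φ : ℕ → Hgt → ℝ := fun n h => ev (nW (δ n) χ 0) h with hΦ
  set pp : ℕ → Hgt → ℝ := fun n h => gl (nW (δ n) ρ1 0) L h * gl (nW (δ n) ρ4 0) L h with hpp
  have hprod : ∀ n h, Yf (Wd (δ n) f0' 0) (zW (δ n) (fun x => -lap ψ' x) χ 0) α h *
      G1 n h * G2 n h * G3 n h * G4 n h =
      (X n h : ℂ) * (((pp n h : ℝ) : ℂ) * (Complex.exp (Complex.I * ((t * V n h : ℝ) : ℂ)) *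
        (Complex.exp (Complex.I * ((s * U n h - s * m n * Φ n h : ℝ) : ℂ)) - (α : ℂ)))) := by
    intro n h
    have e1 : ev (Wd (δ n) f0' 0) h + ev (Wd (δ n) g' 0) h = t * V n h := by
      rw [hVd]
      simp only [Lf]
      rw [Wd_add (hδp n) hf0.2.1 hg.2.1, ev_add, Wd_smul (hδp n) hf0.2.1,
        Wd_smul (hδp n) hg.2.1, ev_smul, ev_smul]
      ring
    have e2 := ev_arms d.hx d.hy d.he cg' hg'K (hδp n) h
    have e3 : ev (zW (δ n) (fun x => -lap ψ' x) χ 0) h = s * U n h - s * m n * Φ n h := by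
      have e4 : (fun x => -lap ψ' x) = fun x => s * (-lap ψ x) := by
        funext x
        rw [hψ'd, lap_smul ψ hψ.1]
        ring
      rw [e4]
      unfold zW
      rw [Wd_smul (hδp n) hV.2.1, ev_sub, ev_smul, ev_smul, mass_smul']
      rfl
    rw [e2] at e1
    have e5 : Complex.exp (Complex.I * ((t * V n h : ℝ) : ℂ)) =
        Complex.exp (Complex.I * ((ev (Wd (δ n) f0' 0) h : ℝ) : ℂ)) *
        Complex.exp (Complex.I * ((evK (Wd (δ n) g' 0) (lat (δ n) b.K1) h : ℝ) : ℂ)) *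
        Complex.exp (Complex.I * ((evK (Wd (δ n) g' 0) (lat (δ n) b.K2) h : ℝ) : ℂ)) *
        Complex.exp (Complex.I * ((evK (Wd (δ n) g' 0) (lat (δ n) b.K3) h : ℝ) : ℂ)) *
        Complex.exp (Complex.I * ((evK (Wd (δ n) g' 0) (lat (δ n) b.K4) h : ℝ) : ℂ)) := by
      rw [← Complex.exp_add, ← Complex.exp_add, ← Complex.exp_add, ← Complex.exp_add, ← e1]
      congr 1
      push_cast
      ring
    rw [e5, d.hX n h]
    simp only [hG1, hG2, hG3, hG4, hpp, Yf]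
    rw [e3]
    push_cast
    ring
  simp only [hprod] at hfa
  set An : ℕ → ℂ := fun n => ∫ h, (X n h : ℂ) * (((pp n h : ℝ) : ℂ) *
    (Complex.exp (Complex.I * ((t * V n h : ℝ) : ℂ)) *
        (Complex.exp (Complex.I * ((s * U n h - s * m n * Φ n h : ℝ) : ℂ)) - (α : ℂ))))
    ∂(mu0 P) with hAn
  have hmn : Tendsto m atTop (𝓝 0) := by
    have h1 : Tendsto (fun n => AV * δ n) atTop (𝓝 0) := by
      have := h0.const_mul AV
      rwa [mul_zero] at this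
    refine squeeze_zero_norm' ?_ h1
    filter_upwards [h0.eventually (ge_mem_nhds one_pos)] with n hn
    have := maV (δ n) (hδp n) hn
    rw [hV0, sub_zero] at this
    exact this
  refine ⟨fun n => ‖An n‖ / c0 + |s| * |m n| * (2 * Cχ), ?_, ?_⟩
  · have a1 := (hfa.norm).div_const c0
    have a2 := (hmn.norm.const_mul |s|).mul_const (2 * Cχ)
    rw [norm_zero, zero_div] at a1
    rw [norm_zero, mul_zero, zero_mul] at a2
    have := a1.add a2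
    rw [add_zero] at this
    exact this
  · have hms : ∀ {A : ℝ}, 0 ≤ A → ∀ᶠ n in atTop, A * δ n ≤ 1 / 2 := by
      intro A hA
      have h1 : Tendsto (fun n => A * δ n) atTop (𝓝 0) := by
        have := h0.const_mul A
        rwa [mul_zero] at this
      exact h1.eventually (ge_mem_nhds (by norm_num))
    filter_upwards [h0.eventually (ge_mem_nhds one_pos), hms hA1, hms hA4, hms hAχ, m1, m4, mχ,
      d.int, hpos] with n hn1 q1 q4 qχ w1 w4 wχ hXi hIc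
    have hIpos : 0 < ∫ h, X n h ∂(mu0 P) := lt_of_lt_of_le hc0 hIc
    set In : ℝ := ∫ h, X n h ∂(mu0 P) with hIn
    have v1 := nW_bound iρ1 (ma1 (δ n) (hδp n) hn1) q1
    have v4 := nW_bound iρ4 (ma4 (δ n) (hδp n) hn1) q4
    have vχ := nW_bound iχ (maχ (δ n) (hδp n) hn1) qχ
    have hfin := est (μ := mu0 P) (Y := X n) (U := U n) (V := V n) (Φ := Φ n) (pp := pp n)
      (r1 := Lf (δ n) ρ1) (r4 := Lf (δ n) ρ4) (rχ := Lf (δ n) χ) (s := s) (t := t) (m := m n)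
      (α := α) (η := η) (Cχ := Cχ) (C1 := C1) (C4 := C4) (I0 := In)
      (measurable_Lf _ _) (measurable_Lf _ _) (measurable_ev _)
      ((measurable_gl _ _).mul (measurable_gl _ _)) (d.X_nonneg n) hXi
      (fun h => ⟨mul_nonneg (gl_pos _ _ _).le (gl_pos _ _ _).le,
        mul_le_one₀ (gl_le_one _ _ _) (gl_pos _ _ _).le (gl_le_one _ _ _)⟩) hη.le vχ
      (fun h => pp_bound hL2 hη.le (v1 h) (v4 h)) wχ w1 w4
    rw [norm_div, Complex.norm_real, Real.norm_eq_abs, abs_of_pos hIpos, div_le_iff₀ hIpos]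
    refine hfin.trans ?_
    have h9 : ‖An n‖ ≤ ‖An n‖ / c0 * In := by
      rw [div_mul_eq_mul_div, le_div_iff₀ hc0]
      exact mul_le_mul_of_nonneg_left hIc (norm_nonneg _)
    rw [show (‖An n‖ / c0 + |s| * |m n| * (2 * Cχ) + (1 + |α|) * (4 * (C1 + C4)) * η) * In =
      ‖An n‖ / c0 * In + (|s| * |m n| * (2 * Cχ) + (1 + |α|) * (4 * (C1 + C4)) * η) * In by ring]
    exact add_le_add h9 le_rfl

/-- The normalised measure. -/
noncomputable def MX (P : Measure (Ori (ℤ × ℤ))) (X : Hgt → ℝ) : Measure Hgt :=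
  (mu0 P).withDensity fun h => ENNReal.ofReal (X h / ∫ h, X h ∂(mu0 P))

lemma MX_int {E : Type*} [NormedAddCommGroup E] [NormedSpace ℝ E] {X : Hgt → ℝ}
    (hXm : Measurable X) (hX0 : ∀ h, 0 ≤ X h) (F : Hgt → E) :
    ∫ h, F h ∂(MX P X) = (∫ h, X h ∂(mu0 P))⁻¹ • ∫ h, X h • F h ∂(mu0 P) := by
  have hI : 0 ≤ ∫ h, X h ∂(mu0 P) := integral_nonneg hX0
  have hm : Measurable fun h => ENNReal.ofReal (X h / ∫ h, X h ∂(mu0 P)) :=
    ENNReal.measurable_ofReal.comp (hXm.div_const _)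
  unfold MX
  rw [integral_withDensity_eq_integral_toReal_smul hm
    (Eventually.of_forall fun h => ENNReal.ofReal_lt_top), ← integral_smul]
  refine integral_congr_ae (Eventually.of_forall fun h => ?_)
  simp only
  rw [ENNReal.toReal_ofReal (div_nonneg (hX0 h) hI), smul_smul, div_eq_inv_mul]

lemma MX_integrable {X : Hgt → ℝ} (hXm : Measurable X) (hX0 : ∀ h, 0 ≤ X h) {F : Hgt → ℝ}
    (hF : Integrable (fun h => F h * X h) (mu0 P)) : Integrable F (MX P X) := by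
  have hI : 0 ≤ ∫ h, X h ∂(mu0 P) := integral_nonneg hX0
  have hm : Measurable fun h => ENNReal.ofReal (X h / ∫ h, X h ∂(mu0 P)) :=
    ENNReal.measurable_ofReal.comp (hXm.div_const _)
  unfold MX
  rw [integrable_withDensity_iff_integrable_smul' hm
    (Eventually.of_forall fun h => ENNReal.ofReal_lt_top)]
  refine (hF.const_mul (∫ h, X h ∂(mu0 P))⁻¹).congr (Eventually.of_forall fun h => ?_)
  simp only [smul_eq_mul]
  rw [ENNReal.toReal_ofReal (div_nonneg (hX0 h) hI), div_eq_inv_mul]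
  ring

lemma MX_finite {X : Hgt → ℝ} : IsFiniteMeasure (MX P X) := by
  unfold MX
  by_cases hXi : Integrable X (mu0 P)
  · exact isFiniteMeasure_withDensity_ofReal (hXi.div_const _).2
  · rw [integral_undef hXi]
    simp only [div_zero, ENNReal.ofReal_zero]
    rw [show (fun _ : Hgt => (0 : ENNReal)) = 0 from rfl, withDensity_zero]
    infer_instance

lemma Dat.bm (d : Dat P δ b D X1 X2 X3 X4 X) {f : ℝ × ℝ → ℝ} (hf : TestOn D f) :
    BM (fun n => MX P (X n)) (fun n => Lf (δ n) f) := by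
  refine ⟨fun n => measurable_Lf _ _, fun k => ?_⟩
  obtain ⟨C, hC, hm⟩ := d.mom f hf k
  obtain ⟨c0, hc0, hpos⟩ := d.pos
  refine ⟨C, hC, ?_⟩
  filter_upwards [hm, hpos] with n h1 h2
  have hI : 0 < ∫ h, X n h ∂(mu0 P) := lt_of_lt_of_le hc0 h2
  refine ⟨MX_integrable (d.X_meas n) (d.X_nonneg n) h1.1, ?_⟩
  rw [MX_int (d.X_meas n) (d.X_nonneg n), smul_eq_mul, inv_mul_le_iff₀ hI]
  refine le_trans (le_of_eq ?_) (h1.2.trans (le_of_eq (mul_comm _ _)))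
  refine integral_congr_ae (Eventually.of_forall fun h => ?_)
  simp only [smul_eq_mul]
  ring

/-- **Schwinger-Dyson equations for the moments** under the product `X = X1 X2 X3 X4` of local
functionals in the arms of a pinwheel. -/
theorem use {c : ℝ} (hPl : Pl c P)
    (hG : GRP P dX RX ∧ GRP P dY RY ∧ GRP P dD RD ∧ GRP P dA RA) (hP : FP.Hyp P) {κ : ℝ}
    (hclt : CLT P κ) (hδp : ∀ n, 0 < δ n) (hδ : Tendsto δ atTop (𝓝[>] 0))
    (d : Dat P δ b D X1 X2 X3 X4 X) {ψ f0 g : ℝ × ℝ → ℝ} (hψ : TestOn b.box ψ)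
    (hf0 : TestOn b.box f0) (hg : TestOn D g)
    (hgK : ∀ x, g x ≠ 0 → x ∈ b.K1 ∨ x ∈ b.K2 ∨ x ∈ b.K3 ∨ x ∈ b.K4) (k : ℕ) :
    Tendsto (fun n => (∫ h, Lf (δ n) (lap ψ) h * Lf (δ n) (fun x => f0 x + g x) h ^ (k + 1) *
        X n h ∂(mu0 P)) / (∫ h, X n h ∂(mu0 P)) +
      κ * (k + 1) * (∫ x, ψ x * f0 x) *
        ((∫ h, Lf (δ n) (fun x => f0 x + g x) h ^ k * X n h ∂(mu0 P)) /
          ∫ h, X n h ∂(mu0 P))) atTop (𝓝 0) := by
  have hf : TestOn D (fun x => f0 x + g x) := (hf0.mono d.hbD).add hg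
  have hV : TestOn D (fun x => -lap ψ x) := (hψ.lap.neg).mono d.hbD
  have hfin : ∀ n, IsFiniteMeasure (MX P (X n)) := fun n => MX_finite
  have h1 := moments (M := fun n => MX P (X n)) (U := fun n => Lf (δ n) (fun x => -lap ψ x))
    (V := fun n => Lf (δ n) (fun x => f0 x + g x)) (κ := κ) (p := ∫ x, ψ x * f0 x)
    (q := ∫ x, ψ x * (-lap ψ x)) (d.bm hV) (d.bm hf) (fun s t => ?_) (k + 1)
  · have h2 := h1.neg
    rw [neg_zero] at h2
    refine h2.congr fun n => ?_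
    have e1 : ∀ h, Lf (δ n) (fun x => -lap ψ x) h = - Lf (δ n) (lap ψ) h := by
      intro h
      have e2 : (fun x => -lap ψ x) = fun x => (-1) * lap ψ x := by funext x; ring
      unfold Lf
      rw [e2, Wd_smul (hδp n) hψ.lap.cs, ev_smul]
      ring
    rw [MX_int (d.X_meas n) (d.X_nonneg n), MX_int (d.X_meas n) (d.X_nonneg n), smul_eq_mul,
      smul_eq_mul, Nat.add_sub_cancel]
    have e3 : ∫ h, X n h • (Lf (δ n) (fun x => -lap ψ x) h *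
        Lf (δ n) (fun x => f0 x + g x) h ^ (k + 1)) ∂(mu0 P) =
        - ∫ h, Lf (δ n) (lap ψ) h * Lf (δ n) (fun x => f0 x + g x) h ^ (k + 1) *
        X n h ∂(mu0 P) := by
      rw [← integral_neg]
      refine integral_congr_ae (Eventually.of_forall fun h => ?_)
      simp only [smul_eq_mul]
      rw [e1]
      ring
    have e4 : ∫ h, X n h • Lf (δ n) (fun x => f0 x + g x) h ^ k ∂(mu0 P) =
        ∫ h, Lf (δ n) (fun x => f0 x + g x) h ^ k * X n h ∂(mu0 P) := by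
      refine integral_congr_ae (Eventually.of_forall fun h => ?_)
      simp only [smul_eq_mul]
      ring
    rw [e3, e4]
    push_cast
    ring
  · have h3 := char_lim hPl hG hP hclt hδp hδ d hψ hf0 hg hgK s t
    refine h3.congr fun n => ?_
    rw [MX_int (d.X_meas n) (d.X_nonneg n)]
    rw [← Complex.coe_smul, smul_eq_mul, div_eq_inv_mul]
    push_cast
    simp only [Complex.real_smul]

end Vale.Agent.P145.FA.Use
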