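import Mathlib

/-!
P145, block F-A: from characteristic functions to moments in the Schwinger-Dyson equations.
-/

namespace Vale.Agent.P145.FA.Use

open MeasureTheory Filter Topology Complex

/-- Squeeze with a free parameter. -/
lemma tendsto_of_param {x : ℕ → ℂ} {C h0 : ℝ} (h0pos : 0 < h0)
    (h : ∀ η : ℝ, 0 < η → η < h0 → ∃ y : ℕ → ℝ, Tendsto y atTop (𝓝 0) ∧
      ∀ᶠ n in atTop, ‖x n‖ ≤ y n + C * η) : Tendsto x atTop (𝓝 0) := by
  rw [Metric.tendsto_atTop']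
  intro ε hε
  have hC : (0 : ℝ) < |C| + 1 := by positivity
  set η : ℝ := min (h0 / 2) (ε / 4 / (|C| + 1)) with hη
  have hη0 : 0 < η := lt_min (by linarith) (by positivity)
  have hη1 : η < h0 := (min_le_left _ _).trans_lt (by linarith)
  have hη2 : η ≤ ε / 4 / (|C| + 1) := min_le_right _ _
  obtain ⟨y, hy, hxy⟩ := h η hη0 hη1
  have h1 : ∀ᶠ n in atTop, y n < ε / 2 := hy.eventually (gt_mem_nhds (by linarith))
  obtain ⟨N, hN⟩ := eventually_atTop.1 (h1.and hxy)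
  refine ⟨N, fun n hn => ?_⟩
  obtain ⟨a1, a2⟩ := hN n hn.le
  have h3 : C * η ≤ ε / 4 := by
    have h4 : C * η ≤ (|C| + 1) * η := mul_le_mul_of_nonneg_right
      ((le_abs_self C).trans (by linarith)) hη0.le
    have h5 : (|C| + 1) * η ≤ ε / 4 := by
      rw [le_div_iff₀ hC] at hη2
      linarith
    linarith
  rw [dist_zero_right]
  linarith

lemma norm_expI (x : ℝ) : ‖cexp (I * x)‖ = 1 := by
  rw [mul_comm]
  exact Complex.norm_exp_ofReal_mul_I x

lemma expI_sub_one (x : ℝ) : ‖cexp (I * x) - 1‖ ≤ |x| := by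
  have := Real.norm_exp_I_mul_ofReal_sub_one_le (x := x)
  rwa [Real.norm_eq_abs] at this

lemma expI_taylor (x : ℝ) : ‖cexp (I * x) - 1 - I * x‖ ≤ 3 * x ^ 2 := by
  have hn : ‖(I * x : ℂ)‖ = |x| := by simp
  by_cases hx : |x| ≤ 1
  · have h := Complex.norm_exp_sub_one_sub_id_le (x := I * x) (by rw [hn]; exact hx)
    rw [hn, sq_abs] at h
    nlinarith [sq_nonneg x]
  · push Not at hx
    have h1 := norm_sub_le (cexp (I * x) - 1) (I * x)
    rw [hn] at h1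
    have h2 := expI_sub_one x
    have h3 : |x| ≤ x ^ 2 := by rw [← sq_abs]; nlinarith
    linarith

variable {Ω : Type*} [MeasurableSpace Ω]

/-- Bounded moments. -/
def BM (M : ℕ → Measure Ω) (V : ℕ → Ω → ℝ) : Prop :=
  (∀ n, Measurable (V n)) ∧ ∀ k : ℕ, ∃ C : ℝ, 0 ≤ C ∧ ∀ᶠ n in atTop,
    Integrable (fun ω => |V n ω| ^ k) (M n) ∧ ∫ ω, |V n ω| ^ k ∂(M n) ≤ C

/-- The integrand. -/
noncomputable def aj (κp : ℝ) (j : ℕ) (t u v : ℝ) : ℂ :=
  (I * u + κp * t) * (I * v) ^ j * cexp (I * ((t * v : ℝ) : ℂ)) +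
    κp * j * (I * v) ^ (j - 1) * cexp (I * ((t * v : ℝ) : ℂ))

lemma norm_Iv (v : ℝ) (j : ℕ) : ‖(I * v : ℂ) ^ j‖ = |v| ^ j := by
  rw [norm_pow]; simp

lemma aj_step (κp : ℝ) (j : ℕ) (t η u v : ℝ) (hη : 0 < η) :
    ‖aj κp j (t + η) u v - aj κp j t u v - η * aj κp (j + 1) t u v‖ ≤
      η ^ 2 * (3 * (|u| + |κp * t|) * |v| ^ (j + 2) + 3 * |κp| * (1 + j) * |v| ^ (j + 1)) := by
  have e0 : cexp (I * (((t + η) * v : ℝ) : ℂ)) =
      cexp (I * ((t * v : ℝ) : ℂ)) * cexp (I * ((η * v : ℝ) : ℂ)) := by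
    rw [← Complex.exp_add]; congr 1; push_cast; ring
  set A := cexp (I * ((t * v : ℝ) : ℂ)) with hA
  set B := cexp (I * ((η * v : ℝ) : ℂ)) with hB
  have hAn : ‖A‖ = 1 := norm_expI _
  have hB0 : ‖B - 1‖ ≤ η * |v| := by
    have := expI_sub_one (η * v)
    rwa [abs_mul, abs_of_pos hη] at this
  have hB1 : ‖B - 1 - I * ((η * v : ℝ) : ℂ)‖ ≤ 3 * (η * v) ^ 2 := expI_taylor _
  have key : aj κp j (t + η) u v - aj κp j t u v - η * aj κp (j + 1) t u v =
      (I * u + κp * t) * (I * v) ^ j * A * (B - 1 - I * ((η * v : ℝ) : ℂ)) +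
      κp * η * (I * v) ^ j * A * (B - 1) +
      κp * j * (I * v) ^ (j - 1) * A * (B - 1 - I * ((η * v : ℝ) : ℂ)) := by
    unfold aj
    rw [e0, ← hA]
    rcases j with _ | j
    · simp only [Nat.cast_zero, pow_zero]
      push_cast
      simp only [pow_one, pow_zero]
      ring
    · simp only [Nat.add_sub_cancel]
      push_cast
      ring
  rw [key]
  have n1 : ‖(I * u + κp * t : ℂ)‖ ≤ |u| + |κp * t| := by
    refine (norm_add_le _ _).trans (le_of_eq ?_)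
    rw [norm_mul, Complex.norm_I, one_mul, Complex.norm_real, Real.norm_eq_abs,
      ← Complex.ofReal_mul, Complex.norm_real, Real.norm_eq_abs]
  have T1 : ‖(I * u + κp * t) * (I * v) ^ j * A * (B - 1 - I * ((η * v : ℝ) : ℂ))‖ ≤
      η ^ 2 * (3 * (|u| + |κp * t|) * |v| ^ (j + 2)) := by
    rw [norm_mul, norm_mul, norm_mul, hAn, mul_one, norm_Iv]
    calc ‖(I * u + κp * t : ℂ)‖ * |v| ^ j * ‖B - 1 - I * ((η * v : ℝ) : ℂ)‖
        ≤ (|u| + |κp * t|) * |v| ^ j * (3 * (η * v) ^ 2) :=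
          mul_le_mul (mul_le_mul_of_nonneg_right n1 (by positivity)) hB1 (norm_nonneg _)
            (by positivity)
      _ = η ^ 2 * (3 * (|u| + |κp * t|) * |v| ^ (j + 2)) := by
          rw [pow_add, sq_abs]; ring
  have T2 : ‖(κp : ℂ) * η * (I * v) ^ j * A * (B - 1)‖ ≤ η ^ 2 * (|κp| * |v| ^ (j + 1)) := by
    rw [norm_mul, norm_mul, norm_mul, norm_mul, hAn, mul_one, norm_Iv, Complex.norm_real,
      Complex.norm_real, Real.norm_eq_abs, Real.norm_eq_abs, abs_of_pos hη]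
    calc |κp| * η * |v| ^ j * ‖B - 1‖ ≤ |κp| * η * |v| ^ j * (η * |v|) :=
          mul_le_mul_of_nonneg_left hB0 (by positivity)
      _ = η ^ 2 * (|κp| * |v| ^ (j + 1)) := by ring
  have T3 : ‖(κp : ℂ) * j * (I * v) ^ (j - 1) * A * (B - 1 - I * ((η * v : ℝ) : ℂ))‖ ≤
      η ^ 2 * (3 * |κp| * j * |v| ^ (j + 1)) := by
    rcases j with _ | j
    · simp
    · rw [norm_mul, norm_mul, norm_mul, norm_mul, hAn, mul_one, norm_Iv, Complex.norm_real,
        Real.norm_eq_abs, Complex.norm_natCast]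
      simp only [Nat.add_sub_cancel]
      calc |κp| * ((j + 1 : ℕ) : ℝ) * |v| ^ j * ‖B - 1 - I * ((η * v : ℝ) : ℂ)‖
          ≤ |κp| * ((j + 1 : ℕ) : ℝ) * |v| ^ j * (3 * (η * v) ^ 2) :=
            mul_le_mul_of_nonneg_left hB1 (by positivity)
        _ = η ^ 2 * (3 * |κp| * ((j + 1 : ℕ) : ℝ) * |v| ^ (j + 1 + 1)) := by
            rw [show |v| ^ (j + 1 + 1) = |v| ^ j * |v| ^ 2 by ring, sq_abs]; ring
  refine (norm_add_le _ _).trans ((add_le_add (norm_add_le _ _) le_rfl).trans ?_)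
  have hp : 0 ≤ η ^ 2 * (|κp| * |v| ^ (j + 1)) := by positivity
  calc _ ≤ η ^ 2 * (3 * (|u| + |κp * t|) * |v| ^ (j + 2)) + η ^ 2 * (|κp| * |v| ^ (j + 1)) +
        η ^ 2 * (3 * |κp| * j * |v| ^ (j + 1)) := add_le_add (add_le_add T1 T2) T3
    _ ≤ _ := by nlinarith

lemma norm_aj_le (κp : ℝ) (j : ℕ) (t u v : ℝ) : ‖aj κp j t u v‖ ≤
    (|u| + |κp * t|) * |v| ^ j + |κp| * j * |v| ^ (j - 1) := by
  unfold aj
  refine (norm_add_le _ _).trans (add_le_add ?_ ?_)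
  · rw [norm_mul, norm_mul, norm_expI, mul_one, norm_Iv]
    refine mul_le_mul_of_nonneg_right ?_ (by positivity)
    refine (norm_add_le _ _).trans (le_of_eq ?_)
    rw [norm_mul, Complex.norm_I, one_mul, Complex.norm_real, Real.norm_eq_abs,
      ← Complex.ofReal_mul, Complex.norm_real, Real.norm_eq_abs]
  · rw [norm_mul, norm_mul, norm_mul, norm_expI, mul_one, norm_Iv, Complex.norm_real,
      Real.norm_eq_abs, Complex.norm_natCast]

variable {M : ℕ → Measure Ω} {U V : ℕ → Ω → ℝ}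

lemma BM.prod (hU : BM M U) (hV : BM M V) (a b : ℕ) : ∃ C : ℝ, 0 ≤ C ∧ ∀ᶠ n in atTop,
    Integrable (fun ω => |U n ω| ^ a * |V n ω| ^ b) (M n) ∧
    ∫ ω, |U n ω| ^ a * |V n ω| ^ b ∂(M n) ≤ C := by
  obtain ⟨C1, hC1, h1⟩ := hU.2 (2 * a)
  obtain ⟨C2, hC2, h2⟩ := hV.2 (2 * b)
  refine ⟨C1 + C2, by positivity, ?_⟩
  filter_upwards [h1, h2] with n hn1 hn2
  have key : ∀ ω, |U n ω| ^ a * |V n ω| ^ b ≤ |U n ω| ^ (2 * a) + |V n ω| ^ (2 * b) := by
    intro ω
    rw [pow_mul', pow_mul']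
    nlinarith [sq_nonneg (|U n ω| ^ a - |V n ω| ^ b), sq_nonneg (|U n ω| ^ a),
      sq_nonneg (|V n ω| ^ b)]
  have hm : AEStronglyMeasurable (fun ω => |U n ω| ^ a * |V n ω| ^ b) (M n) := by
    have m1 := hU.1 n
    have m2 := hV.1 n
    have m3 : Measurable (fun ω => |U n ω| ^ a * |V n ω| ^ b) := by fun_prop
    exact m3.aestronglyMeasurable
  have hi : Integrable (fun ω => |U n ω| ^ a * |V n ω| ^ b) (M n) := by
    refine (hn1.1.add hn2.1).mono' hm (Eventually.of_forall fun ω => ?_)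
    rw [Real.norm_eq_abs, abs_of_nonneg (by positivity)]
    exact key ω
  refine ⟨hi, ?_⟩
  refine (integral_mono hi (hn1.1.add hn2.1) key).trans ?_
  have e : ∫ ω, (|U n ω| ^ (2 * a) + |V n ω| ^ (2 * b)) ∂(M n) =
      ∫ ω, |U n ω| ^ (2 * a) ∂(M n) + ∫ ω, |V n ω| ^ (2 * b) ∂(M n) := integral_add hn1.1 hn2.1
  exact e.le.trans (add_le_add hn1.2 hn2.2)

lemma meas_aj (hU : ∀ n, Measurable (U n)) (hV : ∀ n, Measurable (V n)) (κp : ℝ) (j : ℕ) (t : ℝ)
    (n : ℕ) : AEStronglyMeasurable (fun ω => aj κp j t (U n ω) (V n ω)) (M n) := by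
  have m1 := hU n
  have m2 := hV n
  have m3 : Measurable (fun ω => aj κp j t (U n ω) (V n ω)) := by
    unfold aj
    fun_prop
  exact m3.aestronglyMeasurable

lemma aj_int (hU : BM M U) (hV : BM M V) (κp : ℝ) (j : ℕ) (t : ℝ) :
    ∀ᶠ n in atTop, Integrable (fun ω => aj κp j t (U n ω) (V n ω)) (M n) := by
  obtain ⟨C1, hC1, h1⟩ := hU.prod hV 1 j
  obtain ⟨C2, hC2, h2⟩ := hV.2 j
  obtain ⟨C3, hC3, h3⟩ := hV.2 (j - 1)
  filter_upwards [h1, h2, h3] with n hn1 hn2 hn3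
  refine ((hn1.1.add (hn2.1.const_mul |κp * t|)).add (hn3.1.const_mul (|κp| * j))).mono'
    (meas_aj hU.1 hV.1 κp j t n) (Eventually.of_forall fun ω => ?_)
  refine (norm_aj_le κp j t _ _).trans (le_of_eq ?_)
  simp only [Pi.add_apply, pow_one]
  ring

lemma aj_tendsto (hU : BM M U) (hV : BM M V) (κp : ℝ)
    (h0 : ∀ t : ℝ, Tendsto (fun n => ∫ ω, aj κp 0 t (U n ω) (V n ω) ∂(M n)) atTop (𝓝 0)) (j : ℕ) :
    ∀ t : ℝ, Tendsto (fun n => ∫ ω, aj κp j t (U n ω) (V n ω) ∂(M n)) atTop (𝓝 0) := by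
  induction j with
  | zero => exact h0
  | succ j ih =>
    intro t
    obtain ⟨C1, hC1, h1⟩ := hU.prod hV 1 (j + 2)
    obtain ⟨C2, hC2, h2⟩ := hV.2 (j + 2)
    obtain ⟨C3, hC3, h3⟩ := hV.2 (j + 1)
    refine tendsto_of_param (C := 3 * C1 + 3 * |κp * t| * C2 + 3 * |κp| * (1 + j) * C3) one_pos
      fun η hη _ => ?_
    refine ⟨fun n => η⁻¹ * (‖∫ ω, aj κp j (t + η) (U n ω) (V n ω) ∂(M n)‖ +
      ‖∫ ω, aj κp j t (U n ω) (V n ω) ∂(M n)‖), ?_, ?_⟩
    · have a1 := (ih (t + η)).norm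
      have a2 := (ih t).norm
      rw [norm_zero] at a1 a2
      have := (a1.add a2).const_mul η⁻¹
      rwa [add_zero, mul_zero] at this
    · filter_upwards [h1, h2, h3, aj_int hU hV κp j (t + η), aj_int hU hV κp j t,
        aj_int hU hV κp (j + 1) t] with n hn1 hn2 hn3 i1 i2 i3
      set R : Ω → ℂ := fun ω => aj κp j (t + η) (U n ω) (V n ω) - aj κp j t (U n ω) (V n ω) -
        η * aj κp (j + 1) t (U n ω) (V n ω) with hR
      have e1 : ∫ ω, R ω ∂(M n) = ∫ ω, aj κp j (t + η) (U n ω) (V n ω) ∂(M n) -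
          ∫ ω, aj κp j t (U n ω) (V n ω) ∂(M n) -
          η * ∫ ω, aj κp (j + 1) t (U n ω) (V n ω) ∂(M n) := by
        have i12 : Integrable (fun ω => aj κp j (t + η) (U n ω) (V n ω) -
          aj κp j t (U n ω) (V n ω)) (M n) := i1.sub i2
        rw [hR, integral_sub i12 (i3.const_mul _), integral_sub i1 i2, integral_const_mul]
      set b : Ω → ℝ := fun ω => 3 * (|U n ω| ^ 1 * |V n ω| ^ (j + 2)) +
        3 * |κp * t| * |V n ω| ^ (j + 2) + 3 * |κp| * (1 + j) * |V n ω| ^ (j + 1) with hb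
      have ib1 : Integrable (fun ω => 3 * (|U n ω| ^ 1 * |V n ω| ^ (j + 2))) (M n) :=
        hn1.1.const_mul _
      have ib2 : Integrable (fun ω => 3 * |κp * t| * |V n ω| ^ (j + 2)) (M n) :=
        hn2.1.const_mul _
      have ib3 : Integrable (fun ω => 3 * |κp| * (1 + j) * |V n ω| ^ (j + 1)) (M n) :=
        hn3.1.const_mul _
      have eb : ∫ ω, b ω ∂(M n) ≤ 3 * C1 + 3 * |κp * t| * C2 + 3 * |κp| * (1 + j) * C3 := by
        have i12 : Integrable (fun ω => 3 * (|U n ω| ^ 1 * |V n ω| ^ (j + 2)) +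
          3 * |κp * t| * |V n ω| ^ (j + 2)) (M n) := ib1.add ib2
        rw [hb, integral_add i12 ib3, integral_add ib1 ib2, integral_const_mul,
          integral_const_mul, integral_const_mul]
        refine add_le_add (add_le_add ?_ ?_) ?_
        · exact mul_le_mul_of_nonneg_left hn1.2 (by norm_num)
        · exact mul_le_mul_of_nonneg_left hn2.2 (by positivity)
        · exact mul_le_mul_of_nonneg_left hn3.2 (by positivity)
      have e2 : ‖∫ ω, R ω ∂(M n)‖ ≤ η ^ 2 *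
          (3 * C1 + 3 * |κp * t| * C2 + 3 * |κp| * (1 + j) * C3) := by
        have h5 : ‖∫ ω, R ω ∂(M n)‖ ≤ ∫ ω, η ^ 2 * b ω ∂(M n) := by
          refine norm_integral_le_of_norm_le (((ib1.add ib2).add ib3).const_mul (η ^ 2))
            (Eventually.of_forall fun ω => ?_)
          refine (aj_step κp j t η _ _ hη).trans (le_of_eq ?_)
          simp only [hb]
          ring
        rw [integral_const_mul] at h5
        exact h5.trans (mul_le_mul_of_nonneg_left eb (by positivity))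
      have e3 : (η : ℂ) * ∫ ω, aj κp (j + 1) t (U n ω) (V n ω) ∂(M n) =
          ∫ ω, aj κp j (t + η) (U n ω) (V n ω) ∂(M n) -
          ∫ ω, aj κp j t (U n ω) (V n ω) ∂(M n) - ∫ ω, R ω ∂(M n) := by
        rw [e1]; ring
      have e4 : η * ‖∫ ω, aj κp (j + 1) t (U n ω) (V n ω) ∂(M n)‖ ≤
          ‖∫ ω, aj κp j (t + η) (U n ω) (V n ω) ∂(M n)‖ +
          ‖∫ ω, aj κp j t (U n ω) (V n ω) ∂(M n)‖ +
          η ^ 2 * (3 * C1 + 3 * |κp * t| * C2 + 3 * |κp| * (1 + j) * C3) := by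
        have h6 := congrArg norm e3
        rw [norm_mul, Complex.norm_real, Real.norm_eq_abs, abs_of_pos hη] at h6
        rw [h6]
        exact (norm_sub_le _ _).trans (add_le_add (norm_sub_le _ _) e2)
      have e5 : ‖∫ ω, aj κp (j + 1) t (U n ω) (V n ω) ∂(M n)‖ =
          η⁻¹ * (η * ‖∫ ω, aj κp (j + 1) t (U n ω) (V n ω) ∂(M n)‖) := by
        rw [← mul_assoc, inv_mul_cancel₀ hη.ne', one_mul]
      rw [e5]
      refine (mul_le_mul_of_nonneg_left e4 (inv_nonneg.2 hη.le)).trans (le_of_eq ?_)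
      field_simp

/-- The base case. -/
lemma a0_tendsto [∀ n, IsFiniteMeasure (M n)] (hU : BM M U) (hV : BM M V) {κ p q : ℝ}
    (h : ∀ s t : ℝ, Tendsto (fun n => ∫ ω, cexp (I * ((t * V n ω : ℝ) : ℂ)) *
      (cexp (I * ((s * U n ω : ℝ) : ℂ)) -
        ((Real.exp (-(κ * (s * t * p)) - κ / 2 * (s ^ 2 * q)) : ℝ) : ℂ)) ∂(M n)) atTop (𝓝 0))
    (t : ℝ) : Tendsto (fun n => ∫ ω, aj (κ * p) 0 t (U n ω) (V n ω) ∂(M n)) atTop (𝓝 0) := by
  obtain ⟨C1, hC1, h1⟩ := hU.2 2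
  obtain ⟨C2, hC2, h2⟩ := hU.2 0
  set D : ℝ := |κ * p * t| + |κ / 2 * q| with hD
  have hD0 : 0 ≤ D := by positivity
  refine tendsto_of_param (C := 3 * C1 + (D ^ 2 + D) * C2) (h0 := (1 + D)⁻¹) (by positivity)
    fun s hs hs1 => ?_
  have hs2 : s * (1 + D) < 1 := by
    have h5 : s < 1 / (1 + D) := by rwa [one_div]
    rwa [lt_div_iff₀ (by positivity)] at h5
  have hs3 : s ≤ 1 := by nlinarith
  set al : ℝ := Real.exp (-(κ * (s * t * p)) - κ / 2 * (s ^ 2 * q)) with hal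
  have hal1 : |al - 1 + κ * p * t * s| ≤ (D ^ 2 + D) * s ^ 2 := by
    set x : ℝ := -(κ * (s * t * p)) - κ / 2 * (s ^ 2 * q) with hx
    have hx1 : |x| ≤ D * s := by
      have e : x = -(s * (κ * p * t)) - s ^ 2 * (κ / 2 * q) := by rw [hx]; ring
      rw [e]
      refine (abs_sub _ _).trans ?_
      rw [abs_neg, abs_mul s, abs_mul (s ^ 2), abs_of_pos hs,
        abs_of_pos (by positivity : 0 < s ^ 2), hD]
      have : s ^ 2 * |κ / 2 * q| ≤ s * |κ / 2 * q| :=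
        mul_le_mul_of_nonneg_right (by nlinarith) (abs_nonneg _)
      nlinarith
    have hx2 : |x| ≤ 1 := hx1.trans (by nlinarith)
    have h3 := Real.abs_exp_sub_one_sub_id_le hx2
    have h4 : al - 1 + κ * p * t * s = (al - 1 - x) + -(s ^ 2 * (κ / 2 * q)) := by rw [hx]; ring
    rw [h4]
    refine (abs_add_le _ _).trans ?_
    rw [abs_neg, abs_mul, abs_of_pos (by positivity : 0 < s ^ 2)]
    have h5 : x ^ 2 ≤ (D * s) ^ 2 := sq_le_sq' (by linarith [neg_abs_le x]) ((le_abs_self x).trans hx1)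
    have h6 : |κ / 2 * q| ≤ D := by rw [hD]; linarith [abs_nonneg (κ * p * t)]
    nlinarith [mul_le_mul_of_nonneg_left h6 (by positivity : 0 ≤ s ^ 2)]
  refine ⟨fun n => s⁻¹ * ‖∫ ω, cexp (I * ((t * V n ω : ℝ) : ℂ)) *
      (cexp (I * ((s * U n ω : ℝ) : ℂ)) - (al : ℂ)) ∂(M n)‖, ?_, ?_⟩
  · have a1 := (h s t).norm
    rw [norm_zero] at a1
    have := a1.const_mul s⁻¹
    rwa [mul_zero] at this
  · filter_upwards [h1, h2, aj_int hU hV (κ * p) 0 t] with n hn1 hn2 i1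
    have mU := hU.1 n
    have mV := hV.1 n
    have i2 : Integrable (fun ω => cexp (I * ((t * V n ω : ℝ) : ℂ)) *
      (cexp (I * ((s * U n ω : ℝ) : ℂ)) - (al : ℂ))) (M n) := by
      refine Integrable.of_bound (C := 1 + |al|) ?_ (Eventually.of_forall fun ω => ?_)
      · have m3 : Measurable (fun ω => cexp (I * ((t * V n ω : ℝ) : ℂ)) *
          (cexp (I * ((s * U n ω : ℝ) : ℂ)) - (al : ℂ))) := by fun_prop
        exact m3.aestronglyMeasurable
      · rw [norm_mul, norm_expI, one_mul]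
        refine (norm_sub_le _ _).trans ?_
        rw [norm_expI, Complex.norm_real, Real.norm_eq_abs]
    set R : Ω → ℂ := fun ω => cexp (I * ((t * V n ω : ℝ) : ℂ)) *
      (cexp (I * ((s * U n ω : ℝ) : ℂ)) - (al : ℂ)) - s * aj (κ * p) 0 t (U n ω) (V n ω) with hR
    have e1 : ∫ ω, R ω ∂(M n) = ∫ ω, cexp (I * ((t * V n ω : ℝ) : ℂ)) *
      (cexp (I * ((s * U n ω : ℝ) : ℂ)) - (al : ℂ)) ∂(M n) -
        s * ∫ ω, aj (κ * p) 0 t (U n ω) (V n ω) ∂(M n) := by
      rw [hR, integral_sub i2 (i1.const_mul _), integral_const_mul]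
    have hRb : ∀ ω, ‖R ω‖ ≤ s ^ 2 * (3 * |U n ω| ^ 2 + (D ^ 2 + D) * |U n ω| ^ 0) := by
      intro ω
      have e : R ω = cexp (I * ((t * V n ω : ℝ) : ℂ)) *
          ((cexp (I * ((s * U n ω : ℝ) : ℂ)) - 1 - I * ((s * U n ω : ℝ) : ℂ)) -
            ((al - 1 + κ * p * t * s : ℝ) : ℂ)) := by
        rw [hR]
        simp only [aj]
        push_cast
        ring
      rw [e, norm_mul, norm_expI, one_mul]
      refine (norm_sub_le _ _).trans ?_
      rw [Complex.norm_real, Real.norm_eq_abs]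
      have h7 := expI_taylor (s * U n ω)
      rw [sq_abs, pow_zero]
      nlinarith
    have e2 : ‖∫ ω, R ω ∂(M n)‖ ≤ s ^ 2 * (3 * C1 + (D ^ 2 + D) * C2) := by
      have ib : Integrable (fun ω => 3 * |U n ω| ^ 2 + (D ^ 2 + D) * |U n ω| ^ 0) (M n) :=
        (hn1.1.const_mul _).add (hn2.1.const_mul _)
      have h5 : ‖∫ ω, R ω ∂(M n)‖ ≤
          ∫ ω, s ^ 2 * (3 * |U n ω| ^ 2 + (D ^ 2 + D) * |U n ω| ^ 0) ∂(M n) :=
        norm_integral_le_of_norm_le (ib.const_mul _) (Eventually.of_forall hRb)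
      rw [integral_const_mul, integral_add (hn1.1.const_mul _) (hn2.1.const_mul _),
        integral_const_mul, integral_const_mul] at h5
      refine h5.trans (mul_le_mul_of_nonneg_left (add_le_add ?_ ?_) (by positivity))
      · exact mul_le_mul_of_nonneg_left hn1.2 (by norm_num)
      · exact mul_le_mul_of_nonneg_left hn2.2 (by positivity)
    have e3 : (s : ℂ) * ∫ ω, aj (κ * p) 0 t (U n ω) (V n ω) ∂(M n) =
        ∫ ω, cexp (I * ((t * V n ω : ℝ) : ℂ)) *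
      (cexp (I * ((s * U n ω : ℝ) : ℂ)) - (al : ℂ)) ∂(M n) - ∫ ω, R ω ∂(M n) := by
      rw [e1]; ring
    have e4 : s * ‖∫ ω, aj (κ * p) 0 t (U n ω) (V n ω) ∂(M n)‖ ≤
        ‖∫ ω, cexp (I * ((t * V n ω : ℝ) : ℂ)) *
      (cexp (I * ((s * U n ω : ℝ) : ℂ)) - (al : ℂ)) ∂(M n)‖ +
        s ^ 2 * (3 * C1 + (D ^ 2 + D) * C2) := by
      have h6 := congrArg norm e3
      rw [norm_mul, Complex.norm_real, Real.norm_eq_abs, abs_of_pos hs] at h6
      rw [h6]
      exact (norm_sub_le _ _).trans (add_le_add le_rfl e2)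
    have e5 : ‖∫ ω, aj (κ * p) 0 t (U n ω) (V n ω) ∂(M n)‖ =
        s⁻¹ * (s * ‖∫ ω, aj (κ * p) 0 t (U n ω) (V n ω) ∂(M n)‖) := by
      rw [← mul_assoc, inv_mul_cancel₀ hs.ne', one_mul]
    rw [e5]
    refine (mul_le_mul_of_nonneg_left e4 (inv_nonneg.2 hs.le)).trans (le_of_eq ?_)
    field_simp

/-- **Moments.** From the characteristic functions to the Schwinger-Dyson equation for the
moments. -/
theorem moments [∀ n, IsFiniteMeasure (M n)] (hU : BM M U) (hV : BM M V) {κ p q : ℝ}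
    (h : ∀ s t : ℝ, Tendsto (fun n => ∫ ω, cexp (I * ((t * V n ω : ℝ) : ℂ)) *
      (cexp (I * ((s * U n ω : ℝ) : ℂ)) -
        ((Real.exp (-(κ * (s * t * p)) - κ / 2 * (s ^ 2 * q)) : ℝ) : ℂ)) ∂(M n)) atTop (𝓝 0))
    (k : ℕ) : Tendsto (fun n => (∫ ω, U n ω * V n ω ^ k ∂(M n)) -
      κ * p * k * ∫ ω, V n ω ^ (k - 1) ∂(M n)) atTop (𝓝 0) := by
  have h1 := aj_tendsto hU hV (κ * p) (a0_tendsto hU hV h) k 0
  have h2 := h1.norm
  rw [norm_zero] at h2
  refine squeeze_zero_norm' ?_ h2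
  obtain ⟨C1, hC1, g1⟩ := hU.prod hV 1 k
  obtain ⟨C2, hC2, g2⟩ := hV.2 (k - 1)
  filter_upwards [g1, g2] with n hn1 hn2
  have mU := hU.1 n
  have mV := hV.1 n
  have i1 : Integrable (fun ω => U n ω * V n ω ^ k) (M n) := by
    refine hn1.1.mono' ?_ (Eventually.of_forall fun ω => ?_)
    · have m3 : Measurable (fun ω => U n ω * V n ω ^ k) := by fun_prop
      exact m3.aestronglyMeasurable
    · rw [Real.norm_eq_abs, abs_mul, abs_pow, pow_one]
  have i2 : Integrable (fun ω => V n ω ^ (k - 1)) (M n) := by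
    refine hn2.1.mono' ?_ (Eventually.of_forall fun ω => ?_)
    · have m3 : Measurable (fun ω => V n ω ^ (k - 1)) := by fun_prop
      exact m3.aestronglyMeasurable
    · rw [Real.norm_eq_abs, abs_pow]
  have e : ∀ ω, aj (κ * p) k 0 (U n ω) (V n ω) =
      I ^ (k + 1) * ((U n ω * V n ω ^ k - κ * p * k * V n ω ^ (k - 1) : ℝ) : ℂ) := by
    intro ω
    unfold aj
    rcases k with _ | k
    · simp
    · simp only [Nat.add_sub_cancel, zero_mul, Complex.ofReal_zero, mul_zero, Complex.exp_zero,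
        mul_one, add_zero, mul_pow]
      push_cast
      have hI : I ^ (k + 1 + 1) = - I ^ k := by rw [pow_add, pow_add]; simp [mul_assoc]
      have hI1 : I * (U n ω : ℂ) * (I ^ (k + 1) * (V n ω : ℂ) ^ (k + 1)) =
        I ^ (k + 1 + 1) * (U n ω * V n ω ^ (k + 1)) := by ring
      rw [hI1, hI]
      ring
  simp only [e]
  rw [integral_const_mul, norm_mul, norm_pow, Complex.norm_I, one_pow, one_mul,
    integral_complex_ofReal, Complex.norm_real, integral_sub i1 (i2.const_mul _),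
    integral_const_mul]

end Vale.Agent.P145.FA.Use
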