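import Vale.Agent.P145.FA.Hp1
import Vale.Agent.P145.FA.UseA

/-!
P145, block F-A: Gaussian localisers and tightness.
-/

namespace Vale.Agent.P145.FA.Use

open Finset Filter Topology MeasureTheory
open Vale.Agent.P152

/-- Gaussian localiser. -/
noncomputable def gl (φ : (ℤ × ℤ) →₀ ℝ) (K : ℝ) (h : Hgt) : ℝ := Real.exp (-((ev φ h) ^ 2 / K ^ 2))

lemma gl_pos (φ : (ℤ × ℤ) →₀ ℝ) (K : ℝ) (h : Hgt) : 0 < gl φ K h := Real.exp_pos _

lemma gl_le_one (φ : (ℤ × ℤ) →₀ ℝ) (K : ℝ) (h : Hgt) : gl φ K h ≤ 1 := by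
  unfold gl
  rw [Real.exp_le_one_iff]
  have : 0 ≤ (ev φ h) ^ 2 / K ^ 2 := by positivity
  linarith

lemma measurable_gl (φ : (ℤ × ℤ) →₀ ℝ) (K : ℝ) : Measurable (gl φ K) :=
  Real.measurable_exp.comp (((measurable_ev φ).pow_const 2).div_const _).neg

lemma one_sub_gl (φ : (ℤ × ℤ) →₀ ℝ) (K : ℝ) (h : Hgt) : 1 - gl φ K h ≤ (ev φ h) ^ 2 / K ^ 2 := by
  unfold gl
  have := Real.add_one_le_exp (-((ev φ h) ^ 2 / K ^ 2))
  linarith

theorem lint_gauss : ∃ C : ℝ, 0 ≤ C ∧ ∀ (P : Measure (Ori (ℤ × ℤ))) [IsProbabilityMeasure P]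
    (φ : (ℤ × ℤ) →₀ ℝ), mass φ = 1 → ∀ K : ℝ, 1 ≤ K → ∀ G : Hgt → ENNReal, Measurable G →
    (∀ (ω : Ori (ℤ × ℤ)) (k : ℤ), G (fun q => pth ω q + 2 * k) = G (pth ω)) →
    ∫⁻ h, ENNReal.ofReal (gl φ K h) * G h ∂(mu0 P) ≤
      ENNReal.ofReal (C * K) * ∫⁻ ω, G (pth ω) ∂P := by
  obtain ⟨C, hC, hg⟩ := gauss_sum
  refine ⟨√Real.pi / 2 + C, by positivity, ?_⟩
  intro P _ φ hφ K hK G hG hinv
  have hK0 : 0 < K := by linarith
  have hm : Measurable fun h => ENNReal.ofReal (gl φ K h) * G h :=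
    (ENNReal.measurable_ofReal.comp (measurable_gl φ K)).mul hG
  rw [lintegral_mu0H hm]
  have hGp : Measurable fun ω : Ori (ℤ × ℤ) => G (pth ω) := by
    have : Measurable (fun ω : Ori (ℤ × ℤ) => (pth ω : Hgt)) :=
      measurable_pi_lambda _ fun q => measurable_pthq q
    exact hG.comp this
  have h1 : ∀ ω : Ori (ℤ × ℤ), ∑' k : ℤ, ENNReal.ofReal (gl φ K (fun q => pth ω q + 2 * k)) *
      G (fun q => pth ω q + 2 * k) ≤ ENNReal.ofReal ((√Real.pi / 2 + C) * K) * G (pth ω) := by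
    intro ω
    have e : ∀ k : ℤ, ev φ (fun q => pth ω q + 2 * k) = ev φ (pth ω) + 2 * k := by
      intro k
      rw [ev_shift, hφ]
      push_cast
      ring
    simp only [hinv, ENNReal.tsum_mul_right]
    refine mul_le_mul' ?_ le_rfl
    simp only [gl, e]
    obtain ⟨hs, hb⟩ := hg K hK (ev φ (pth ω))
    rw [← ENNReal.ofReal_tsum_of_nonneg (fun k => (Real.exp_pos _).le) hs]
    refine ENNReal.ofReal_le_ofReal ?_
    have h2 := (abs_le.1 hb).2
    have h3 : Real.exp (-K ^ 2) ≤ 1 := by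
      rw [Real.exp_le_one_iff]
      nlinarith
    have h4 : C * (K * Real.exp (-K ^ 2)) ≤ C * K := by
      refine mul_le_mul_of_nonneg_left ?_ hC
      nlinarith
    nlinarith
  refine (lintegral_mono h1).trans ?_
  rw [lintegral_const_mul _ hGp]

/-- Tails from characteristic functions. -/
theorem tail {Ω : Type*} [MeasurableSpace Ω] {P : Measure Ω} [IsProbabilityMeasure P]
    {X : ℕ → Ω → ℝ} (hX : ∀ n, Measurable (X n)) {a : ℝ}
    (h : ∀ z : ℝ, Tendsto (fun n => ∫ ω, Complex.exp (Complex.I * ((z * X n ω : ℝ) : ℂ)) ∂P) atTop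
      (𝓝 ((Real.exp (-(a * z ^ 2)) : ℝ) : ℂ))) {ε : ℝ} (hε : 0 < ε) :
    ∃ r : ℝ, 0 < r ∧ ∀ᶠ n in atTop, P.real {ω | r < |X n ω|} ≤ ε := by
  set r : ℝ := 1 + 4 * |a| + 32 * |a| / ε with hr
  have hr1 : 1 ≤ r := by rw [hr]; have : 0 ≤ 4 * |a| + 32 * |a| / ε := by positivity
                         linarith
  have hr0 : 0 < r := by linarith
  have hr2 : r ≤ r ^ 2 := by nlinarith
  have hr3 : 4 * |a| ≤ r ^ 2 := by
    have : 0 ≤ 32 * |a| / ε := by positivity
    linarith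
  have hr4 : 32 * |a| / ε ≤ r ^ 2 := by
    have : 0 ≤ 4 * |a| := by positivity
    linarith
  have hr5 : 16 * |a| / r ^ 2 ≤ ε / 2 := by
    rw [div_le_iff₀ (by positivity)]
    rw [div_le_iff₀ hε] at hr4
    linarith
  have hmap : ∀ n, IsProbabilityMeasure (P.map (X n)) := fun n =>
    Measure.isProbabilityMeasure_map (hX n).aemeasurable
  have hcf : ∀ (n : ℕ) (t : ℝ), charFun (P.map (X n)) t =
      ∫ ω, Complex.exp (Complex.I * ((t * X n ω : ℝ) : ℂ)) ∂P := by
    intro n t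
    rw [charFun_apply_real, integral_map (hX n).aemeasurable]
    · refine integral_congr_ae (Eventually.of_forall fun ω => ?_)
      simp only
      congr 1
      push_cast
      ring
    · refine Continuous.aestronglyMeasurable ?_
      fun_prop
  have hlim : Tendsto (fun n => ∫ t in (-2 * r⁻¹)..(2 * r⁻¹), (1 : ℂ) - charFun (P.map (X n)) t)
      atTop (𝓝 (∫ t in (-2 * r⁻¹)..(2 * r⁻¹), (1 : ℂ) - ((Real.exp (-(a * t ^ 2)) : ℝ) : ℂ))) := by
    refine intervalIntegral.tendsto_integral_filter_of_dominated_convergence (fun _ => 2) ?_ ?_ ?_ ?_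
    · refine Eventually.of_forall fun n => ?_
      have := hmap n
      have h9 : Continuous (charFun (P.map (X n))) := continuous_charFun
      exact (continuous_const.sub h9).aestronglyMeasurable
    · refine Eventually.of_forall fun n => Eventually.of_forall fun t _ => ?_
      have := hmap n
      refine (norm_sub_le _ _).trans ?_
      have h9 := norm_charFun_le_one (μ := P.map (X n)) t
      rw [norm_one]
      linarith
    · exact intervalIntegrable_const
    · refine Eventually.of_forall fun t _ => ?_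
      have h1 := h t
      simp only [← hcf] at h1
      exact tendsto_const_nhds.sub h1
  have hbd : ‖∫ t in (-2 * r⁻¹)..(2 * r⁻¹), (1 : ℂ) - ((Real.exp (-(a * t ^ 2)) : ℝ) : ℂ)‖ ≤
      32 * |a| / r ^ 3 := by
    have h1 : ∀ t ∈ Set.uIoc (-2 * r⁻¹) (2 * r⁻¹),
        ‖(1 : ℂ) - ((Real.exp (-(a * t ^ 2)) : ℝ) : ℂ)‖ ≤ 2 * (|a| * (2 * r⁻¹) ^ 2) := by
      intro t ht
      have hri : 0 < r⁻¹ := by positivity
      rw [Set.uIoc_of_le (by linarith)] at ht
      have ht1 : |t| ≤ 2 * r⁻¹ := abs_le.2 ⟨by linarith [ht.1], ht.2⟩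
      have ht2 : t ^ 2 ≤ (2 * r⁻¹) ^ 2 := by rw [← sq_abs t]; exact pow_le_pow_left₀ (abs_nonneg _) ht1 2
      have h5 : |a * t ^ 2| ≤ |a| * (2 * r⁻¹) ^ 2 := by
        rw [abs_mul, abs_of_nonneg (sq_nonneg t)]
        exact mul_le_mul_of_nonneg_left ht2 (abs_nonneg _)
      have h6 : |a| * (2 * r⁻¹) ^ 2 ≤ 1 := by
        have e : |a| * (2 * r⁻¹) ^ 2 = 4 * |a| / r ^ 2 := by field_simp; norm_num
        rw [e, div_le_one (by positivity)]
        exact hr3
      have e : (1 : ℂ) - ((Real.exp (-(a * t ^ 2)) : ℝ) : ℂ) =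
          ((1 - Real.exp (-(a * t ^ 2)) : ℝ) : ℂ) := by push_cast; ring
      rw [e, Complex.norm_real, Real.norm_eq_abs, abs_sub_comm]
      have h7 := Real.abs_exp_sub_one_le (x := -(a * t ^ 2)) (by rw [abs_neg]; linarith)
      rw [abs_neg] at h7
      linarith
    have h2 := intervalIntegral.norm_integral_le_of_norm_le_const h1
    refine h2.trans (le_of_eq ?_)
    have hri : 0 < r⁻¹ := by positivity
    rw [show 2 * r⁻¹ - -2 * r⁻¹ = 4 * r⁻¹ by ring, abs_of_pos (show (0 : ℝ) < 4 * r⁻¹ by positivity)]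
    field_simp
    ring
  refine ⟨r, hr0, ?_⟩
  have h3 := (hlim.norm.const_mul (2⁻¹ * r))
  have h4 : 2⁻¹ * r * ‖∫ t in (-2 * r⁻¹)..(2 * r⁻¹), (1 : ℂ) - ((Real.exp (-(a * t ^ 2)) : ℝ) : ℂ)‖
      < ε := by
    calc _ ≤ 2⁻¹ * r * (32 * |a| / r ^ 3) := mul_le_mul_of_nonneg_left hbd (by positivity)
      _ = 16 * |a| / r ^ 2 := by field_simp; ring
      _ ≤ ε / 2 := hr5
      _ < ε := by linarith
  filter_upwards [h3.eventually (gt_mem_nhds h4)] with n hn
  have := hmap n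
  have h5 := measureReal_abs_gt_le_integral_charFun (μ := P.map (X n)) hr0
  rw [map_measureReal_apply (hX n) (measurableSet_lt measurable_const
    (by fun_prop : Measurable fun x : ℝ => |x|))] at h5
  exact h5.trans hn.le

variable {P : Measure (Ori (ℤ × ℤ))}

/-- Constant of the Gaussian sums. -/
theorem gl_int : ∃ C : ℝ, 1 ≤ C ∧ ∀ (P : Measure (Ori (ℤ × ℤ))) [IsProbabilityMeasure P]
    (φ : (ℤ × ℤ) →₀ ℝ), mass φ = 1 → ∀ K : ℝ, 1 ≤ K →
    Integrable (gl φ K) (mu0 P) ∧ ∫ h, gl φ K h ∂(mu0 P) ≤ C * K ∧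
    ∀ (v : (ℤ × ℤ) →₀ ℝ), mass v = 0 → ∀ r : ℝ,
      Integrable (fun h => gl φ K h * if r < |ev v h| then (1 : ℝ) else 0) (mu0 P) ∧
      ∫ h, gl φ K h * (if r < |ev v h| then (1 : ℝ) else 0) ∂(mu0 P) ≤
        C * K * P.real {ω | r < |ev v (pth ω)|} := by
  obtain ⟨C, hC, hg⟩ := lint_gauss
  refine ⟨C + 1, by linarith, ?_⟩
  intro P _ φ hφ K hK
  have hK0 : 0 < K := by linarith
  have h0 : Integrable (gl φ K) (mu0 P) := integrable_gauss hφ hK
  have hCK : 0 ≤ C * K := by positivity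
  refine ⟨h0, ?_, fun v hv r => ?_⟩
  · rw [integral_eq_lintegral_of_nonneg_ae (Eventually.of_forall fun h => (gl_pos φ K h).le)
      (measurable_gl φ K).aestronglyMeasurable]
    have h1 := hg P φ hφ K hK (fun _ => 1) measurable_const (fun _ _ => rfl)
    simp only [mul_one, lintegral_one, measure_univ] at h1
    refine (ENNReal.toReal_mono ENNReal.ofReal_ne_top h1).trans ?_
    rw [ENNReal.toReal_ofReal hCK]
    nlinarith
  · have hme : Measurable fun h : Hgt => (if r < |ev v h| then (1 : ℝ) else 0) := by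
      refine Measurable.ite (measurableSet_lt measurable_const ?_) measurable_const measurable_const
      have := measurable_ev v
      fun_prop
    have hi : Integrable (fun h => gl φ K h * if r < |ev v h| then (1 : ℝ) else 0) (mu0 P) := by
      refine h0.mono' ((measurable_gl φ K).mul hme).aestronglyMeasurable
        (Eventually.of_forall fun h => ?_)
      rw [Real.norm_eq_abs, abs_of_nonneg (mul_nonneg (gl_pos φ K h).le (by split_ifs <;> norm_num))]
      have : (if r < |ev v h| then (1 : ℝ) else 0) ≤ 1 := by split_ifs <;> norm_num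
      have h3 := (gl_pos φ K h).le
      nlinarith
    refine ⟨hi, ?_⟩
    rw [integral_eq_lintegral_of_nonneg_ae (Eventually.of_forall fun h =>
      mul_nonneg (gl_pos φ K h).le (by split_ifs <;> norm_num)) hi.1]
    have hmE : Measurable fun h : Hgt => (if r < |ev v h| then (1 : ENNReal) else 0) := by
      refine Measurable.ite (measurableSet_lt measurable_const ?_) measurable_const measurable_const
      have := measurable_ev v
      fun_prop
    have h1 := hg P φ hφ K hK (fun h => if r < |ev v h| then (1 : ENNReal) else 0) hmE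
      (fun ω k => by
        have e : ev v (fun q => pth ω q + 2 * k) = ev v (pth ω) := by
          rw [ev_shift, hv]; ring
        simp only [e])
    have e1 : ∀ h : Hgt, ENNReal.ofReal (gl φ K h * if r < |ev v h| then (1 : ℝ) else 0) =
        ENNReal.ofReal (gl φ K h) * if r < |ev v h| then (1 : ENNReal) else 0 := by
      intro h
      split_ifs <;> simp
    have hmp : Measurable (fun ω : Ori (ℤ × ℤ) => (pth ω : Hgt)) :=
      measurable_pi_lambda _ fun q => measurable_pthq q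
    have hset : MeasurableSet {ω : Ori (ℤ × ℤ) | r < |ev v (pth ω)|} := by
      refine measurableSet_lt measurable_const ?_
      have := (measurable_ev v).comp hmp
      have e : (fun ω : Ori (ℤ × ℤ) => |ev v (pth ω)|) = fun ω => |(ev v ∘ fun ω => pth ω) ω| := rfl
      rw [e]
      fun_prop
    have e2 : ∫⁻ ω, (if r < |ev v (pth ω)| then (1 : ENNReal) else 0) ∂P =
        P {ω | r < |ev v (pth ω)|} := by
      have e3 : (fun ω : Ori (ℤ × ℤ) => (if r < |ev v (pth ω)| then (1 : ENNReal) else 0)) =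
          Set.indicator {ω | r < |ev v (pth ω)|} 1 := by
        funext ω
        simp [Set.indicator_apply]
      rw [e3, lintegral_indicator_one hset]
    simp only [e1]
    rw [e2] at h1
    refine (ENNReal.toReal_mono (ENNReal.mul_ne_top ENNReal.ofReal_ne_top
      (measure_ne_top _ _)) h1).trans ?_
    rw [ENNReal.toReal_mul, ENNReal.toReal_ofReal hCK]
    have h4 : 0 ≤ P.real {ω | r < |ev v (pth ω)|} := measureReal_nonneg
    have e5 : (P {ω | r < |ev v (pth ω)|}).toReal = P.real {ω | r < |ev v (pth ω)|} := rfl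
    rw [e5]
    nlinarith

lemma sq_gl (φ : (ℤ × ℤ) →₀ ℝ) {L : ℝ} (hL : 1 ≤ L) (h : Hgt) :
    gl φ L h * (ev φ h) ^ 2 ≤ 2 * L ^ 2 * gl φ (2 * L) h := by
  have hL0 : 0 < L := by linarith
  set y : ℝ := (ev φ h) ^ 2 / L ^ 2 with hy
  have hy0 : 0 ≤ y := by positivity
  have e1 : (ev φ h) ^ 2 = L ^ 2 * y := by rw [hy]; field_simp
  have e2 : gl φ L h = Real.exp (-y) := rfl
  have e3 : gl φ (2 * L) h = Real.exp (-(y / 4)) := by
    unfold gl
    congr 1
    rw [hy]
    field_simp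
    ring
  rw [e2, e3, e1]
  have h1 : y ≤ 2 * Real.exp (y / 2) := by
    have := Real.add_one_le_exp (y / 2)
    linarith
  have h2 : Real.exp (-y) * y ≤ 2 * Real.exp (-(y / 4)) := by
    calc Real.exp (-y) * y ≤ Real.exp (-y) * (2 * Real.exp (y / 2)) :=
          mul_le_mul_of_nonneg_left h1 (Real.exp_pos _).le
      _ = 2 * Real.exp (-y + y / 2) := by rw [Real.exp_add]; ring
      _ ≤ 2 * Real.exp (-(y / 4)) := by
          refine mul_le_mul_of_nonneg_left (Real.exp_le_exp.2 (by linarith)) (by norm_num)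
  nlinarith [sq_nonneg L]

/-- Tightness of `ev (φ n)` relative to functionals with a Gaussian localiser. -/
theorem tight_of [IsProbabilityMeasure P] {φ ρ : ℕ → (ℤ × ℤ) →₀ ℝ} (mφ : ∀ n, mass (φ n) = 1)
    (mρ : ∀ n, mass (ρ n) = 1) {a : ℝ}
    (hchar : ∀ z : ℝ, Tendsto (fun n => ∫ ω, Complex.exp (Complex.I *
      ((z * ev (φ n - ρ n) (pth ω) : ℝ) : ℂ)) ∂P) atTop (𝓝 ((Real.exp (-(a * z ^ 2)) : ℝ) : ℂ)))
    {L : ℝ} (hL : 1 ≤ L) {G : ℕ → Hgt → ℂ} (hG : ∀ n h, ‖G n h‖ ≤ gl (ρ n) L h) :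
    Tight P φ G := by
  obtain ⟨C, hC1, hg⟩ := gl_int
  have hL0 : 0 < L := by linarith
  have hmp : Measurable (fun ω : Ori (ℤ × ℤ) => (pth ω : Hgt)) :=
    measurable_pi_lambda _ fun q => measurable_pthq q
  have mv : ∀ n, mass (φ n - ρ n) = 0 := by
    intro n
    have e : mass (φ n - ρ n) = mass (φ n) - mass (ρ n) := by
      unfold mass
      exact Finsupp.sum_sub_index fun _ _ _ => rfl
    rw [e, mφ, mρ, sub_self]
  intro ε hε
  obtain ⟨r, hr, htail⟩ := tail (P := P) (X := fun n ω => ev (φ n - ρ n) (pth ω))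
    (fun n => (measurable_ev _).comp hmp) hchar (ε := ε / (2 * (C * L))) (by positivity)
  set B : ℝ := 2 * L ^ 2 * (C * (2 * L)) + r ^ 2 * (C * L) with hB
  have hB0 : 0 < B := by positivity
  refine ⟨1 + 2 * B / ε, fun K hK => ?_⟩
  have hK1 : 1 ≤ K := le_trans (by have : 0 ≤ 2 * B / ε := by positivity
                                   linarith) hK
  have hK0 : 0 < K := by linarith
  have hK2 : B / K ^ 2 ≤ ε / 2 := by
    rw [div_le_iff₀ (by positivity)]
    have h1 : 2 * B / ε ≤ K := by linarith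
    rw [div_le_iff₀ hε] at h1
    nlinarith
  filter_upwards [htail] with n hn
  obtain ⟨i1, b1, hv⟩ := hg P (ρ n) (mρ n) L hL
  obtain ⟨i2, b2, -⟩ := hg P (ρ n) (mρ n) (2 * L) (by linarith)
  obtain ⟨i3, b3⟩ := hv (φ n - ρ n) (mv n) r
  have key : ∀ h : Hgt, ‖G n h‖ * (1 - Real.exp (-((ev (φ n) h) ^ 2 / (2 * K ^ 2)))) ≤
      gl (ρ n) L h * (if r < |ev (φ n - ρ n) h| then (1 : ℝ) else 0) +
      (2 * L ^ 2 / K ^ 2 * gl (ρ n) (2 * L) h + r ^ 2 / K ^ 2 * gl (ρ n) L h) := by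
    intro h
    have g0 := gl_pos (ρ n) L h
    have g1 := gl_pos (ρ n) (2 * L) h
    have e0 : 0 ≤ 1 - Real.exp (-((ev (φ n) h) ^ 2 / (2 * K ^ 2))) := by
      rw [sub_nonneg, Real.exp_le_one_iff]
      have : 0 ≤ (ev (φ n) h) ^ 2 / (2 * K ^ 2) := by positivity
      linarith
    have h1 : ‖G n h‖ * (1 - Real.exp (-((ev (φ n) h) ^ 2 / (2 * K ^ 2)))) ≤
        gl (ρ n) L h * (1 - Real.exp (-((ev (φ n) h) ^ 2 / (2 * K ^ 2)))) :=
      mul_le_mul_of_nonneg_right (hG n h) e0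
    refine h1.trans ?_
    have hrest : 0 ≤ 2 * L ^ 2 / K ^ 2 * gl (ρ n) (2 * L) h + r ^ 2 / K ^ 2 * gl (ρ n) L h := by
      positivity
    by_cases hcase : r < |ev (φ n - ρ n) h|
    · rw [if_pos hcase, mul_one]
      have h2 := Real.exp_pos (-((ev (φ n) h) ^ 2 / (2 * K ^ 2)))
      nlinarith
    · rw [if_neg hcase, mul_zero, zero_add]
      push Not at hcase
      have h3 : 1 - Real.exp (-((ev (φ n) h) ^ 2 / (2 * K ^ 2))) ≤
          (ev (φ n) h) ^ 2 / (2 * K ^ 2) := by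
        have := Real.add_one_le_exp (-((ev (φ n) h) ^ 2 / (2 * K ^ 2)))
        linarith
      have h4 : (ev (φ n) h) ^ 2 ≤ 2 * (ev (ρ n) h) ^ 2 + 2 * r ^ 2 := by
        have e : ev (φ n) h = ev (ρ n) h + ev (φ n - ρ n) h := by rw [ev_sub]; ring
        have h5 : (ev (φ n - ρ n) h) ^ 2 ≤ r ^ 2 := by
          rw [← sq_abs]
          exact pow_le_pow_left₀ (abs_nonneg _) hcase 2
        rw [e]
        nlinarith [sq_nonneg (ev (ρ n) h - ev (φ n - ρ n) h)]
      have h6 : (ev (φ n) h) ^ 2 / (2 * K ^ 2) ≤ ((ev (ρ n) h) ^ 2 + r ^ 2) / K ^ 2 := by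
        rw [div_le_div_iff₀ (by positivity) (by positivity)]
        nlinarith [sq_nonneg K]
      have h7 := sq_gl (ρ n) hL h
      calc gl (ρ n) L h * (1 - Real.exp (-((ev (φ n) h) ^ 2 / (2 * K ^ 2))))
          ≤ gl (ρ n) L h * (((ev (ρ n) h) ^ 2 + r ^ 2) / K ^ 2) :=
            mul_le_mul_of_nonneg_left (h3.trans h6) g0.le
        _ = (gl (ρ n) L h * (ev (ρ n) h) ^ 2) / K ^ 2 + r ^ 2 / K ^ 2 * gl (ρ n) L h := by
            field_simp
        _ ≤ (2 * L ^ 2 * gl (ρ n) (2 * L) h) / K ^ 2 + r ^ 2 / K ^ 2 * gl (ρ n) L h := by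
            gcongr
        _ = _ := by ring
  have ib : Integrable (fun h => gl (ρ n) L h * (if r < |ev (φ n - ρ n) h| then (1 : ℝ) else 0) +
      (2 * L ^ 2 / K ^ 2 * gl (ρ n) (2 * L) h + r ^ 2 / K ^ 2 * gl (ρ n) L h)) (mu0 P) :=
    i3.add ((i2.const_mul _).add (i1.const_mul _))
  have i23 : Integrable (fun h => 2 * L ^ 2 / K ^ 2 * gl (ρ n) (2 * L) h +
      r ^ 2 / K ^ 2 * gl (ρ n) L h) (mu0 P) := (i2.const_mul _).add (i1.const_mul _)
  have h5 : ∫ h, ‖G n h‖ * (1 - Real.exp (-((ev (φ n) h) ^ 2 / (2 * K ^ 2)))) ∂(mu0 P) ≤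
      ∫ h, (gl (ρ n) L h * (if r < |ev (φ n - ρ n) h| then (1 : ℝ) else 0) +
      (2 * L ^ 2 / K ^ 2 * gl (ρ n) (2 * L) h + r ^ 2 / K ^ 2 * gl (ρ n) L h)) ∂(mu0 P) := by
    refine integral_mono_of_nonneg (Eventually.of_forall fun h => ?_) ib
      (Eventually.of_forall key)
    refine mul_nonneg (norm_nonneg _) ?_
    rw [sub_nonneg, Real.exp_le_one_iff]
    have : 0 ≤ (ev (φ n) h) ^ 2 / (2 * K ^ 2) := by positivity
    linarith
  refine h5.trans ?_
  rw [integral_add i3 i23, integral_add (i2.const_mul _) (i1.const_mul _), integral_const_mul,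
    integral_const_mul]
  have hCL : 0 < C * L := by positivity
  have h6 : C * L * P.real {ω | r < |ev (φ n - ρ n) (pth ω)|} ≤ ε / 2 := by
    have := mul_le_mul_of_nonneg_left hn hCL.le
    refine this.trans (le_of_eq ?_)
    field_simp
  have h7 : 2 * L ^ 2 / K ^ 2 * ∫ h, gl (ρ n) (2 * L) h ∂(mu0 P) +
      r ^ 2 / K ^ 2 * ∫ h, gl (ρ n) L h ∂(mu0 P) ≤ B / K ^ 2 := by
    have a1 : 2 * L ^ 2 / K ^ 2 * ∫ h, gl (ρ n) (2 * L) h ∂(mu0 P) ≤
        2 * L ^ 2 / K ^ 2 * (C * (2 * L)) := mul_le_mul_of_nonneg_left b2 (by positivity)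
    have a2 : r ^ 2 / K ^ 2 * ∫ h, gl (ρ n) L h ∂(mu0 P) ≤ r ^ 2 / K ^ 2 * (C * L) :=
      mul_le_mul_of_nonneg_left b1 (by positivity)
    refine (add_le_add a1 a2).trans (le_of_eq ?_)
    rw [hB]
    ring
  linarith

end Vale.Agent.P145.FA.Use
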