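import Vale.Agent.P145.FA.Final
import Vale.Agent.P145.FA.Sd3
import Vale.Agent.P145.FA.UseB

/-!
P145, block F-A: the product Schwinger-Dyson statement for a pinwheel in real coordinates.
-/

namespace Vale.Agent.P145.FA.Use

open Finset Filter Topology MeasureTheory
open Vale.Agent.P152
open Vale.Agent.P152.GFF.S (Test gffCov)
open Vale.Agent.P145.PT (Sm TestOn lap)

/-- The central box, the width of the corridors and the radius of a pinwheel. -/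
structure PW where
  x1 : ℝ
  x2 : ℝ
  y1 : ℝ
  y2 : ℝ
  e : ℝ
  R : ℝ

/-- The open box. -/
def PW.box (b : PW) : Set (ℝ × ℝ) := {z | b.x1 < z.1 ∧ z.1 < b.x2 ∧ b.y1 < z.2 ∧ z.2 < b.y2}

/-- The four arms. -/
def PW.K1 (b : PW) : Set (ℝ × ℝ) := {z | z.1 ≤ b.x1 - b.e ∧ |z.1| ≤ b.R ∧ |z.2| ≤ b.R}
def PW.K2 (b : PW) : Set (ℝ × ℝ) := {z | b.y2 + b.e ≤ z.2 ∧ b.x1 ≤ z.1 ∧ |z.1| ≤ b.R ∧ |z.2| ≤ b.R}
def PW.K3 (b : PW) : Set (ℝ × ℝ) := {z | b.x2 + b.e ≤ z.1 ∧ z.2 ≤ b.y2 ∧ |z.1| ≤ b.R ∧ |z.2| ≤ b.R}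
def PW.K4 (b : PW) : Set (ℝ × ℝ) := {z | z.2 ≤ b.y1 - b.e ∧ b.x1 ≤ z.1 ∧ z.1 ≤ b.x2 ∧
  |z.1| ≤ b.R ∧ |z.2| ≤ b.R}

/-- Lattice points of a set. -/
def lat (δ : ℝ) (K : Set (ℝ × ℝ)) : Set (ℤ × ℤ) := {q | (δ * (q.1 : ℝ), δ * (q.2 : ℝ)) ∈ K}

lemma zle {δ : ℝ} (hδ : 0 < δ) {x y : ℤ} (h : δ * (x : ℝ) < δ * ((y : ℝ) + 1)) : x ≤ y := by
  have h1 := lt_of_mul_lt_mul_left h hδ.le
  have h2 : x < y + 1 := by exact_mod_cast h1
  omega

lemma zabs {δ : ℝ} (hδ : 0 < δ) {x : ℤ} {ρ N : ℕ} (h : |δ * (x : ℝ)| ≤ δ * (ρ * N)) :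
    |x| ≤ ρ * N := by
  rw [abs_mul, abs_of_pos hδ] at h
  have h1 := le_of_mul_le_mul_left h hδ
  have h2 : ((|x| : ℤ) : ℝ) ≤ ((ρ * N : ℤ) : ℝ) := by push_cast; exact h1
  exact_mod_cast h2

/-- Integer geometry of the pinwheel. -/
theorem geo (b : PW) (hx : b.x1 < b.x2) (hy : b.y1 < b.y2) (he : 0 < b.e) : ∃ ρ : ℕ, ∀ δ : ℝ,
    0 < δ → δ ≤ 1 → 8 * δ ≤ b.e → ∃ (a : ℤ × ℤ) (N : ℕ) (xl xr yt : ℤ),
    ((2 : ℤ) ∣ a.1 + a.2) ∧ (|δ * (a.1 : ℝ) - 0| ≤ 2 * δ ∧ |δ * (a.2 : ℝ) - b.y1| ≤ 2 * δ) ∧ 1 ≤ N ∧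
    (|xl| ≤ ρ * N ∧ |xr| ≤ ρ * N ∧ |yt| ≤ ρ * N) ∧
    (∀ q, q + a ∈ lat δ b.box →
      0 ≤ q.2 ∧ q.2 ≤ yt ∧ xl ≤ q.1 ∧ q.1 ≤ xr ∧ |q.1| ≤ ρ * N ∧ |q.2| ≤ ρ * N) ∧
    (∀ q, q + a ∈ lat δ b.K1 → q.1 ≤ xl - 2 * N ∧ |q.1| ≤ ρ * N ∧ |q.2| ≤ ρ * N) ∧
    (∀ q, q + a ∈ lat δ b.K2 → yt + 2 * N ≤ q.2 ∧ xl ≤ q.1 ∧ |q.1| ≤ ρ * N ∧ |q.2| ≤ ρ * N) ∧
    (∀ q, q + a ∈ lat δ b.K3 → xr + 2 * N ≤ q.1 ∧ q.2 ≤ yt ∧ |q.1| ≤ ρ * N ∧ |q.2| ≤ ρ * N) ∧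
    (∀ q, q + a ∈ lat δ b.K4 →
      q.2 ≤ 0 ∧ q.2 ≤ yt ∧ xl ≤ q.1 ∧ q.1 ≤ xr ∧ |q.1| ≤ ρ * N ∧ |q.2| ≤ ρ * N) := by
  set R' : ℝ := |b.x1| + |b.x2| + |b.y1| + |b.y2| + |b.R| with hR'
  have r1 : |b.x1| ≤ R' := by
    rw [hR']; linarith [abs_nonneg b.x2, abs_nonneg b.y1, abs_nonneg b.y2, abs_nonneg b.R]
  have r2 : |b.x2| ≤ R' := by
    rw [hR']; linarith [abs_nonneg b.x1, abs_nonneg b.y1, abs_nonneg b.y2, abs_nonneg b.R]
  have r3 : |b.y1| ≤ R' := by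
    rw [hR']; linarith [abs_nonneg b.x2, abs_nonneg b.x1, abs_nonneg b.y2, abs_nonneg b.R]
  have r4 : |b.y2| ≤ R' := by
    rw [hR']; linarith [abs_nonneg b.x2, abs_nonneg b.y1, abs_nonneg b.x1, abs_nonneg b.R]
  have r5 : b.R ≤ R' := by
    rw [hR']
    linarith [abs_nonneg b.x2, abs_nonneg b.y1, abs_nonneg b.y2, abs_nonneg b.x1, le_abs_self b.R]
  rw [abs_le] at r1 r2 r3 r4
  have hR0 : 0 ≤ R' := by rw [hR']; positivity
  obtain ⟨ρ, hρ⟩ := exists_nat_ge (16 * (R' + 1) / b.e)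
  refine ⟨ρ, fun δ hδ hδ1 hδe => ?_⟩
  set A2 : ℤ := ⌊b.y1 / δ⌋ with hA2
  set s : ℤ := A2 % 2 with hs
  set F1 : ℤ := ⌊b.x1 / δ⌋ with hF1
  set F2 : ℤ := ⌈b.x2 / δ⌉ with hF2
  set F4 : ℤ := ⌈b.y2 / δ⌉ with hF4
  set N : ℕ := ⌊b.e / (4 * δ)⌋₊ with hN
  have hs0 : 0 ≤ s := Int.emod_nonneg _ (by norm_num)
  have hs1 : s ≤ 1 := by
    have := Int.emod_lt_of_pos A2 (by norm_num : (0 : ℤ) < 2)
    omega
  have hsR0 : (0 : ℝ) ≤ (s : ℝ) := by exact_mod_cast hs0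
  have hsR1 : (s : ℝ) ≤ 1 := by exact_mod_cast hs1
  have cancel : ∀ x : ℝ, δ * (x / δ) = x := fun x => by field_simp
  have a1 : δ * (A2 : ℝ) ≤ b.y1 := by
    have := mul_le_mul_of_nonneg_left (Int.floor_le (b.y1 / δ)) hδ.le
    rwa [cancel] at this
  have a2 : b.y1 < δ * (A2 : ℝ) + δ := by
    have := mul_lt_mul_of_pos_left (Int.lt_floor_add_one (b.y1 / δ)) hδ
    rw [cancel] at this
    linarith
  have b1 : δ * (F1 : ℝ) ≤ b.x1 := by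
    have := mul_le_mul_of_nonneg_left (Int.floor_le (b.x1 / δ)) hδ.le
    rwa [cancel] at this
  have b2 : b.x1 < δ * (F1 : ℝ) + δ := by
    have := mul_lt_mul_of_pos_left (Int.lt_floor_add_one (b.x1 / δ)) hδ
    rw [cancel] at this
    linarith
  have c1 : b.x2 ≤ δ * (F2 : ℝ) := by
    have := mul_le_mul_of_nonneg_left (Int.le_ceil (b.x2 / δ)) hδ.le
    rwa [cancel] at this
  have c2 : δ * (F2 : ℝ) < b.x2 + δ := by
    have := mul_lt_mul_of_pos_left (Int.ceil_lt_add_one (b.x2 / δ)) hδ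
    rw [mul_add, cancel] at this
    linarith
  have d1 : b.y2 ≤ δ * (F4 : ℝ) := by
    have := mul_le_mul_of_nonneg_left (Int.le_ceil (b.y2 / δ)) hδ.le
    rwa [cancel] at this
  have d2 : δ * (F4 : ℝ) < b.y2 + δ := by
    have := mul_lt_mul_of_pos_left (Int.ceil_lt_add_one (b.y2 / δ)) hδ
    rw [mul_add, cancel] at this
    linarith
  have n1 : δ * (N : ℝ) ≤ b.e / 4 := by
    have := mul_le_mul_of_nonneg_left (Nat.floor_le (by positivity : 0 ≤ b.e / (4 * δ))) hδ.le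
    have e : δ * (b.e / (4 * δ)) = b.e / 4 := by field_simp
    rwa [e] at this
  have n2 : b.e / 8 ≤ δ * (N : ℝ) := by
    have := mul_lt_mul_of_pos_left (Nat.lt_floor_add_one (b.e / (4 * δ))) hδ
    have e : δ * (b.e / (4 * δ)) = b.e / 4 := by field_simp
    rw [e] at this
    linarith
  have n3 : 1 ≤ N := by
    rw [hN, Nat.one_le_floor_iff, le_div_iff₀ (by positivity)]
    linarith
  have hρN : 2 * (R' + 1) ≤ δ * ((ρ : ℝ) * N) := by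
    rw [div_le_iff₀ he] at hρ
    have h1 : (ρ : ℝ) * (b.e / 8) ≤ ρ * (δ * N) := mul_le_mul_of_nonneg_left n2 (by positivity)
    nlinarith
  have sδ0 : 0 ≤ δ * (s : ℝ) := by positivity
  have sδ1 : δ * (s : ℝ) ≤ δ := by nlinarith
  refine ⟨(s, A2), N, F1 - s, F2 - s, F4 - A2, ?_, ⟨?_, ?_⟩, n3, ⟨?_, ?_, ?_⟩, ?_, ?_, ?_, ?_, ?_⟩
  · simp only
    omega
  · rw [sub_zero, abs_of_nonneg sδ0]
    linarith
  · rw [abs_le]; constructor <;> linarith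
  · refine zabs hδ (le_trans ?_ hρN)
    push_cast
    rw [abs_le, mul_sub]
    constructor <;> linarith
  · refine zabs hδ (le_trans ?_ hρN)
    push_cast
    rw [abs_le, mul_sub]
    constructor <;> linarith
  · refine zabs hδ (le_trans ?_ hρN)
    push_cast
    rw [abs_le, mul_sub]
    constructor <;> linarith
  · rintro ⟨q1, q2⟩ hq
    simp only [lat, PW.box, Set.mem_ofPred_eq, Prod.mk_add_mk, Int.cast_add, mul_add] at hq
    obtain ⟨h1, h2, h3, h4⟩ := hq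
    refine ⟨zle hδ ?_, zle hδ ?_, zle hδ ?_, zle hδ ?_, zabs hδ (le_trans ?_ hρN),
      zabs hδ (le_trans ?_ hρN)⟩ <;> push_cast <;>
      first | (rw [abs_le]; constructor <;> linarith) | linarith
  · rintro ⟨q1, q2⟩ hq
    simp only [lat, PW.K1, Set.mem_ofPred_eq, Prod.mk_add_mk, Int.cast_add, mul_add, abs_le] at hq
    obtain ⟨h1, ⟨h2, h3⟩, h4, h5⟩ := hq
    refine ⟨zle hδ ?_, zabs hδ (le_trans ?_ hρN), zabs hδ (le_trans ?_ hρN)⟩ <;> push_cast <;>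
      first | (rw [abs_le]; constructor <;> linarith) | linarith
  · rintro ⟨q1, q2⟩ hq
    simp only [lat, PW.K2, Set.mem_ofPred_eq, Prod.mk_add_mk, Int.cast_add, mul_add, abs_le] at hq
    obtain ⟨h1, h0, ⟨h2, h3⟩, h4, h5⟩ := hq
    refine ⟨zle hδ ?_, zle hδ ?_, zabs hδ (le_trans ?_ hρN), zabs hδ (le_trans ?_ hρN)⟩ <;> push_cast <;>
      first | (rw [abs_le]; constructor <;> linarith) | linarith
  · rintro ⟨q1, q2⟩ hq
    simp only [lat, PW.K3, Set.mem_ofPred_eq, Prod.mk_add_mk, Int.cast_add, mul_add, abs_le] at hq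
    obtain ⟨h1, h0, ⟨h2, h3⟩, h4, h5⟩ := hq
    refine ⟨zle hδ ?_, zle hδ ?_, zabs hδ (le_trans ?_ hρN), zabs hδ (le_trans ?_ hρN)⟩ <;> push_cast <;>
      first | (rw [abs_le]; constructor <;> linarith) | linarith
  · rintro ⟨q1, q2⟩ hq
    simp only [lat, PW.K4, Set.mem_ofPred_eq, Prod.mk_add_mk, Int.cast_add, mul_add, abs_le] at hq
    obtain ⟨h1, h0, h0', ⟨h2, h3⟩, h4, h5⟩ := hq
    refine ⟨zle hδ ?_, zle hδ ?_, zle hδ ?_, zle hδ ?_, zabs hδ (le_trans ?_ hρN),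
      zabs hδ (le_trans ?_ hρN)⟩ <;> push_cast <;>
      first | (rw [abs_le]; constructor <;> linarith) | linarith

/-! ### Translations -/

lemma pb_back (a : ℤ × ℤ) (h : Hgt) :
    pb (fun q => q + a) (pb (fun q => q - a) h) = h := by
  funext q
  simp [pb]

lemma ev_Wd_back {δ : ℝ} (hδ : 0 < δ) {f : ℝ × ℝ → ℝ} (cf : HasCompactSupport f) {a : ℤ × ℤ}
    (ha : (2 : ℤ) ∣ a.1 + a.2) (h : Hgt) :
    ev (Wd δ f 0) (pb (fun q => q - a) h) = ev (Wd δ f a) h := by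
  rw [← ev_Wd_pb hδ cf ha, pb_back]

lemma ev_nW_back {δ : ℝ} (hδ : 0 < δ) {f : ℝ × ℝ → ℝ} (cf : HasCompactSupport f) {a : ℤ × ℤ}
    (ha : (2 : ℤ) ∣ a.1 + a.2) (h : Hgt) :
    ev (nW δ f 0) (pb (fun q => q - a) h) = ev (nW δ f a) h := by
  unfold nW
  rw [ev_smul, ev_smul, ev_Wd_back hδ cf ha, mass_Wd_shift hδ cf ha]

lemma ev_zW_back {δ : ℝ} (hδ : 0 < δ) {g f : ℝ × ℝ → ℝ} (cg : HasCompactSupport g)
    (cf : HasCompactSupport f) {a : ℤ × ℤ} (ha : (2 : ℤ) ∣ a.1 + a.2) (h : Hgt) :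
    ev (zW δ g f 0) (pb (fun q => q - a) h) = ev (zW δ g f a) h := by
  unfold zW
  rw [ev_sub, ev_sub, ev_smul, ev_smul, ev_Wd_back hδ cg ha, ev_nW_back hδ cf ha,
    mass_Wd_shift hδ cg ha]

lemma lap_add (ψ : ℝ × ℝ → ℝ) (x0 z : ℝ × ℝ) : lap (fun x => ψ (x + x0)) z = lap ψ (z + x0) := by
  have e1 : PT.dx (fun x => ψ (x + x0)) = fun x => PT.dx ψ (x + x0) := by
    funext w; unfold PT.dx; rw [fderiv_comp_add_right]
  have e2 : PT.dy (fun x => ψ (x + x0)) = fun x => PT.dy ψ (x + x0) := by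
    funext w; unfold PT.dy; rw [fderiv_comp_add_right]
  unfold lap
  rw [e1, e2]
  congr 1
  · show fderiv ℝ (fun x => PT.dx ψ (x + x0)) z (1, 0) = fderiv ℝ (PT.dx ψ) (z + x0) (1, 0)
    rw [fderiv_comp_add_right]
  · show fderiv ℝ (fun x => PT.dy ψ (x + x0)) z (0, 1) = fderiv ℝ (PT.dy ψ) (z + x0) (0, 1)
    rw [fderiv_comp_add_right]

lemma sm_add {f : ℝ × ℝ → ℝ} (hf : Sm f) (x0 : ℝ × ℝ) : Sm (fun x => f (x + x0)) :=
  hf.comp (contDiff_id.add contDiff_const)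

lemma cs_addr {f : ℝ × ℝ → ℝ} (hf : HasCompactSupport f) (x0 : ℝ × ℝ) :
    HasCompactSupport (fun x => f (x + x0)) := hf.comp_homeomorph (Homeomorph.addRight x0)

lemma int_addr (f : ℝ × ℝ → ℝ) (x0 : ℝ × ℝ) : ∫ x, f (x + x0) = ∫ x, f x :=
  integral_add_right_eq_self f x0

lemma gffCov_smul (g : ℝ × ℝ → ℝ) (z : ℝ) :
    gffCov (fun x => z * g x) (fun x => z * g x) = z ^ 2 * gffCov g g := by
  unfold P152.GFF.S.gffCov
  rw [← integral_const_mul]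
  refine integral_congr_ae (Eventually.of_forall fun x => ?_)
  simp only
  rw [← integral_const_mul]
  refine integral_congr_ae (Eventually.of_forall fun y => ?_)
  simp only
  ring

lemma not_box {b : PW} {f : ℝ × ℝ → ℝ} (hf : TestOn b.box f) {x : ℝ × ℝ} (h : f x ≠ 0) :
    x ∈ b.box := hf.2.2 (subset_tsupport _ h)

lemma lat_of_ne {b : Set (ℝ × ℝ)} {f : ℝ × ℝ → ℝ} (hf : TestOn b f) {δ : ℝ} (hδ : 0 < δ)
    {a q : ℤ × ℤ} (h : Wd δ f a q ≠ 0) : q + a ∈ lat δ b := by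
  have h1 := (Wd_supp hδ hf.2.1 h).2
  have h2 := hf.2.2 (subset_tsupport _ h1)
  exact h2

/-- The functional `Wd` is local. -/
lemma loc_Wd {K : Set (ℝ × ℝ)} {f : ℝ × ℝ → ℝ} (cf : HasCompactSupport f)
    (hf : ∀ x, f x ≠ 0 → x ∈ K) {δ : ℝ} (hδ : 0 < δ) : Loc (lat δ K) (ev (Wd δ f 0)) := by
  refine ⟨(Wd δ f 0).support, fun q hq => ?_, fun h h' hh => ?_⟩
  · rw [Finsupp.mem_support_iff] at hq
    have h1 := (Wd_supp hδ cf hq).2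
    have h2 := hf _ h1
    simp only [Prod.fst_zero, Prod.snd_zero, add_zero] at h2
    exact h2
  · unfold ev Finsupp.sum
    refine Finset.sum_congr rfl fun q hq => ?_
    simp only
    rw [hh q hq]

/-- **Product Schwinger-Dyson statement in a pinwheel.** -/
theorem fa_box {c : ℝ} {P : Measure (Ori (ℤ × ℤ))} (hPl : Pl c P)
    (hG : GRP P dX RX ∧ GRP P dY RY ∧ GRP P dD RD ∧ GRP P dA RA) (hP : FP.Hyp P) {κ : ℝ}
    (hclt : CLT P κ) {δ : ℕ → ℝ} (hδ : Tendsto δ atTop (𝓝[>] 0)) (b : PW) (hx : b.x1 < b.x2)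
    (hy : b.y1 < b.y2) (he : 0 < b.e) {f0 ψ χ ρ1 ρ4 : ℝ × ℝ → ℝ} (hf0 : TestOn b.box f0)
    (hψ : TestOn b.box ψ) (hχ : TestOn b.box χ) (iχ : ∫ x, χ x = 1) (hψχ : ∀ x, ψ x * χ x = 0)
    (hρ1 : TestOn b.K1 ρ1) (iρ1 : ∫ x, ρ1 x = 1) (hρ4 : TestOn b.K4 ρ4) (iρ4 : ∫ x, ρ4 x = 1)
    {L : ℝ} (hL : 1 ≤ L) (G1 G2 G3 G4 : ℕ → Hgt → ℂ)
    (l1 : ∀ n, Loc (lat (δ n) b.K1) (G1 n)) (l2 : ∀ n, Loc (lat (δ n) b.K2) (G2 n))
    (l3 : ∀ n, Loc (lat (δ n) b.K3) (G3 n)) (l4 : ∀ n, Loc (lat (δ n) b.K4) (G4 n))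
    (b2 : ∀ n h, ‖G2 n h‖ ≤ 1) (b3 : ∀ n h, ‖G3 n h‖ ≤ 1)
    (b1 : ∀ n h, ‖G1 n h‖ ≤ gl (nW (δ n) ρ1 0) L h)
    (b4 : ∀ n h, ‖G4 n h‖ ≤ gl (nW (δ n) ρ4 0) L h) :
    Tendsto (fun n => ∫ h, Yf (Wd (δ n) f0 0) (zW (δ n) (fun x => -lap ψ x) χ 0)
      (Real.exp (-(κ * ∫ x, ψ x * f0 x) - (κ / 2) * ∫ x, ψ x * (-lap ψ x))) h *
        G1 n h * G2 n h * G3 n h * G4 n h ∂(mu0 P)) atTop (𝓝 0) := by
  have := hPl.prob
  obtain ⟨ρ, hgeo⟩ := geo b hx hy he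
  have cg : HasCompactSupport (fun x => -lap ψ x) := hψ.lap.cs.neg
  have hg : Sm (fun x => -lap ψ x) := (PT.Sm.lap hψ.1).neg
  have hg0 : ∫ x, -lap ψ x = 0 := by rw [integral_neg, int_lap hψ.1 hψ.2.1, neg_zero]
  have hgb : TestOn b.box (fun x => -lap ψ x) := hψ.lap.neg
  obtain ⟨d1, hd1, -, happ1⟩ := app_nW hχ.2.1 hχ.1 iχ
  obtain ⟨d2, hd2, -, happ2⟩ := app_zW hχ.2.1 hχ.1 iχ cg hg hg0
  obtain ⟨d3, hd3, -, happ3⟩ := app_nW hρ1.2.1 hρ1.1 iρ1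
  obtain ⟨d4, hd4, -, happ4⟩ := app_nW hρ4.2.1 hρ4.1 iρ4
  obtain ⟨R0, F0, L0, hR0, hR0', hF0, hL0, hLf⟩ := smooth_bounds hf0.1 hf0.2.1
  have hsmall : ∀ᶠ n in atTop, 0 < δ n ∧ δ n ≤ 1 ∧ 8 * δ n ≤ b.e ∧ δ n ≤ d1 ∧ δ n ≤ d2 ∧
      δ n ≤ d3 ∧ δ n ≤ d4 := by
    have h0 : Tendsto δ atTop (𝓝 0) := hδ.mono_right nhdsWithin_le_nhds
    have hpos : ∀ᶠ n in atTop, 0 < δ n := hδ.eventually self_mem_nhdsWithin
    filter_upwards [hpos, h0.eventually (ge_mem_nhds one_pos),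
      h0.eventually (ge_mem_nhds (show 0 < b.e / 8 by positivity)), h0.eventually (ge_mem_nhds hd1),
      h0.eventually (ge_mem_nhds hd2), h0.eventually (ge_mem_nhds hd3),
      h0.eventually (ge_mem_nhds hd4)] with n a1 a2 a3 a4 a5 a6 a7
    exact ⟨a1, a2, by linarith, a4, a5, a6, a7⟩
  obtain ⟨n0, hn0⟩ := eventually_atTop.1 hsmall
  rw [← tendsto_add_atTop_iff_nat n0]
  set d : ℕ → ℝ := fun n => δ (n + n0) with hd
  have hdt : Tendsto d atTop (𝓝[>] 0) := hδ.comp (tendsto_add_atTop_nat n0)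
  have hdn : ∀ n, 0 < d n ∧ d n ≤ 1 ∧ 8 * d n ≤ b.e ∧ d n ≤ d1 ∧ d n ≤ d2 ∧ d n ≤ d3 ∧
      d n ≤ d4 := fun n => hn0 (n + n0) (by omega)
  choose a N xl xr yt ha hnear hN1 hbox hB hK1 hK2 hK3 hK4 using
    fun n => hgeo (d n) (hdn n).1 (hdn n).2.1 (hdn n).2.2.1
  set x0 : ℝ × ℝ := (0, b.y1) with hx0
  have hNear : Near d a x0 := ⟨fun n => (hdn n).1, ha, fun n => hnear n⟩
  obtain ⟨A1, M1⟩ := happ1 d a x0 hNear (fun n => (hdn n).2.2.2.1)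
  obtain ⟨A2, M2⟩ := happ2 d a x0 hNear (fun n => (hdn n).2.2.2.2.1)
  obtain ⟨A3, M3⟩ := happ3 d a x0 hNear (fun n => (hdn n).2.2.2.2.2.1)
  obtain ⟨A4, M4⟩ := happ4 d a x0 hNear (fun n => (hdn n).2.2.2.2.2.2)
  have A0 := app_Wd (fun n => (hdn n).1) (fun n => (hdn n).2.1) hf0.2.1 hL0 hLf hNear.near
  -- the data of the half plane statement
  have vanish : ∀ {f : ℝ × ℝ → ℝ}, TestOn b.box f → ∀ x : ℝ × ℝ, x.2 ≤ 0 → f (x + x0) = 0 := by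
    intro f hf x hxx
    by_contra h0
    have h1 := not_box hf h0
    have h2 := h1.2.2.1
    simp only [hx0, Prod.snd_add] at h2
    linarith
  have hdat : SDdat (fun x => f0 (x + x0)) (fun x => ψ (x + x0)) (fun x => χ (x + x0)) :=
    ⟨sm_add hf0.1 x0, cs_addr hf0.2.1 x0, vanish hf0, sm_add hψ.1 x0, cs_addr hψ.2.1 x0,
      vanish hψ, sm_add hχ.1 x0, cs_addr hχ.2.1 x0, vanish hχ, by
        have : ∀ x, ψ (x + x0) * χ (x + x0) = 0 := fun x => hψχ _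
        simp [this]⟩
  have A2' : App d (fun x => -lap (fun x => ψ (x + x0)) x)
      (fun n => zW (d n) (fun x => -lap ψ x) χ (a n)) := by
    have e : (fun x => -lap (fun x => ψ (x + x0)) x) = fun x => -lap ψ (x + x0) := by
      funext x; rw [lap_add]
    rw [e]
    exact A2
  have hSD := sdseq hP hclt hdt hdat A0 A2' A1 M2 M1
  have e1 : ∫ x, ψ (x + x0) * f0 (x + x0) = ∫ x, ψ x * f0 x :=
    int_addr (fun x => ψ x * f0 x) x0
  have e2 : ∫ x, ψ (x + x0) * (-lap (fun x => ψ (x + x0)) x) = ∫ x, ψ x * (-lap ψ x) := by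
    have : ∀ x, ψ (x + x0) * (-lap (fun x => ψ (x + x0)) x) =
        (fun x => ψ x * (-lap ψ x)) (x + x0) := fun x => by rw [lap_add]
    simp only [this]
    exact int_addr (fun x => ψ x * (-lap ψ x)) x0
  rw [e1, e2] at hSD
  set α : ℝ := Real.exp (-(κ * ∫ x, ψ x * f0 x) - (κ / 2) * ∫ x, ψ x * (-lap ψ x)) with hα
  obtain ⟨hinv, -, -, -⟩ := legs_all hPl hG
  -- the translated functionals
  set T : ℕ → Hgt → Hgt := fun n => pb (fun q => q - a n) with hT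
  have hTm : ∀ n, (mu0 P).map (T n) = mu0 P := by
    intro n
    have h2 : (2 : ℤ) ∣ (-a n).1 + (-a n).2 := by
      have := ha n
      simp only [Prod.fst_neg, Prod.snd_neg]
      omega
    have h1 := hinv (-a n) h2
    have e : T n = pb (fun q => q + -a n) := by
      rw [hT]
      simp only [sub_eq_add_neg]
    rw [e]
    exact h1
  have hmT : ∀ n, Measurable (T n) := fun n => measurable_pb _
  have hLoc : ∀ {K : Set (ℝ × ℝ)} {A : Set (ℤ × ℤ)} {G : Hgt → ℂ} {n : ℕ},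
      Loc (lat (d n) K) G → (∀ q, q + a n ∈ lat (d n) K → q ∈ A) → Loc A (fun h => G (T n h)) := by
    intro K A G n hl hA
    refine hl.comp_pb (fun q => q - a n) fun q hq => hA _ ?_
    rw [sub_add_cancel]
    exact hq
  have hgl1 : ∀ n h, gl (nW (d n) ρ1 0) L (T n h) = gl (nW (d n) ρ1 (a n)) L h := by
    intro n h
    unfold gl
    rw [hT]
    simp only
    rw [ev_nW_back (hdn n).1 hρ1.2.1 (ha n)]
  have hgl4 : ∀ n h, gl (nW (d n) ρ4 0) L (T n h) = gl (nW (d n) ρ4 (a n)) L h := by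
    intro n h
    unfold gl
    rw [hT]
    simp only
    rw [ev_nW_back (hdn n).1 hρ4.2.1 (ha n)]
  obtain ⟨C, hC, hgint⟩ := gl_int
  have hAdm : ∀ {A : Set (ℤ × ℤ)} {G : Hgt → ℂ} {φ : (ℤ × ℤ) →₀ ℝ}, mass φ = 1 → Loc A G →
      (∀ h, ‖G h‖ ≤ gl φ L h) → Adm P A G ∧ ∫ h, ‖G h‖ ∂(mu0 P) ≤ C * L := by
    intro A G φ hm hl hb
    obtain ⟨i1, i2, -⟩ := hgint P φ hm L hL
    have hi : Integrable G (mu0 P) :=
      i1.mono' hl.measurable.aestronglyMeasurable (Eventually.of_forall hb)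
    exact ⟨⟨hl, ⟨1, fun h => (hb h).trans (gl_le_one _ _ _)⟩, hi⟩,
      (integral_mono hi.norm i1 hb).trans i2⟩
  have adm1 : ∀ n, Adm P {q | q.1 ≤ xl n - 2 * N n ∧ |q.1| ≤ ρ * N n ∧ |q.2| ≤ ρ * N n}
      (fun h => G1 (n + n0) (T n h)) ∧ ∫ h, ‖G1 (n + n0) (T n h)‖ ∂(mu0 P) ≤ C * L := fun n =>
    hAdm (M3 n) (hLoc (l1 (n + n0)) (fun q hq => hK1 n q hq)) fun h => by
      rw [← hgl1]; exact b1 (n + n0) _
  have adm4 : ∀ n, Adm P {q | q.2 ≤ 0 ∧ q.2 ≤ yt n ∧ xl n ≤ q.1 ∧ q.1 ≤ xr n ∧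
      |q.1| ≤ ρ * N n ∧ |q.2| ≤ ρ * N n} (fun h => G4 (n + n0) (T n h)) ∧
      ∫ h, ‖G4 (n + n0) (T n h)‖ ∂(mu0 P) ≤ C * L := fun n =>
    hAdm (M4 n) (hLoc (l4 (n + n0)) (fun q hq => hK4 n q hq)) fun h => by
      rw [← hgl4]; exact b4 (n + n0) _
  -- tightness
  have hTight : Tight P (fun n => nW (d n) χ (a n)) (fun n h => G4 (n + n0) (T n h)) := by
    refine tight_of (ρ := fun n => nW (d n) ρ4 (a n)) (a := κ / 2 *
      gffCov (fun x => χ (x + x0) - ρ4 (x + x0)) (fun x => χ (x + x0) - ρ4 (x + x0))) M1 M4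
      (fun z => ?_) hL fun n h => ?_
    · have hAz := (A1.sub A4).smul z
      have hcs : HasCompactSupport (fun x => χ (x + x0) - ρ4 (x + x0)) :=
        cs_sub (cs_addr hχ.2.1 x0) (cs_addr hρ4.2.1 x0)
      have hTest : Test (fun x => z * (χ (x + x0) - ρ4 (x + x0))) := by
        refine ⟨contDiff_const.mul ((sm_add hχ.1 x0).sub (sm_add hρ4.1 x0)), hcs.mul_left, ?_⟩
        have i1 : Integrable (fun x => χ (x + x0)) :=
          (sm_add hχ.1 x0).continuous.integrable_of_hasCompactSupport (cs_addr hχ.2.1 x0)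
        have i2 : Integrable (fun x => ρ4 (x + x0)) :=
          (sm_add hρ4.1 x0).continuous.integrable_of_hasCompactSupport (cs_addr hρ4.2.1 x0)
        rw [integral_const_mul, integral_sub i1 i2, int_addr χ x0, int_addr ρ4 x0, iχ, iρ4,
          sub_self, mul_zero]
      have h1 := app_char hP hclt hdt hTest hAz
      rw [gffCov_smul (fun x => χ (x + x0) - ρ4 (x + x0)) z] at h1
      have e3 : Complex.exp (-((κ / 2 * (z ^ 2 * gffCov (fun x => χ (x + x0) - ρ4 (x + x0))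
          (fun x => χ (x + x0) - ρ4 (x + x0))) : ℝ) : ℂ)) =
          ((Real.exp (-((κ / 2 * gffCov (fun x => χ (x + x0) - ρ4 (x + x0))
          (fun x => χ (x + x0) - ρ4 (x + x0))) * z ^ 2)) : ℝ) : ℂ) := by
        rw [← Complex.ofReal_neg, ← Complex.ofReal_exp]
        congr 3
        ring
      rw [e3] at h1
      refine h1.congr fun n => ?_
      simp only [ev_smul]
    · rw [← hgl4]; exact b4 (n + n0) _
  have hres := fa_pl hPl hG hSD ρ N xl xr yt hN1 hbox ?_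
    (fun n h => G1 (n + n0) (T n h)) (fun n h => G2 (n + n0) (T n h))
    (fun n h => G3 (n + n0) (T n h)) (fun n h => G4 (n + n0) (T n h)) (C * L)
    (fun n => (adm1 n).1) (fun n => hLoc (l2 (n + n0)) (fun q hq => hK2 n q hq))
    (fun n => hLoc (l3 (n + n0)) (fun q hq => hK3 n q hq)) (fun n => (adm4 n).1)
    (fun n h => (b1 _ _).trans (gl_le_one _ _ _)) (fun n h => b2 _ _) (fun n h => b3 _ _)
    (fun n h => (b4 _ _).trans (gl_le_one _ _ _)) (fun n => (adm1 n).2) (fun n => (adm4 n).2)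
    hTight
  · refine hres.congr fun n => ?_
    have hFm : Measurable fun h => Yf (Wd (d n) f0 0) (zW (d n) (fun x => -lap ψ x) χ 0) α h *
        G1 (n + n0) h * G2 (n + n0) h * G3 (n + n0) h * G4 (n + n0) h :=
      ((((measurable_Yf _ _ _).mul (l1 _).measurable).mul (l2 _).measurable).mul
        (l3 _).measurable).mul (l4 _).measurable
    have h1 := integral_map (μ := mu0 P) (hmT n).aemeasurable
      (f := fun h => Yf (Wd (d n) f0 0) (zW (d n) (fun x => -lap ψ x) χ 0) α h *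
        G1 (n + n0) h * G2 (n + n0) h * G3 (n + n0) h * G4 (n + n0) h)
      hFm.aestronglyMeasurable
    rw [hTm n] at h1
    rw [h1]
    refine integral_congr_ae (Eventually.of_forall fun h => ?_)
    simp only
    have e4 : Yf (Wd (d n) f0 0) (zW (d n) (fun x => -lap ψ x) χ 0) α (T n h) =
        Yf (Wd (d n) f0 (a n)) (zW (d n) (fun x => -lap ψ x) χ (a n)) α h := by
      unfold Yf
      rw [hT]
      simp only
      rw [ev_Wd_back (hdn n).1 hf0.2.1 (ha n), ev_zW_back (hdn n).1 cg hχ.2.1 (ha n)]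
    rw [e4]
  · intro n q hq
    refine hB n q ?_
    rcases hq with hq | hq | hq
    · exact lat_of_ne hf0 (hdn n).1 (Finsupp.mem_support_iff.1 hq)
    · rcases zW_supp (Finsupp.mem_support_iff.1 hq) with h | h
      · exact lat_of_ne hgb (hdn n).1 h
      · exact lat_of_ne hχ (hdn n).1 h
    · exact lat_of_ne hχ (hdn n).1 (nW_supp (Finsupp.mem_support_iff.1 hq))

end Vale.Agent.P145.FA.Use
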