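import Vale.Agent.P145.FA.Use

/-!
P145, block F-A: the Schwinger-Dyson equations for the moments, hypotheses for large `n` only and
even moments only.
-/

namespace Vale.Agent.P145.FA.Use

open Finset Filter Topology MeasureTheory
open Vale.Agent.P152
open Vale.Agent.P145.PT (Sm TestOn lap)

/-- Hypotheses on the four factors and on the even moments, for large `n`. -/
structure DatE (P : Measure (Ori (ℤ × ℤ))) (δ : ℕ → ℝ) (b : PW) (D : Set (ℝ × ℝ))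
    (X1 X2 X3 X4 X : ℕ → Hgt → ℝ) : Prop where
  hx : b.x1 < b.x2
  hy : b.y1 < b.y2
  he : 0 < b.e
  hbD : b.box ⊆ D
  l1 : ∀ᶠ n in atTop, Loc (lat (δ n) b.K1) (X1 n)
  l2 : ∀ᶠ n in atTop, Loc (lat (δ n) b.K2) (X2 n)
  l3 : ∀ᶠ n in atTop, Loc (lat (δ n) b.K3) (X3 n)
  l4 : ∀ᶠ n in atTop, Loc (lat (δ n) b.K4) (X4 n)
  n1 : ∀ᶠ n in atTop, ∀ h, 0 ≤ X1 n h ∧ X1 n h ≤ 1
  n2 : ∀ᶠ n in atTop, ∀ h, 0 ≤ X2 n h ∧ X2 n h ≤ 1
  n3 : ∀ᶠ n in atTop, ∀ h, 0 ≤ X3 n h ∧ X3 n h ≤ 1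
  n4 : ∀ᶠ n in atTop, ∀ h, 0 ≤ X4 n h ∧ X4 n h ≤ 1
  hX : ∀ᶠ n in atTop, ∀ h, X n h = X1 n h * X2 n h * X3 n h * X4 n h
  int : ∀ᶠ n in atTop, Integrable (X n) (mu0 P)
  pos : ∃ c0 : ℝ, 0 < c0 ∧ ∀ᶠ n in atTop, c0 ≤ ∫ h, X n h ∂(mu0 P)
  mom : ∀ f, TestOn D f → ∀ k : ℕ, ∃ C : ℝ, ∀ᶠ n in atTop,
    Integrable (fun h => Lf (δ n) f h ^ (2 * k) * X n h) (mu0 P) ∧
    ∫ h, Lf (δ n) f h ^ (2 * k) * X n h ∂(mu0 P) ≤ C * ∫ h, X n h ∂(mu0 P)
  r1 : ∃ ρ : ℝ × ℝ → ℝ, TestOn (b.K1 ∩ D) ρ ∧ ∫ x, ρ x = 1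
  r4 : ∃ ρ : ℝ × ℝ → ℝ, TestOn (b.K4 ∩ D) ρ ∧ ∫ x, ρ x = 1

variable {P : Measure (Ori (ℤ × ℤ))} {δ : ℕ → ℝ} {b : PW} {D : Set (ℝ × ℝ)}
  {X1 X2 X3 X4 X : ℕ → Hgt → ℝ}

lemma psi_g {ψ g : ℝ × ℝ → ℝ} (he : 0 < b.e) (hψ : TestOn b.box ψ)
    (hgK : ∀ x, g x ≠ 0 → x ∈ b.K1 ∨ x ∈ b.K2 ∨ x ∈ b.K3 ∨ x ∈ b.K4) (x : ℝ × ℝ) :
    ψ x * g x = 0 := by
  by_cases h1 : ψ x = 0
  · rw [h1, zero_mul]
  by_cases h2 : g x = 0
  · rw [h2, mul_zero]
  exfalso
  obtain ⟨a1, a2, a3, a4⟩ := not_box hψ h1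
  rcases hgK x h2 with h | h | h | h
  · have := h.1; linarith
  · have := h.1; linarith
  · have := h.1; linarith
  · have := h.1; linarith

theorem useE {c : ℝ} (hPl : Pl c P)
    (hG : GRP P dX RX ∧ GRP P dY RY ∧ GRP P dD RD ∧ GRP P dA RA) (hP : FP.Hyp P) {κ : ℝ}
    (hclt : CLT P κ) (hδp : ∀ n, 0 < δ n) (hδ : Tendsto δ atTop (𝓝[>] 0))
    (d : DatE P δ b D X1 X2 X3 X4 X) {ψ f0 g : ℝ × ℝ → ℝ} (hψ : TestOn b.box ψ)
    (hf0 : TestOn b.box f0) (hg : TestOn D g)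
    (hgK : ∀ x, g x ≠ 0 → x ∈ b.K1 ∨ x ∈ b.K2 ∨ x ∈ b.K3 ∨ x ∈ b.K4) (k : ℕ) :
    Tendsto (fun n => (∫ h, Lf (δ n) (lap ψ) h * Lf (δ n) (fun x => f0 x + g x) h ^ (k + 1) *
        X n h ∂(mu0 P) +
      κ * (k + 1) * (∫ x, ψ x * (f0 x + g x)) *
        ∫ h, Lf (δ n) (fun x => f0 x + g x) h ^ k * X n h ∂(mu0 P)) /
          ∫ h, X n h ∂(mu0 P)) atTop (𝓝 0) := by
  classical
  obtain ⟨N, hN⟩ := eventually_atTop.1 (d.l1.and (d.l2.and (d.l3.and (d.l4.and (d.n1.and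
    (d.n2.and (d.n3.and (d.n4.and d.hX))))))))
  set Y1 : ℕ → Hgt → ℝ := fun n => if N ≤ n then X1 n else fun _ => 0 with hY1
  set Y2 : ℕ → Hgt → ℝ := fun n => if N ≤ n then X2 n else fun _ => 0 with hY2
  set Y3 : ℕ → Hgt → ℝ := fun n => if N ≤ n then X3 n else fun _ => 0 with hY3
  set Y4 : ℕ → Hgt → ℝ := fun n => if N ≤ n then X4 n else fun _ => 0 with hY4
  set Y : ℕ → Hgt → ℝ := fun n => if N ≤ n then X n else fun _ => 0 with hY
  have hc : ∀ A : Set (ℤ × ℤ), Loc A (fun _ : Hgt => (0 : ℝ)) := fun A =>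
    ⟨∅, fun q hq => absurd hq (Finset.notMem_empty q), fun _ _ _ => rfl⟩
  have hYX : ∀ᶠ n in atTop, Y n = X n := by
    filter_upwards [eventually_ge_atTop N] with n hn
    simp only [hY, if_pos hn]
  have dd : Dat P δ b D Y1 Y2 Y3 Y4 Y := by
    refine ⟨d.hx, d.hy, d.he, d.hbD, ?_, ?_, ?_, ?_, ?_, ?_, ?_, ?_, ?_, ?_, ?_, ?_, ?_, ?_⟩
    · intro n
      by_cases hn : N ≤ n
      · simp only [hY1, if_pos hn]; exact (hN n hn).1
      · simp only [hY1, if_neg hn]; exact hc _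
    · intro n
      by_cases hn : N ≤ n
      · simp only [hY2, if_pos hn]; exact (hN n hn).2.1
      · simp only [hY2, if_neg hn]; exact hc _
    · intro n
      by_cases hn : N ≤ n
      · simp only [hY3, if_pos hn]; exact (hN n hn).2.2.1
      · simp only [hY3, if_neg hn]; exact hc _
    · intro n
      by_cases hn : N ≤ n
      · simp only [hY4, if_pos hn]; exact (hN n hn).2.2.2.1
      · simp only [hY4, if_neg hn]; exact hc _
    · intro n h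
      by_cases hn : N ≤ n
      · simp only [hY1, if_pos hn]; exact (hN n hn).2.2.2.2.1 h
      · simp only [hY1, if_neg hn]; norm_num
    · intro n h
      by_cases hn : N ≤ n
      · simp only [hY2, if_pos hn]; exact (hN n hn).2.2.2.2.2.1 h
      · simp only [hY2, if_neg hn]; norm_num
    · intro n h
      by_cases hn : N ≤ n
      · simp only [hY3, if_pos hn]; exact (hN n hn).2.2.2.2.2.2.1 h
      · simp only [hY3, if_neg hn]; norm_num
    · intro n h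
      by_cases hn : N ≤ n
      · simp only [hY4, if_pos hn]; exact (hN n hn).2.2.2.2.2.2.2.1 h
      · simp only [hY4, if_neg hn]; norm_num
    · intro n h
      by_cases hn : N ≤ n
      · simp only [hY, hY1, hY2, hY3, hY4, if_pos hn]; exact (hN n hn).2.2.2.2.2.2.2.2 h
      · simp only [hY, hY1, hY2, hY3, hY4, if_neg hn]; norm_num
    · filter_upwards [d.int, hYX] with n h1 h2
      rw [h2]; exact h1
    · obtain ⟨c0, hc0, h⟩ := d.pos
      refine ⟨c0, hc0, ?_⟩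
      filter_upwards [h, hYX] with n h1 h2
      rw [h2]; exact h1
    · intro f hf k
      obtain ⟨C, hC⟩ := d.mom f hf k
      obtain ⟨c0, hc0, hpos⟩ := d.pos
      refine ⟨1 + |C|, by positivity, ?_⟩
      filter_upwards [hC, hpos, hYX, d.int, eventually_ge_atTop N] with n h1 h2 h3 h4 h5
      rw [h3]
      have hI : 0 < ∫ h, X n h ∂(mu0 P) := lt_of_lt_of_le hc0 h2
      have hX0 : ∀ h, 0 ≤ X n h := by
        intro h
        obtain ⟨-, -, -, -, e1, e2, e3, e4, e5⟩ := hN n h5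
        rw [e5 h]
        exact mul_nonneg (mul_nonneg (mul_nonneg (e1 h).1 (e2 h).1) (e3 h).1) (e4 h).1
      have key : ∀ h, |Lf (δ n) f h| ^ k * X n h ≤ X n h + Lf (δ n) f h ^ (2 * k) * X n h := by
        intro h
        have e1 : Lf (δ n) f h ^ (2 * k) = (|Lf (δ n) f h| ^ k) ^ 2 := by
          rw [← pow_mul, mul_comm k 2, pow_mul |Lf (δ n) f h|, sq_abs, ← pow_mul]
        rw [e1]
        have e2 : |Lf (δ n) f h| ^ k ≤ 1 + (|Lf (δ n) f h| ^ k) ^ 2 := by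
          nlinarith [sq_nonneg (|Lf (δ n) f h| ^ k - 1), sq_nonneg (|Lf (δ n) f h| ^ k)]
        nlinarith [hX0 h]
      have hi2 : Integrable (fun h => X n h + Lf (δ n) f h ^ (2 * k) * X n h) (mu0 P) :=
        h4.add h1.1
      have hi : Integrable (fun h => |Lf (δ n) f h| ^ k * X n h) (mu0 P) := by
        refine hi2.mono' ?_ (Eventually.of_forall fun h => ?_)
        · have m1 : Measurable (fun h => |Lf (δ n) f h| ^ k) := by
            have := measurable_Lf (δ n) f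
            fun_prop
          exact m1.aestronglyMeasurable.mul h4.1
        · rw [Real.norm_eq_abs, abs_of_nonneg (mul_nonneg (by positivity) (hX0 h))]
          exact key h
      refine ⟨hi, (integral_mono hi hi2 key).trans ?_⟩
      rw [integral_add h4 h1.1, add_mul, one_mul]
      refine add_le_add le_rfl (h1.2.trans ?_)
      exact mul_le_mul_of_nonneg_right (le_abs_self C) hI.le
    · obtain ⟨ρ, h1, h2⟩ := d.r1
      exact ⟨ρ, h1.mono Set.inter_subset_left, h1.mono Set.inter_subset_right, h2⟩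
    · obtain ⟨ρ, h1, h2⟩ := d.r4
      exact ⟨ρ, h1.mono Set.inter_subset_left, h1.mono Set.inter_subset_right, h2⟩
  have h1 := use hPl hG hP hclt hδp hδ dd hψ hf0 hg hgK k
  refine h1.congr' ?_
  filter_upwards [hYX] with n hn
  rw [hn]
  have e1 : ∫ x, ψ x * (f0 x + g x) = ∫ x, ψ x * f0 x := by
    refine integral_congr_ae (Eventually.of_forall fun x => ?_)
    simp only
    rw [mul_add, psi_g d.he hψ hgK, add_zero]
  rw [e1, add_div]
  ring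

end Vale.Agent.P145.FA.Use
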